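import Vale.Agent.P146.H329.Fb3

/-!
Pythagoras for the decomposition of a gradient field: linear part, profile, rest.
-/

open MeasureTheory ProbabilityTheory Filter Topology

namespace Vale.Agent.P146.H329

open Vale.Agent.P157.Lv

set_option linter.unusedSectionVars false

variable {ι : Type} [Fintype ι] [DecidableEq ι]

variable {a : ι → (ι → ℝ) → ℝ} {H : ι → ι → (ι → ℝ) → ℝ} {v : ι → ℝ}

lemma GF.eg_al (ha : GF a H) (v : ι → ℝ) : EG (al v a H) :=
  eg_comp_dv ((ha.cce v).sub (CcE.id.cm _)) v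

lemma GF.cce_al (ha : GF a H) (v : ι → ℝ) : CcE fun t => prof v a t - mv v H * t :=
  (ha.cce v).sub (CcE.id.cm _)

/-- `∫ al (v·a^nl) = ∫ al²`. -/
lemma int_al_nl (ha : GF a H) (hv : ∑ i, v i ^ 2 = 1) :
    ∫ z, al v a H z * ∑ i, v i * nl a H i z ∂(gI ι) = ∫ z, al v a H z ^ 2 ∂(gI ι) := by
  have e : EG fun z => ∑ i, v i * nl a H i z :=
    EG.sum Finset.univ fun i _ => (ha.eg_nl i).const_mul _
  have h := int_pr hv e (ha.cce_al v)
  simp only [pr_nl ha hv] at h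
  have e1 : ∫ z, al v a H z * ∑ i, v i * nl a H i z ∂(gI ι) =
      ∫ z, (prof v a (dv v z) - mv v H * dv v z) * ∑ i, v i * nl a H i z ∂(gI ι) := rfl
  rw [e1, h]
  congr 1
  funext z
  unfold al
  ring

/-- **`∫ |a^nl|² = ∫ al² + ∫ |a^nl - v al|²`**. -/
theorem nl_split (ha : GF a H) (hv : ∑ i, v i ^ 2 = 1) :
    ∫ z, ∑ i, nl a H i z ^ 2 ∂(gI ι) = ∫ z, al v a H z ^ 2 ∂(gI ι) +
      ∫ z, ∑ i, (nl a H i z - v i * al v a H z) ^ 2 ∂(gI ι) := by
  have eal := ha.eg_al v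
  have env : EG fun z => ∑ i, v i * nl a H i z :=
    EG.sum Finset.univ fun i _ => (ha.eg_nl i).const_mul _
  have enn : EG fun z => ∑ i, nl a H i z ^ 2 := EG.sum Finset.univ fun i _ => (ha.eg_nl i).pow 2
  have e1 : ∀ z, ∑ i, (nl a H i z - v i * al v a H z) ^ 2 =
      ∑ i, nl a H i z ^ 2 - 2 * (al v a H z * ∑ i, v i * nl a H i z) + (al v a H z ^ 2 + 0) := by
    intro z
    have : ∑ i, (nl a H i z - v i * al v a H z) ^ 2 =
        ∑ i, nl a H i z ^ 2 - 2 * al v a H z * (∑ i, v i * nl a H i z) +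
          al v a H z ^ 2 * ∑ i, v i ^ 2 := by
      rw [Finset.mul_sum, Finset.mul_sum, ← Finset.sum_sub_distrib, ← Finset.sum_add_distrib]
      exact Finset.sum_congr rfl fun i _ => by ring
    rw [this, hv]; ring
  have h4 := int4 (f := fun z => ∑ i, nl a H i z ^ 2)
    (g := fun z => 2 * (al v a H z * ∑ i, v i * nl a H i z)) (h := fun z => al v a H z ^ 2)
    (k := fun _ => 0) enn ((eal.mul env).const_mul _) (eal.pow 2) (EG.const 0)
  have h5 : ∫ z, ∑ i, (nl a H i z - v i * al v a H z) ^ 2 ∂(gI ι) = ∫ z,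
      (∑ i, nl a H i z ^ 2 - 2 * (al v a H z * ∑ i, v i * nl a H i z) +
        (al v a H z ^ 2 + 0)) ∂(gI ι) := by
    congr 1; funext z; exact e1 z
  rw [h5, h4, integral_const_mul, int_al_nl ha hv, integral_zero]
  ring

/-- `eta ≥ alpha1 - eps1` in the squared form `alpha1² ≤ 2 eta² + 2 eps1²`, and
`alpha1² = eta² + eps1²` exactly; here with the bound of `eps1_le`. -/
theorem eta_lower (ha : GF a H) (hv : ∑ i, v i ^ 2 = 1) :
    ∫ z, ∑ i, nl a H i z ^ 2 ∂(gI ι) - 2 * ∑ i, ∑ j, ∫ z, ((H i j z - MH H i j) -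
        v i * ∑ k, v k * (H k j z - MH H k j)) ^ 2 ∂(gI ι) ≤ ∫ z, al v a H z ^ 2 ∂(gI ι) := by
  have h1 := nl_split ha hv
  have h2 := eps1_le ha hv
  linarith

/-- **`∫ |a|² = |E H|² + ∫ |a^nl|²`.** -/
theorem field_split (ha : GF a H) :
    ∫ z, ∑ i, a i z ^ 2 ∂(gI ι) = ∑ i, ∑ j, MH H i j ^ 2 +
      ∫ z, ∑ i, nl a H i z ^ 2 ∂(gI ι) := by
  have key : ∀ i, ∫ z, a i z ^ 2 ∂(gI ι) = ∑ j, MH H i j ^ 2 + ∫ z, nl a H i z ^ 2 ∂(gI ι) := by
    intro i
    have el : EG fun z : ι → ℝ => ∑ j, MH H i j * z j := eg_lin _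
    have en := ha.eg_nl i
    -- `∫ (lin) nl = 0`
    have h0 : ∫ z, (∑ j, MH H i j * z j) * nl a H i z ∂(gI ι) = 0 := by
      have e1 : (fun z => (∑ j, MH H i j * z j) * nl a H i z) =
          fun z => ∑ j, MH H i j * (z j * nl a H i z) := by
        funext z
        rw [Finset.sum_mul]
        exact Finset.sum_congr rfl fun j _ => by ring
      rw [e1, integral_finsetSum _ fun j _ => (((EG.coord j).mul en).const_mul _).integrable]
      simp [integral_const_mul, stein_nl ha]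
    have h1 : ∫ z : ι → ℝ, (∑ j, MH H i j * z j) ^ 2 ∂(gI ι) = ∑ j, MH H i j ^ 2 := by
      have e1 : (fun z : ι → ℝ => (∑ j, MH H i j * z j) ^ 2) =
          fun z => ∑ j, MH H i j * (z j * ∑ k, MH H i k * z k) := by
        funext z
        rw [sq, Finset.sum_mul]
        exact Finset.sum_congr rfl fun j _ => by ring
      rw [e1, integral_finsetSum _ fun j _ => (((EG.coord j).mul el).const_mul _).integrable]
      refine Finset.sum_congr rfl fun j _ => ?_
      rw [integral_const_mul, int_z_lin]; ring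
    have h4 := int4 (f := fun z => (∑ j, MH H i j * z j) ^ 2) (g := fun _ => 0)
      (h := fun z => nl a H i z ^ 2)
      (k := fun z => 2 * ((∑ j, MH H i j * z j) * nl a H i z)) (el.pow 2) (EG.const 0)
      (en.pow 2) ((el.mul en).const_mul _)
    have h5 : ∫ z, a i z ^ 2 ∂(gI ι) = ∫ z, ((∑ j, MH H i j * z j) ^ 2 - 0 +
        (nl a H i z ^ 2 + 2 * ((∑ j, MH H i j * z j) * nl a H i z))) ∂(gI ι) := by
      congr 1; funext z
      unfold nl
      ring
    rw [h5, h4, integral_const_mul, h0, h1, integral_zero]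
    ring
  rw [integral_finsetSum _ fun i _ => ((ha.eg i).pow 2).integrable,
    integral_finsetSum _ fun i _ => ((ha.eg_nl i).pow 2).integrable,
    Finset.sum_congr rfl fun i _ => key i, Finset.sum_add_distrib]

/-- **`|E H|² = m² + |E H - m v v'|²`**. -/
theorem MH_split (hv : ∑ i, v i ^ 2 = 1) :
    ∑ i, ∑ j, MH H i j ^ 2 = mv v H ^ 2 +
      ∑ i, ∑ j, (MH H i j - mv v H * (v i * v j)) ^ 2 := by
  have e1 : ∑ i, ∑ j, (MH H i j - mv v H * (v i * v j)) ^ 2 =
      ∑ i, ∑ j, MH H i j ^ 2 - 2 * mv v H * (∑ i, ∑ j, v i * MH H i j * v j) +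
        mv v H ^ 2 * (∑ i, ∑ j, v i ^ 2 * v j ^ 2) := by
    simp only [Finset.mul_sum]
    rw [← Finset.sum_sub_distrib, ← Finset.sum_add_distrib]
    refine Finset.sum_congr rfl fun i _ => ?_
    rw [← Finset.sum_sub_distrib, ← Finset.sum_add_distrib]
    exact Finset.sum_congr rfl fun j _ => by ring
  have e2 : ∑ i, ∑ j, v i ^ 2 * v j ^ 2 = 1 := by
    simp only [← Finset.mul_sum, hv, mul_one]
  have e3 : ∑ i, ∑ j, v i * MH H i j * v j = mv v H := rfl
  rw [e1, e2, e3]; ring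

/-- Poincaré for the nonlinear part: `∫ |a^nl|² ≤ ∫ |H - E H|²`. -/
theorem nl_le (ha : GF a H) :
    ∫ z, ∑ i, nl a H i z ^ 2 ∂(gI ι) ≤ ∑ i, ∑ j, ∫ z, (H i j z - MH H i j) ^ 2 ∂(gI ι) := by
  have hodd : ∀ i z, nl a H i (-z) = -nl a H i z := by
    intro i z
    unfold nl
    rw [ha.odd]
    simp only [Pi.neg_apply, mul_neg, Finset.sum_neg_distrib]
    ring
  rw [integral_finsetSum _ fun i _ => ((ha.eg_nl i).pow 2).integrable]
  refine Finset.sum_le_sum fun i _ => ?_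
  have h := cc_var_le_one (ha.eg_nl i) (fun e => (ha.fd_nl i).pd e)
    (fun e => (ha.egH i e).sub (EG.const _))
  have h0 : ∫ z, nl a H i z ∂(gI ι) = 0 := int_odd (ha.eg_nl i) (hodd i)
  simpa only [h0, sub_zero] using h

/-- the profile is controlled by the field: `∫ prof² ≤ ∫ |a|²`. -/
theorem prof_le_field (ha : GF a H) (hv : ∑ i, v i ^ 2 = 1) :
    ∫ z, prof v a (dv v z) ^ 2 ∂(gI ι) ≤ ∫ z, ∑ i, a i z ^ 2 ∂(gI ι) := by
  refine (prof_sq_le ha hv).trans ?_
  refine integral_mono ((ha.va v).pow 2).integrable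
    (EG.sum Finset.univ fun i _ => (ha.eg i).pow 2).integrable fun z => ?_
  refine (Finset.sum_mul_sq_le_sq_mul_sq _ _ _).trans ?_
  rw [hv, one_mul]

end Vale.Agent.P146.H329
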