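import Vale.Agent.P146.H329.Bk0
import Vale.Agent.P146.H504.Cum6
import Vale.Agent.P146.H633.BlkS
import Vale.Agent.P146.H332.CRowS
import Vale.Agent.P146.H645.CSys

/-!
P146, plan R1, per bulk facts: the sizes of the nonlinear parts of the row field of a position
system in terms of the 4-tensor of the root law.
-/

open Matrix MeasureTheory ProbabilityTheory

set_option linter.unusedSectionVars false

namespace Vale.Agent.P146.H329

open Vale.Agent.P157.Lv Vale.Agent.P146.H425 Vale.Agent.P146.H325 Vale.Agent.P146.H712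
  Vale.Agent.P146.R1 Vale.Agent.P146.R1C Vale.Agent.P146.Cum Vale.Agent.P146.H332
  Vale.Agent.P146.H522 Vale.Agent.P146.H633 Vale.Agent.P146.R1S

variable {n : ℕ} {k x s Γ η : ℝ} {b b' : Fin n}

lemma pj_ubq {v : Fin n → ℝ} (vb : v b = 0) (vb' : v b' = 0) (σ : Fin n → ℤˣ) (i : Fin n) :
    ∑ l, pq b b' v i l * sp σ l = (pj v *ᵥ ubq b b' σ) i := by
  have h0 : ∀ l, (l = b ∨ l = b') → v l = 0 := by
    rintro l (h | h)
    · rw [h, vb]
    · rw [h, vb']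
  unfold mulVec dotProduct
  refine Finset.sum_congr rfl fun l _ => ?_
  show pq b b' v i l * sp σ l = pj v i l * ubq b b' σ l
  rw [pj_apply]
  unfold pq ubq
  by_cases hl : l = b ∨ l = b'
  · rw [if_pos (Or.inr hl), if_pos hl]; ring
  · rw [if_neg hl]
    by_cases hi : i = b ∨ i = b'
    · rw [if_pos (Or.inl hi), h0 i hi]
      have hil : i ≠ l := by
        rintro rfl
        exact hl hi
      rw [if_neg hil]; ring
    · rw [if_neg (by tauto)]

/-- The projected fourth moment of the overlap is the norm of the projected 4-tensor. -/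
lemma qP_pq (S : CS n k x) {v : Fin n → ℝ} (hv : ∑ i, v i ^ 2 = 1) (vb : v b = 0)
    (vb' : v b' = 0) (s : ℝ) (z : Pair n → ℝ) :
    qP S (pq b b' v) s z = n4 (rho4 (pj v) (tX (S.mu s z) (ubq b b'))) := by
  rw [← rep_P _ _ hv]
  unfold qP
  refine Finset.sum_congr rfl fun σ _ => ?_
  rw [Finset.mul_sum]
  refine Finset.sum_congr rfl fun τ _ => ?_
  rw [← mul_assoc]
  congr 2
  simp only [pj_ubq vb vb']
  have h1 : ∑ i, (pj v *ᵥ ubq b b' σ) i * (pj v *ᵥ ubq b b' τ) i =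
      (pj v *ᵥ ubq b b' σ) ⬝ᵥ (pj v *ᵥ ubq b b' τ) := rfl
  rw [h1, dotProduct_mulVec, vecMul_mulVec, pj_T, pj_mul_self hv, ← dotProduct_mulVec]

lemma qP_id (S : CS n k x) (s : ℝ) (z : Pair n → ℝ) : qP S idq s z = qT S s z := by
  rw [qT_eq]
  unfold qP idq
  simp

lemma qT_le (S : CS n k x) (s : ℝ) (z : Pair n → ℝ) :
    qT S s z ≤ 2 * fr (S.A s z) ^ 2 + 2 * KT (S.T4 s z) (S.A s z) :=
  n4_le (S.T4 s z) (S.A s z)

lemma eg_frA (S : CS n k x) (s : ℝ) : EG fun z => fr (S.A s z) :=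
  EG.sum _ fun i _ => EG.sum _ fun j _ => (S.eg_A s i j).pow 2

lemma eg_KT (S : CS n k x) (s : ℝ) : EG fun z => KT (S.T4 s z) (S.A s z) :=
  EG.sum _ fun i _ => EG.sum _ fun j _ => EG.sum _ fun p _ => EG.sum _ fun q _ =>
    ((S.eg_T4 s i j p q).sub ((S.eg_A s i j).mul (S.eg_A s p q))).pow 2

lemma AvP_qT_le (S : CS n k x) (s : ℝ) (R : Finset (Pair n)) (z : Pair n → ℝ) :
    AvP s R (qT S s) z ≤ 2 * AvP s R (fun z => fr (S.A s z) ^ 2) z +
      2 * AvP s R (fun z => KT (S.T4 s z) (S.A s z)) z := by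
  have e1 := (eg_frA S s).pow 2
  have e2 := eg_KT S s
  rw [← AvP_const_mul, ← AvP_const_mul, ← AvP_add (e1.const_mul 2) (e2.const_mul 2)]
  exact AvP_mono (eg_qT S s) ((e1.const_mul 2).add (e2.const_mul 2)) (fun z => qT_le S s z) z

/-- **(I2) for the row of the model**, one bulk. -/
lemma vP_le (S : CS n k x) (hFn : Fn k SkS (uu x s S.F) (S.mu s) Γ) (hs : 0 < s) (hη : 0 < η)
    (P : Matrix (Fin n) (Fin n) ℝ) (b b' : Fin n) (z : Pair n → ℝ) :
    vP (S.H s) s b b' P z ≤ s ^ 2 * (k ^ 4 * (6 * Γ ^ 3) ^ 2) *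
      ((η⁻¹) ^ 3 / 4 * AvP s (row b ∪ row b') (qP S P s) z +
        3 * η / 4 * AvP s (row b ∪ row b') (qT S s) z) := by
  refine (i2 hFn hs hη P (row b') b z).trans (le_of_eq ?_)
  rw [AvP_add ((eg_qP S P s).const_mul _) ((eg_qT S s).const_mul _), AvP_const_mul,
    AvP_const_mul]

/-- **`E|a^nl|²`.** -/
theorem na1_le (S : CS n k x) (hFn : Fn k SkS (uu x s S.F) (S.mu s) Γ) (hs : 0 < s)
    (hs1 : s ≤ 1) (hb : b ≠ b') (z : Pair n → ℝ) :
    Na1 k (S.A s) (S.H s) s b b' z ≤ 36 * Γ ^ 6 * k ^ 6 *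
      (2 * AvP s (row b ∪ row b') (fun z => fr (S.A s z) ^ 2) z +
        2 * AvP s (row b ∪ row b') (fun z => KT (S.T4 s z) (S.A s z)) z) := by
  have r := rowIn_S S hs
  have h1 := Na1_vP r.egH r hb hs.le z
  have h2 := vP_le S hFn hs one_pos idq b b' z
  have e1 : qP S idq s = qT S s := funext fun z => qP_id S s z
  rw [e1] at h2
  have h3 := AvP_qT_le S s (row b ∪ row b') z
  set X := AvP s (row b ∪ row b') (qT S s) z with hX
  have hX0 : 0 ≤ X := AvP_nonneg (fun z => qT_nonneg S s z) z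
  have h4 : vP (S.H s) s b b' idq z ≤ s ^ 2 * (k ^ 4 * (6 * Γ ^ 3) ^ 2) * X := by
    refine h2.trans (le_of_eq ?_)
    ring
  have h5 : Na1 k (S.A s) (S.H s) s b b' z ≤ s ^ 3 * (36 * Γ ^ 6 * k ^ 6 * X) := by
    refine h1.trans ((mul_le_mul_of_nonneg_left h4 (by positivity)).trans (le_of_eq ?_))
    ring
  have h6 : s ^ 3 * (36 * Γ ^ 6 * k ^ 6 * X) ≤ 36 * Γ ^ 6 * k ^ 6 * X := by
    have h7 : s ^ 3 ≤ 1 := pow_le_one₀ hs.le hs1
    have h8 : 0 ≤ 36 * Γ ^ 6 * k ^ 6 * X := by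
      have : 0 ≤ Γ ^ 6 := by positivity
      positivity
    nlinarith
  refine (h5.trans h6).trans ?_
  exact mul_le_mul_of_nonneg_left h3 (by positivity)

/-- **`2 E|P(H - E H)|²`.** -/
theorem ne1_le (S : CS n k x) (hFn : Fn k SkS (uu x s S.F) (S.mu s) Γ) (hs : 0 < s)
    (hs1 : s ≤ 1) (hη : 0 < η) {v : Fin n → ℝ} (hv : ∑ i, v i ^ 2 = 1) (vb : v b = 0)
    (vb' : v b' = 0) (z : Pair n → ℝ) :
    Ne1 k (S.H s) s b b' v z ≤ 36 * Γ ^ 6 * k ^ 6 * ((η⁻¹) ^ 3 *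
      AvP s (row b ∪ row b') (fun z => n4 (rho4 (pj v) (tX (S.mu s z) (ubq b b')))) z +
      3 * η * (2 * AvP s (row b ∪ row b') (fun z => fr (S.A s z) ^ 2) z +
        2 * AvP s (row b ∪ row b') (fun z => KT (S.T4 s z) (S.A s z)) z)) := by
  have r := rowIn_S S hs
  have h1 := Ne1_vP (s := s) (k := k) r.egH hs.le vb vb' z
  have h2 := vP_le S hFn hs hη (pq b b' v) b b' z
  have e1 : qP S (pq b b' v) s = fun z => n4 (rho4 (pj v) (tX (S.mu s z) (ubq b b'))) :=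
    funext fun z => qP_pq S hv vb vb' s z
  rw [e1] at h2
  have h3 := AvP_qT_le S s (row b ∪ row b') z
  set X := AvP s (row b ∪ row b') (qT S s) z with hX
  set Y := AvP s (row b ∪ row b')
    (fun z => n4 (rho4 (pj v) (tX (S.mu s z) (ubq b b')))) z with hY
  have hX0 : 0 ≤ X := AvP_nonneg (fun z => qT_nonneg S s z) z
  have hY0 : 0 ≤ Y := AvP_nonneg (fun z => n4_nonneg _) z
  have hi : 0 ≤ (η⁻¹) ^ 3 := by positivity
  have h5 : Ne1 k (S.H s) s b b' v z ≤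
      s ^ 3 * (18 * Γ ^ 6 * k ^ 6 * ((η⁻¹) ^ 3 * Y + 3 * η * X)) := by
    refine h1.trans ((mul_le_mul_of_nonneg_left h2 (by positivity)).trans (le_of_eq ?_))
    ring
  have h8 : 0 ≤ 18 * Γ ^ 6 * k ^ 6 * ((η⁻¹) ^ 3 * Y + 3 * η * X) := by positivity
  have h6 : s ^ 3 * (18 * Γ ^ 6 * k ^ 6 * ((η⁻¹) ^ 3 * Y + 3 * η * X)) ≤
      18 * Γ ^ 6 * k ^ 6 * ((η⁻¹) ^ 3 * Y + 3 * η * X) := by
    have h7 : s ^ 3 ≤ 1 := pow_le_one₀ hs.le hs1
    nlinarith
  refine (h5.trans h6).trans ?_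
  have h9 : (η⁻¹) ^ 3 * Y + 3 * η * X ≤ (η⁻¹) ^ 3 * Y + 3 * η *
      (2 * AvP s (row b ∪ row b') (fun z => fr (S.A s z) ^ 2) z +
        2 * AvP s (row b ∪ row b') (fun z => KT (S.T4 s z) (S.A s z)) z) :=
    add_le_add le_rfl (mul_le_mul_of_nonneg_left h3 (by positivity))
  have h10 : 0 ≤ Γ ^ 6 * k ^ 6 := by positivity
  have h11 : 0 ≤ (η⁻¹) ^ 3 * Y + 3 * η *
      (2 * AvP s (row b ∪ row b') (fun z => fr (S.A s z) ^ 2) z +
        2 * AvP s (row b ∪ row b') (fun z => KT (S.T4 s z) (S.A s z)) z) :=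
    le_trans (by positivity) h9
  nlinarith [mul_le_mul_of_nonneg_left h9 h10, mul_nonneg h10 h11]

end Vale.Agent.P146.H329
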