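import Vale.Agent.P146.H863.Two

/-!
# P146: the gauge symmetry of the two families of the doubling step
-/

open MeasureTheory ProbabilityTheory

namespace Vale.Agent.P146.H329.GA

open Vale.Agent.P146 Vale.Agent.P146.H501 Vale.Agent.P146.H863.D29

/-- sign changes of the coordinates which exchange `s0` and `s` in both families -/
structure Gg {ι ι' S : Type} (a : S → ι → ℝ) (b : S → ι' → ℝ) (s0 : S) : Prop where
  ex : ∀ s, ∃ (π : Equiv.Perm S) (χ : ι → ℝ) (χ' : ι' → ℝ), π s0 = s ∧ π s = s0 ∧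
    (∀ i, χ i = 1 ∨ χ i = -1) ∧ (∀ j, χ' j = 1 ∨ χ' j = -1) ∧
    (∀ τ i, a (π τ) i = χ i * a τ i) ∧ (∀ τ j, b (π τ) j = χ' j * b τ j)

variable {n : ℕ}

lemma sp_mul (s τ : Fin n → ℤˣ) (i : Fin n) : sp (s * τ) i = sp s i * sp τ i := by
  unfold sp
  simp

lemma chi_mul (A : Finset (Fin n)) (s τ : Fin n → ℤˣ) : chi A (s * τ) = chi A s * chi A τ := by
  unfold chi
  simp only [sp_mul]
  exact Finset.prod_mul_distrib

lemma chi_pm (A : Finset (Fin n)) (s : Fin n → ℤˣ) : chi A s = 1 ∨ chi A s = -1 := by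
  have h := abs_chi A s
  rcases abs_choice (chi A s) with h1 | h1
  · exact Or.inl (by rw [← h1, h])
  · exact Or.inr (by linarith)

lemma ska_mul (β : ℝ) (s τ : Fin n → ℤˣ) (p : Pair n) :
    ska n β (s * τ) p = chi (ps p) s * ska n β τ p := by
  unfold ska
  rw [chi_mul]
  ring

lemma E2_mul (s τ : (Fin n → ℤˣ) × (Fin n → ℤˣ)) : E2 n (s * τ) = E2 n s * E2 n τ := by
  have h : ∀ u : (Fin n → ℤˣ) × (Fin n → ℤˣ), E2 n u = Fin.append u.1 u.2 := fun u => rfl
  rw [h, h, h]
  funext i
  refine Fin.addCases (fun j => ?_) (fun j => ?_) i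
  · rw [Pi.mul_apply, Fin.append_left, Fin.append_left, Fin.append_left]
    rfl
  · rw [Pi.mul_apply, Fin.append_right, Fin.append_right, Fin.append_right]
    rfl

lemma unit_mul_self (s : Fin n → ℤˣ) : s * s = 1 := by
  funext i
  rw [Pi.mul_apply, Pi.one_apply]
  exact Int.units_mul_self _

/-- **the gauge instance** -/
theorem gg_ab (n : ℕ) (β : ℝ) : Gg (a2 n β) (b2 n β) (1, 1) where
  ex s := by
    refine ⟨Equiv.mulLeft s, fun p => chi (ps p) (E2 n s),
      Sum.elim (fun p => chi (ps p) s.1) (Sum.elim (fun p => chi (ps p) s.2) fun _ => 1),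
      ?_, ?_, fun p => chi_pm _ _, ?_, ?_, ?_⟩
    · show s * 1 = s
      exact mul_one s
    · show s * s = 1
      exact Prod.ext (unit_mul_self s.1) (unit_mul_self s.2)
    · rintro (p | p | p)
      · exact chi_pm (ps p) s.1
      · exact chi_pm (ps p) s.2
      · exact Or.inl rfl
    · intro τ p
      show ska (n + n) β (E2 n (s * τ)) p = _
      rw [E2_mul, ska_mul]
      rfl
    · intro τ
      rintro (p | p | p)
      · show ska n β (s.1 * τ.1) p = _
        rw [ska_mul]
        rfl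
      · show ska n β (s.2 * τ.2) p = _
        rw [ska_mul]
        rfl
      · show β / Real.sqrt 2 = 1 * (β / Real.sqrt 2)
        rw [one_mul]

end Vale.Agent.P146.H329.GA
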