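import Vale.Agent.P146.H501.Interp
import Vale.Agent.P146.H425.Gauss
import Vale.Agent.P146.H863.PLG

/-!
# P146: the swap lemma

A planted Gaussian exponential sum with the extra weight `exp (lam * f s0 t)`, `lam ≤ 0`: the mean
of `f` between the planted replica and a Gibbs replica is at most the mean of `f` between two Gibbs
replicas.
-/

open MeasureTheory ProbabilityTheory Filter Topology Set

namespace Vale.Agent.P146.H329.SW

open Vale.Agent.P146 Vale.Agent.P146.H501

set_option linter.unusedSectionVars false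

variable {ι S : Type} [Fintype ι] [Fintype S]

/-- convexity of the log-sum-exp function -/
lemma lse_conv [Nonempty S] (u v : S → ℝ) {a b : ℝ} (ha : 0 ≤ a) (hb : 0 ≤ b) (hab : a + b = 1) :
    Real.log (∑ s, Real.exp (a * u s + b * v s)) ≤
      a * Real.log (∑ s, Real.exp (u s)) + b * Real.log (∑ s, Real.exp (v s)) := by
  have hpos : ∀ w : S → ℝ, 0 < ∑ s, Real.exp (w s) := fun w =>
    Finset.sum_pos (fun _ _ => Real.exp_pos _) Finset.univ_nonempty
  obtain ⟨m, hm⟩ : ∃ m : S → ℝ, m = fun s => a * u s + b * v s := ⟨_, rfl⟩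
  have hZ := hpos m
  obtain ⟨p, hp⟩ : ∃ p : S → ℝ, p = fun s => Real.exp (m s) / ∑ s, Real.exp (m s) := ⟨_, rfl⟩
  have hp0 : ∀ s, 0 ≤ p s := fun s => by
    rw [hp]
    exact div_nonneg (Real.exp_pos _).le hZ.le
  have hp1 : ∑ s, p s = 1 := by
    rw [hp]
    simp only
    rw [← Finset.sum_div, div_self hZ.ne']
  have tang : ∀ y : S → ℝ, Real.log (∑ s, Real.exp (m s)) + ∑ s, p s * (y s - m s) ≤
      Real.log (∑ s, Real.exp (y s)) := by
    intro y
    have h2 : Real.exp (∑ s, p s * (y s - m s)) ≤ ∑ s, p s * Real.exp (y s - m s) := by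
      have := convexOn_exp.map_sum_le (t := Finset.univ) (w := p) (p := fun s => y s - m s)
        (fun s _ => hp0 s) hp1 (fun s _ => Set.mem_univ _)
      simpa only [smul_eq_mul] using this
    have h3 : ∑ s, p s * Real.exp (y s - m s) =
        (∑ s, Real.exp (y s)) / ∑ s, Real.exp (m s) := by
      rw [Finset.sum_div]
      refine Finset.sum_congr rfl fun s _ => ?_
      simp only [hp]
      rw [div_mul_eq_mul_div, ← Real.exp_add]
      congr 2
      ring
    rw [h3, le_div_iff₀ hZ] at h2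
    have h4 := Real.log_le_log (mul_pos (Real.exp_pos _) hZ) h2
    rw [Real.log_mul (Real.exp_pos _).ne' hZ.ne', Real.log_exp] at h4
    linarith
  have h2 := mul_le_mul_of_nonneg_left (tang u) ha
  have h3 := mul_le_mul_of_nonneg_left (tang v) hb
  have h4 : a * ∑ s, p s * (u s - m s) + b * ∑ s, p s * (v s - m s) = 0 := by
    rw [Finset.mul_sum, Finset.mul_sum, ← Finset.sum_add_distrib]
    refine Finset.sum_eq_zero fun s _ => ?_
    have hb' : b = 1 - a := by linarith
    rw [hm, hb']
    ring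
  have h5 : a * (Real.log (∑ s, Real.exp (m s)) + ∑ s, p s * (u s - m s)) +
      b * (Real.log (∑ s, Real.exp (m s)) + ∑ s, p s * (v s - m s)) =
      (a + b) * Real.log (∑ s, Real.exp (m s)) +
        (a * ∑ s, p s * (u s - m s) + b * ∑ s, p s * (v s - m s)) := by ring
  rw [hab, h4, add_zero, one_mul] at h5
  have h6 : Real.log (∑ s, Real.exp (a * u s + b * v s)) = Real.log (∑ s, Real.exp (m s)) := by
    rw [hm]
  rw [h6]
  linarith

/-- Cameron-Martin for any integrand -/
lemma shift_int (a0 : ι → ℝ) (F : (ι → ℝ) → ℝ) :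
    ∫ g, Real.exp (∑ i, a0 i * g i) * F g ∂(gpi ι) =
      Real.exp ((∑ i, a0 i ^ 2) / 2) * ∫ g, F (g + a0) ∂(gpi ι) := by
  have h := H425.integral_shift (ι := ι) (-a0) F
  have e2 : ∀ J : ι → ℝ, Real.exp (-(∑ i, (-a0) i * J i) - (∑ i, (-a0) i ^ 2) / 2) *
      F J = Real.exp (-((∑ i, a0 i ^ 2) / 2)) * (Real.exp (∑ i, a0 i * J i) * F J) := by
    intro J
    rw [← mul_assoc, ← Real.exp_add]
    congr 2
    have e3 : ∑ i, (-a0) i * J i = -∑ i, a0 i * J i := by
      rw [← Finset.sum_neg_distrib]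
      exact Finset.sum_congr rfl fun i _ => by simp
    have e4 : ∑ i, (-a0) i ^ 2 = ∑ i, a0 i ^ 2 := Finset.sum_congr rfl fun i _ => by simp
    rw [e3, e4]
    ring
  simp only [sub_neg_eq_add, e2] at h
  rw [integral_const_mul] at h
  unfold gpi
  rw [h, ← mul_assoc, ← Real.exp_add]
  simp

lemma wt_shift (a : S → ι → ℝ) (c : S → ℝ) (a0 g : ι → ℝ) (s : S) :
    wt a c (g + a0) s = wt a (fun t => (∑ i, a0 i * a t i) + c t) g s := by
  unfold wt
  congr 1
  have h : ∑ i, a s i * (g + a0) i = ∑ i, a s i * g i + ∑ i, a0 i * a s i := by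
    rw [← Finset.sum_add_distrib]
    refine Finset.sum_congr rfl fun i _ => ?_
    rw [Pi.add_apply]
    ring
  rw [h]
  ring

lemma zz_shift (a : S → ι → ℝ) (c : S → ℝ) (a0 g : ι → ℝ) :
    zz a c (g + a0) = zz a (fun t => (∑ i, a0 i * a t i) + c t) g :=
  Finset.sum_congr rfl fun s _ => wt_shift a c a0 g s

lemma zp_shift (κ : ℝ) (a : S → ι → ℝ) (c : S → ℝ) (a0 g : ι → ℝ) :
    zp κ a c (g + a0) = zp κ a (fun t => (∑ i, a0 i * a t i) + c t) g := by
  unfold zp
  rw [zz_shift]

lemma gav_shift (a : S → ι → ℝ) (c : S → ℝ) (f : S → ℝ) (a0 g : ι → ℝ) :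
    gav a c f (g + a0) = gav a (fun t => (∑ i, a0 i * a t i) + c t) f g := by
  unfold gav
  rw [zz_shift]
  congr 1
  exact Finset.sum_congr rfl fun s _ => by rw [wt_shift]

/-- the planted pair power with the two weights `u f(s0, .) + v f(s, .)` -/
noncomputable def Mp (q : ℝ) (a : S → ι → ℝ) (f : S → S → ℝ) (s0 s : S) (u v : ℝ) : ℝ :=
  ∫ g, Real.exp (∑ i, (a s0 i + a s i) * g i) *
    zp (-q) a (fun t => u * f s0 t + v * f s t) g ∂(gpi ι)

/-- the symmetry which exchanges `s0` and `s` -/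
structure Sym (a : S → ι → ℝ) (f : S → S → ℝ) (s0 s : S) : Prop where
  ex : ∃ (T : (ι → ℝ) → ι → ℝ) (e : S ≃ S), MeasurePreserving T (gpi ι) (gpi ι) ∧
    (∀ t g, ∑ i, a t i * T g i = ∑ i, a (e t) i * g i) ∧ e s0 = s ∧ e s = s0 ∧
    (∀ t, f s0 (e t) = f s t) ∧ (∀ t, f s (e t) = f s0 t)

variable {a : S → ι → ℝ} {f : S → S → ℝ} {s0 s : S} {q : ℝ}

/-- the two weights may be exchanged -/
lemma Mp_symm (h : Sym a f s0 s) (u v : ℝ) : Mp q a f s0 s u v = Mp q a f s0 s v u := by
  obtain ⟨T, e, hT, h1, h2, h3, h4, h5⟩ := h.ex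
  have hc : Continuous fun g : ι → ℝ => Real.exp (∑ i, (a s0 i + a s i) * g i) *
      zp (-q) a (fun t => u * f s0 t + v * f s t) g := by
    refine Continuous.mul (by fun_prop) ?_
    by_cases hS : Nonempty S
    · exact zp_cont _ _ _
    · exact absurd ⟨s⟩ hS
  unfold Mp
  conv_lhs => rw [← hT.map_eq]
  rw [integral_map hT.measurable.aemeasurable hc.aestronglyMeasurable]
  refine integral_congr_ae (Eventually.of_forall fun g => ?_)
  simp only
  have e1 : ∑ i, (a s0 i + a s i) * T g i = ∑ i, (a s0 i + a s i) * g i := by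
    have h6 := h1 s0 g
    have h7 := h1 s g
    rw [h2] at h6
    rw [h3] at h7
    simp only [add_mul, Finset.sum_add_distrib]
    rw [h6, h7]
    ring
  have e2 : zz a (fun t => u * f s0 t + v * f s t) (T g) =
      zz a (fun t => v * f s0 t + u * f s t) g := by
    unfold zz
    refine Fintype.sum_equiv e _ _ fun t => ?_
    unfold wt
    simp only [h1 t g, h4 t, h5 t]
    congr 1
    ring
  rw [e1]
  unfold zp
  rw [e2]

/-- log-concavity along the antidiagonal -/
lemma Mp_conc [Nonempty S] (hq : 0 ≤ q) (a : S → ι → ℝ) (f : S → S → ℝ) (s0 s : S) (c : ℝ) :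
    ConcaveOn ℝ univ fun δ : ℝ => Real.log (Mp q a f s0 s (c + δ) (c - δ)) := by
  have key := H863.PL.gauss (κ := ι) (E := ℝ)
    (fun δ g => ∑ i, (a s0 i + a s i) * g i -
      q * Real.log (zz a (fun t => (c + δ) * f s0 t + (c - δ) * f s t) g)) ?_ ?_ ?_
  · have e : (fun δ : ℝ => Real.log (Mp q a f s0 s (c + δ) (c - δ))) = fun δ =>
        Real.log (∫ g, Real.exp (∑ i, (a s0 i + a s i) * g i -
          q * Real.log (zz a (fun t => (c + δ) * f s0 t + (c - δ) * f s t) g))
            ∂(Measure.pi fun _ : ι => gaussianReal 0 1)) := by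
      funext δ
      unfold Mp gpi
      congr 1
      refine integral_congr_ae (Eventually.of_forall fun g => ?_)
      simp only
      unfold zp
      rw [← Real.exp_add]
      congr 1
      ring
    rw [e]
    exact key
  · refine ⟨convex_univ, fun x _ y _ a' b' ha hb hab => ?_⟩
    have h1 := lse_conv (fun t => ∑ i, a t i * x.2 i + ((c + x.1) * f s0 t + (c - x.1) * f s t))
      (fun t => ∑ i, a t i * y.2 i + ((c + y.1) * f s0 t + (c - y.1) * f s t)) ha hb hab
    have e1 : ∀ t, ∑ i, a t i * (a' • x + b' • y).2 i +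
        ((c + (a' • x + b' • y).1) * f s0 t + (c - (a' • x + b' • y).1) * f s t) =
        a' * (∑ i, a t i * x.2 i + ((c + x.1) * f s0 t + (c - x.1) * f s t)) +
        b' * (∑ i, a t i * y.2 i + ((c + y.1) * f s0 t + (c - y.1) * f s t)) := by
      intro t
      have e2 : ∑ i, a t i * (a' • x + b' • y).2 i =
          a' * ∑ i, a t i * x.2 i + b' * ∑ i, a t i * y.2 i := by
        rw [Finset.mul_sum, Finset.mul_sum, ← Finset.sum_add_distrib]
        refine Finset.sum_congr rfl fun i _ => ?_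
        simp only [Prod.snd_add, Prod.smul_snd, Pi.add_apply, Pi.smul_apply, smul_eq_mul]
        ring
      have hb' : b' = 1 - a' := by linarith
      rw [e2]
      simp only [Prod.fst_add, Prod.smul_fst, smul_eq_mul, hb']
      ring
    have e3 : ∑ i, (a s0 i + a s i) * (a' • x + b' • y).2 i =
        a' * ∑ i, (a s0 i + a s i) * x.2 i + b' * ∑ i, (a s0 i + a s i) * y.2 i := by
      rw [Finset.mul_sum, Finset.mul_sum, ← Finset.sum_add_distrib]
      refine Finset.sum_congr rfl fun i _ => ?_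
      simp only [Prod.snd_add, Prod.smul_snd, Pi.add_apply, Pi.smul_apply, smul_eq_mul]
      ring
    have h2 := mul_le_mul_of_nonneg_left h1 hq
    simp only [← e1] at h2
    simp only [smul_eq_mul, e3]
    unfold zz wt
    linarith
  · intro δ
    have h1 : Continuous fun g : ι → ℝ =>
        Real.log (zz a (fun t => (c + δ) * f s0 t + (c - δ) * f s t) g) := log_zz_cont _ _
    exact (Continuous.sub (by fun_prop) (h1.const_mul q)).measurable
  · intro δ
    obtain ⟨cc, hcc⟩ : ∃ cc : S → ℝ, cc = fun t => (c + δ) * f s0 t + (c - δ) * f s t := ⟨_, rfl⟩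
    refine ⟨q * (∑ s, |cc s| + Real.log (Fintype.card S)),
      ∑ j, |a s0 j + a s j| + q * ∑ s, ∑ i, |a s i|, fun g => ?_⟩
    have h1 := abs_le.1 (log_zz_bound a cc g)
    have h2 : ∑ i, (a s0 i + a s i) * g i ≤ (∑ j, |a s0 j + a s j|) * ∑ i, |g i| := by
      rw [Finset.mul_sum]
      refine Finset.sum_le_sum fun i _ => ?_
      calc (a s0 i + a s i) * g i ≤ |(a s0 i + a s i) * g i| := le_abs_self _
        _ = |a s0 i + a s i| * |g i| := abs_mul _ _
        _ ≤ (∑ j, |a s0 j + a s j|) * |g i| := mul_le_mul_of_nonneg_right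
            (Finset.single_le_sum (f := fun j => |a s0 j + a s j|) (fun _ _ => abs_nonneg _)
              (Finset.mem_univ i)) (abs_nonneg _)
    have h3 := mul_le_mul_of_nonneg_left h1.1 hq
    have e : (fun t => (c + δ) * f s0 t + (c - δ) * f s t) = cc := hcc.symm
    simp only [e]
    have e4 : (∑ j, |a s0 j + a s j| + q * ∑ s, ∑ i, |a s i|) * ∑ i, |g i| =
        (∑ j, |a s0 j + a s j|) * ∑ i, |g i| + q * ((∑ s, ∑ i, |a s i|) * ∑ i, |g i|) := by ring
    rw [e4]
    nlinarith

lemma zp_int_pos [Nonempty S] (κ : ℝ) (a : S → ι → ℝ) (c : S → ℝ) :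
    0 < ∫ g, zp κ a c g ∂(gpi ι) := by
  rw [integral_pos_iff_support_of_nonneg (fun g => (zp_pos κ a c g).le)
    (zp_dom κ a c).integrable]
  have e : Function.support (fun g => zp κ a c g) = univ :=
    Set.eq_univ_of_forall fun g => (zp_pos κ a c g).ne'
  rw [e]
  simp

lemma Mp_eq (q : ℝ) (a : S → ι → ℝ) (f : S → S → ℝ) (s0 s : S) (u v : ℝ) :
    Mp q a f s0 s u v = Real.exp ((∑ i, (a s0 i + a s i) ^ 2) / 2) *
      ∫ g, zp (-q) a (fun t => (∑ i, (a s0 i + a s i) * a t i) + (u * f s0 t + v * f s t)) g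
        ∂(gpi ι) := by
  unfold Mp
  have h := shift_int (fun i => a s0 i + a s i) (zp (-q) a (fun t => u * f s0 t + v * f s t))
  rw [h]
  congr 1
  refine integral_congr_ae (Eventually.of_forall fun g => ?_)
  exact zp_shift _ _ _ _ _

lemma Mp_pos [Nonempty S] (q : ℝ) (a : S → ι → ℝ) (f : S → S → ℝ) (s0 s : S) (u v : ℝ) :
    0 < Mp q a f s0 s u v := by
  rw [Mp_eq]
  exact mul_pos (Real.exp_pos _) (zp_int_pos _ _ _)

/-- left of the diagonal the pair power increases -/
lemma Mp_mono [Nonempty S] (hq : 0 ≤ q) (h : Sym a f s0 s) (c : ℝ) {δ δ0 : ℝ} (h1 : δ ≤ δ0)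
    (h0 : δ0 ≤ 0) : Mp q a f s0 s (c + δ) (c - δ) ≤ Mp q a f s0 s (c + δ0) (c - δ0) := by
  have hc := Mp_conc hq a f s0 s c
  have he : Mp q a f s0 s (c + -δ) (c - -δ) = Mp q a f s0 s (c + δ) (c - δ) := by
    rw [sub_neg_eq_add, ← sub_eq_add_neg]
    exact Mp_symm h _ _
  have h2 : min (Real.log (Mp q a f s0 s (c + δ) (c - δ)))
      (Real.log (Mp q a f s0 s (c + -δ) (c - -δ))) ≤
      Real.log (Mp q a f s0 s (c + δ0) (c - δ0)) :=
    hc.min_le_of_mem_Icc (mem_univ _) (mem_univ _) ⟨h1, by linarith⟩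
  rw [he, min_self] at h2
  exact (Real.log_le_log_iff (Mp_pos _ _ _ _ _ _ _) (Mp_pos _ _ _ _ _ _ _)).1 h2

/-- a function which is at most its value at `0` on the left has a nonnegative derivative -/
lemma deriv_nonneg_of_left {F : ℝ → ℝ} {D : ℝ} (h : HasDerivAt F D 0)
    (hl : ∀ θ, θ ≤ 0 → F θ ≤ F 0) : 0 ≤ D := by
  have h1 : Tendsto (slope F 0) (𝓝[<] 0) (𝓝 D) :=
    (hasDerivAt_iff_tendsto_slope.1 h).mono_left
      (nhdsWithin_mono _ fun y hy => (ne_of_lt (mem_Iio.1 hy)))
  refine ge_of_tendsto h1 ?_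
  filter_upwards [self_mem_nhdsWithin] with y hy
  have hy' : y < 0 := hy
  rw [slope_def_field]
  exact div_nonneg_of_nonpos (by linarith [hl y hy'.le]) (by linarith)

/-- **the pair form of the swap lemma** -/
theorem swap_pair [Nonempty S] (hq : 0 < q) (h : Sym a f s0 s) {lam : ℝ} (hl : lam ≤ 0) :
    0 ≤ ∫ g, zp (-q) a (fun t => (∑ i, (a s0 i + a s i) * a t i) + lam * f s0 t) g *
      (gav a (fun t => (∑ i, (a s0 i + a s i) * a t i) + lam * f s0 t) (fun t => f s t) g -
        gav a (fun t => (∑ i, (a s0 i + a s i) * a t i) + lam * f s0 t) (fun t => f s0 t) g)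
        ∂(gpi ι) := by
  classical
  obtain ⟨G, hG⟩ : ∃ G : S → ℝ, G = fun t => ∑ i, (a s0 i + a s i) * a t i := ⟨_, rfl⟩
  obtain ⟨c, hc⟩ : ∃ c : ℝ → S → ℝ, c = fun θ t => G t +
    ((lam + Real.arctan θ) * f s0 t + (0 - Real.arctan θ) * f s t) := ⟨_, rfl⟩
  obtain ⟨c', hc'⟩ : ∃ c' : ℝ → S → ℝ, c' = fun θ t =>
    1 / (1 + θ ^ 2) * f s0 t - 1 / (1 + θ ^ 2) * f s t := ⟨_, rfl⟩
  have hd : ∀ θ t, HasDerivAt (fun θ => c θ t) (c' θ t) θ := by
    intro θ t
    have h1 := Real.hasDerivAt_arctan θ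
    have h2 := (((h1.const_add lam).mul_const (f s0 t)).add
      ((h1.const_sub 0).mul_const (f s t))).const_add (G t)
    rw [hc, hc']
    refine h2.congr_deriv ?_
    ring
  have hat : ∀ θ : ℝ, |Real.arctan θ| ≤ 2 := by
    intro θ
    have h1 := Real.arctan_lt_pi_div_two θ
    have h2 := Real.neg_pi_div_two_lt_arctan θ
    have h3 := Real.pi_le_four
    exact abs_le.2 ⟨by linarith, by linarith⟩
  have hbd : ∀ θ t, |c θ t| ≤ ∑ t, (|G t| + ((|lam| + 2) * |f s0 t| + 2 * |f s t|)) := by
    intro θ t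
    have h1 : |c θ t| ≤ |G t| + ((|lam| + 2) * |f s0 t| + 2 * |f s t|) := by
      rw [hc]
      simp only
      refine (abs_add_le _ _).trans (add_le_add le_rfl ((abs_add_le _ _).trans
        (add_le_add ?_ ?_)))
      · rw [abs_mul]
        exact mul_le_mul_of_nonneg_right ((abs_add_le _ _).trans
          (add_le_add le_rfl (hat θ))) (abs_nonneg _)
      · rw [abs_mul, zero_sub, abs_neg]
        exact mul_le_mul_of_nonneg_right (hat θ) (abs_nonneg _)
    exact h1.trans (Finset.single_le_sum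
      (f := fun t => |G t| + ((|lam| + 2) * |f s0 t| + 2 * |f s t|))
      (fun _ _ => by positivity) (Finset.mem_univ t))
  have hbd' : ∀ θ t, |c' θ t| ≤ ∑ t, (|f s0 t| + |f s t|) := by
    intro θ t
    have h0 : |1 / (1 + θ ^ 2)| ≤ 1 := by
      rw [abs_of_nonneg (by positivity), div_le_one (by positivity)]
      nlinarith [sq_nonneg θ]
    have h1 : |c' θ t| ≤ |f s0 t| + |f s t| := by
      rw [hc']
      simp only
      refine (abs_sub _ _).trans (add_le_add ?_ ?_)
      · rw [abs_mul]
        exact mul_le_of_le_one_left (abs_nonneg _) h0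
      · rw [abs_mul]
        exact mul_le_of_le_one_left (abs_nonneg _) h0
    exact h1.trans (Finset.single_le_sum (f := fun t => |f s0 t| + |f s t|)
      (fun _ _ => by positivity) (Finset.mem_univ t))
  have hA : ∀ (θ : ℝ) (s : S) (i : ι), |a s i| ≤ ∑ s, ∑ i, |a s i| := fun _ s i =>
    (Finset.single_le_sum (f := fun i => |a s i|) (fun _ _ => abs_nonneg _)
      (Finset.mem_univ i)).trans (Finset.single_le_sum (f := fun s => ∑ i, |a s i|)
      (fun _ _ => Finset.sum_nonneg fun _ _ => abs_nonneg _) (Finset.mem_univ s))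
  have key := hasDerivAt_moment (ι := ι) (-q) (a := fun _ => a) (a' := fun _ _ _ => 0) (c := c)
    (c' := c') (A' := 0) (fun θ s i => hasDerivAt_const θ (a s i)) hd hA
    (fun _ _ _ => by simp) hbd hbd' 0
  have hD := deriv_nonneg_of_left key ?_
  · have c0 : c 0 = fun t => (∑ i, (a s0 i + a s i) * a t i) + lam * f s0 t := by
      rw [hc, hG]
      funext t
      simp
    have e1 : ∀ g, br (-q) a (c 0) (fun _ _ => 0) (c' 0) g =
        gav a (c 0) (fun t => f s0 t) g - gav a (c 0) (fun t => f s t) g := by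
      intro g
      have e2 : (fun s : S => ∑ i, (0 : ℝ) * a s i + c' 0 s) = fun t => f s0 t - f s t := by
        funext t
        rw [hc']
        simp
      unfold br
      rw [e2, gav_sub]
      have e3 : ∀ i : ι, gav a (c 0) (fun _ : S => (0 : ℝ)) g * gav a (c 0) (fun s => a s i) g =
          0 := fun i => by rw [gav_const, zero_mul]
      simp only [e3, Finset.sum_const_zero, mul_zero, sub_zero]
    have e4 : ∫ g, zp (-q) a (c 0) g * br (-q) a (c 0) (fun _ _ => 0) (c' 0) g ∂(gpi ι) =
        -∫ g, zp (-q) a (c 0) g * (gav a (c 0) (fun t => f s t) g -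
          gav a (c 0) (fun t => f s0 t) g) ∂(gpi ι) := by
      rw [← integral_neg]
      refine integral_congr_ae (Eventually.of_forall fun g => ?_)
      simp only [e1]
      ring
    rw [e4, neg_mul_neg] at hD
    rw [c0] at hD
    exact nonneg_of_mul_nonneg_right hD hq
  · intro θ hθ
    have h1 : Real.arctan θ ≤ 0 := by
      have := Real.arctan_strictMono.monotone hθ
      rwa [Real.arctan_zero] at this
    have h2 := Mp_mono hq.le h (lam / 2) (δ := lam / 2 + Real.arctan θ) (δ0 := lam / 2)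
      (by linarith) (by linarith)
    have e1 : lam / 2 + (lam / 2 + Real.arctan θ) = lam + Real.arctan θ := by ring
    have e2 : lam / 2 - (lam / 2 + Real.arctan θ) = 0 - Real.arctan θ := by ring
    have e3 : lam / 2 + lam / 2 = lam := by ring
    rw [e1, e2, e3, sub_self, Mp_eq, Mp_eq] at h2
    have h3 := le_of_mul_le_mul_left h2 (Real.exp_pos _)
    have c0 : c 0 = fun t => (∑ i, (a s0 i + a s i) * a t i) + (lam * f s0 t + 0 * f s t) := by
      rw [hc, hG]
      funext t
      simp
    have cθ : c θ = fun t => (∑ i, (a s0 i + a s i) * a t i) +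
        ((lam + Real.arctan θ) * f s0 t + (0 - Real.arctan θ) * f s t) := by
      rw [hc, hG]
    simp only [c0, cθ]
    exact h3

/-- **THE SWAP LEMMA.** -/
theorem swap [Nonempty S] {p : ℝ} (hp : 0 ≤ p) (h : ∀ s, Sym a f s0 s) {lam : ℝ}
    (hl : lam ≤ 0) {c : S → ℝ} (hc : c = fun t => (∑ i, a s0 i * a t i) + lam * f s0 t) :
    0 ≤ ∫ g, zp (-p) a c g * (gav a c (fun s => gav a c (fun t => f s t) g) g -
      gav a c (fun t => f s0 t) g) ∂(gpi ι) := by
  -- one term
  have one : ∀ s, ∫ g, zp (-p) a c g * (wt a c g s / zz a c g *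
      (gav a c (fun t => f s t) g - gav a c (fun t => f s0 t) g)) ∂(gpi ι) =
      Real.exp (c s) * (Real.exp ((∑ i, a s i ^ 2) / 2) *
        ∫ g, zp (-(1 + p)) a (fun t => (∑ i, (a s0 i + a s i) * a t i) + lam * f s0 t) g *
      (gav a (fun t => (∑ i, (a s0 i + a s i) * a t i) + lam * f s0 t) (fun t => f s t) g -
        gav a (fun t => (∑ i, (a s0 i + a s i) * a t i) + lam * f s0 t) (fun t => f s0 t) g)
        ∂(gpi ι)) := by
    intro s
    have h1 := shift_int (a s) (fun g => zp (-(1 + p)) a c g *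
      (gav a c (fun t => f s t) g - gav a c (fun t => f s0 t) g))
    have e1 : (fun t => (∑ i, a s i * a t i) + c t) =
        fun t => (∑ i, (a s0 i + a s i) * a t i) + lam * f s0 t := by
      funext t
      rw [hc]
      simp only [add_mul, Finset.sum_add_distrib]
      ring
    have e2 : ∀ g : ι → ℝ, zp (-(1 + p)) a c (g + a s) *
        (gav a c (fun t => f s t) (g + a s) - gav a c (fun t => f s0 t) (g + a s)) =
        zp (-(1 + p)) a (fun t => (∑ i, (a s0 i + a s i) * a t i) + lam * f s0 t) g *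
      (gav a (fun t => (∑ i, (a s0 i + a s i) * a t i) + lam * f s0 t) (fun t => f s t) g -
        gav a (fun t => (∑ i, (a s0 i + a s i) * a t i) + lam * f s0 t) (fun t => f s0 t) g) := by
      intro g
      rw [zp_shift, gav_shift, gav_shift, e1]
    simp only [e2] at h1
    rw [← h1, ← integral_const_mul]
    refine integral_congr_ae (Eventually.of_forall fun g => ?_)
    simp only
    have hz := zz_pos a c g
    have e3 : zp (-p) a c g * (wt a c g s / zz a c g) =
        Real.exp (c s) * (Real.exp (∑ i, a s i * g i) * zp (-(1 + p)) a c g) := by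
      unfold zp wt
      have e4 : zz a c g = Real.exp (Real.log (zz a c g)) := (Real.exp_log hz).symm
      conv_lhs => rw [e4]
      rw [Real.log_exp, div_eq_mul_inv, ← Real.exp_neg, ← Real.exp_add, ← Real.exp_add,
        ← Real.exp_add, ← Real.exp_add]
      congr 1
      ring
    rw [← mul_assoc, e3]
    ring
  have tot : ∫ g, zp (-p) a c g * (gav a c (fun s => gav a c (fun t => f s t) g) g -
      gav a c (fun t => f s0 t) g) ∂(gpi ι) =
      ∑ s, ∫ g, zp (-p) a c g * (wt a c g s / zz a c g *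
      (gav a c (fun t => f s t) g - gav a c (fun t => f s0 t) g)) ∂(gpi ι) := by
    have hD : ∀ s, Dom fun g => zp (-p) a c g * (wt a c g s / zz a c g *
      (gav a c (fun t => f s t) g - gav a c (fun t => f s0 t) g)) := by
      intro s
      classical
      have e : (fun g => wt a c g s / zz a c g) = fun g => gav a c (fun t => if t = s then 1 else 0) g := by
        funext g
        unfold gav
        simp
      have h2 : Dom fun g => wt a c g s / zz a c g := by
        rw [e]
        exact gav_dom a c _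
      exact (zp_dom _ a c).mul (h2.mul ((gav_dom a c _).sub (gav_dom a c _)))
    rw [← int_sum _ fun s _ => hD s]
    refine integral_congr_ae (Eventually.of_forall fun g => ?_)
    simp only
    rw [← Finset.mul_sum]
    congr 1
    have hz := (zz_pos a c g).ne'
    have e5 : ∑ s, wt a c g s / zz a c g = 1 := by
      rw [← Finset.sum_div]
      exact div_self hz
    simp only [mul_sub, Finset.sum_sub_distrib]
    rw [← Finset.sum_mul, e5, one_mul]
    congr 1
    conv_lhs => unfold gav
    rw [Finset.sum_div]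
    exact Finset.sum_congr rfl fun s _ => by
      show (gav a c (fun t => f s t) g * wt a c g s) / zz a c g = _
      ring
  rw [tot]
  refine Finset.sum_nonneg fun s _ => ?_
  rw [one s]
  exact mul_nonneg (Real.exp_pos _).le (mul_nonneg (Real.exp_pos _).le
    (swap_pair (by linarith) (h s) hl))

end Vale.Agent.P146.H329.SW
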