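import Vale.Agent.P146.H693.Kah
import Vale.Agent.P146.H329.Swap
import Vale.Agent.P146.H329.Gauge

/-!
# P146: the transport inequality

Two Gaussian exponential sums with the same variances and a common group of sign changes: along the
interpolation of the covariances the planted moment of order `-p` with the extra weight
`exp (lam D)`, `lam = -(1 - t) (1 - p) / 2`, decreases.
-/

open MeasureTheory ProbabilityTheory Filter Topology Set

namespace Vale.Agent.P146.H329.TR

open Vale.Agent.P146 Vale.Agent.P146.H501 Vale.Agent.P146.H693 Vale.Agent.P146.H329.SW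
open Vale.Agent.P146.H329.GA (Gg)

set_option linter.unusedSectionVars false

variable {ι ι' S : Type} [Fintype ι] [Fintype ι'] [Fintype S] [Nonempty S]

/-- the difference of the Gram matrices -/
noncomputable def DD (a : S → ι → ℝ) (b : S → ι' → ℝ) (s t : S) : ℝ :=
  ∑ j, b s j * b t j - ∑ i, a s i * a t i

variable {a : S → ι → ℝ} {b : S → ι' → ℝ} {s0 : S} {p : ℝ}

lemma kp_gram (a : S → ι → ℝ) (b : S → ι' → ℝ) (θ : ℝ) (s t : S) :
    ∑ e, kpath a b θ s e * kpath a b θ t e =
      Real.sin θ ^ 2 * ∑ i, a s i * a t i + Real.cos θ ^ 2 * ∑ j, b s j * b t j := by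
  rw [Fintype.sum_sum_type]
  simp only [kpath, Sum.elim_inl, Sum.elim_inr]
  rw [Finset.mul_sum, Finset.mul_sum]
  congr 1
  · exact Finset.sum_congr rfl fun i _ => by ring
  · exact Finset.sum_congr rfl fun i _ => by ring

/-- the weights along the path -/
noncomputable def cT (p : ℝ) (a : S → ι → ℝ) (b : S → ι' → ℝ) (s0 : S) (θ : ℝ) (t : S) : ℝ :=
  (∑ e, kpath a b θ s0 e * kpath a b θ t e) +
    (-((1 - p) / 2 * Real.cos θ ^ 2)) * DD a b s0 t

/-- their derivative -/
noncomputable def cT' (p : ℝ) (a : S → ι → ℝ) (b : S → ι' → ℝ) (s0 : S) (θ : ℝ) (t : S) : ℝ :=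
  -((1 + p) * (Real.sin θ * Real.cos θ)) * DD a b s0 t

lemma cT_der (p : ℝ) (a : S → ι → ℝ) (b : S → ι' → ℝ) (s0 : S) (θ : ℝ) (t : S) :
    HasDerivAt (fun θ => cT p a b s0 θ t) (cT' p a b s0 θ t) θ := by
  have h1 : HasDerivAt (fun θ => Real.sin θ ^ 2) (2 * Real.sin θ * Real.cos θ) θ := by
    refine ((Real.hasDerivAt_sin θ).fun_pow 2).congr_deriv ?_
    norm_num
  have h2 : HasDerivAt (fun θ => Real.cos θ ^ 2) (2 * Real.cos θ * -Real.sin θ) θ := by
    refine ((Real.hasDerivAt_cos θ).fun_pow 2).congr_deriv ?_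
    norm_num
  have h3 := ((h1.mul_const (∑ i, a s0 i * a t i)).add
    (h2.mul_const (∑ j, b s0 j * b t j))).add
      (((h2.const_mul ((1 - p) / 2)).neg).mul_const (DD a b s0 t))
  have e : (fun θ => cT p a b s0 θ t) = fun θ => Real.sin θ ^ 2 * (∑ i, a s0 i * a t i) +
      Real.cos θ ^ 2 * (∑ j, b s0 j * b t j) +
      (-((1 - p) / 2 * Real.cos θ ^ 2)) * DD a b s0 t := by
    funext θ
    unfold cT
    rw [kp_gram]
  rw [e]
  refine h3.congr_deriv ?_
  unfold cT' DD
  ring

/-- the bracket of the derivative -/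
lemma br_T (hd : ∀ s, ∑ i, a s i ^ 2 = ∑ j, b s j ^ 2) (θ : ℝ) (c : S → ℝ)
    (g : ι ⊕ ι' → ℝ) :
    br (-p) (kpath a b θ) c (kpath' a b θ) (cT' p a b s0 θ) g =
      (1 + p) * (Real.sin θ * Real.cos θ) *
        (gav (kpath a b θ) c (fun s => gav (kpath a b θ) c (fun t => DD a b s t) g) g -
          gav (kpath a b θ) c (fun t => DD a b s0 t) g) := by
  have q0 : ∀ (r : ℝ) (u : S → ℝ), gav (kpath a b θ) c (fun s => r * u s) g =
      r * gav (kpath a b θ) c u g := fun r u => by
    rw [gav_form, gav_form, Finset.mul_sum]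
    exact Finset.sum_congr rfl fun s _ => by ring
  unfold br
  have e1 : (fun s => ∑ i, kpath' a b θ s i * kpath a b θ s i + cT' p a b s0 θ s) =
      fun s => -((1 + p) * (Real.sin θ * Real.cos θ)) * DD a b s0 s := by
    funext s
    rw [Fintype.sum_sum_type]
    simp only [kpath, kpath', Sum.elim_inl, Sum.elim_inr]
    have q1 : ∑ i, Real.cos θ * a s i * (Real.sin θ * a s i) =
        Real.sin θ * Real.cos θ * ∑ i, a s i ^ 2 := by
      rw [Finset.mul_sum]
      exact Finset.sum_congr rfl fun i _ => by ring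
    have q2 : ∑ j, -Real.sin θ * b s j * (Real.cos θ * b s j) =
        -(Real.sin θ * Real.cos θ) * ∑ j, b s j ^ 2 := by
      rw [Finset.mul_sum]
      exact Finset.sum_congr rfl fun j _ => by ring
    rw [q1, q2, hd s]
    unfold cT'
    ring
  rw [e1, q0]
  have e3 : ∑ i, gav (kpath a b θ) c (fun s => kpath' a b θ s i) g *
      gav (kpath a b θ) c (fun s => kpath a b θ s i) g =
      Real.sin θ * Real.cos θ * ((∑ i, gav (kpath a b θ) c (fun s => a s i) g *
        gav (kpath a b θ) c (fun s => a s i) g) - ∑ j, gav (kpath a b θ) c (fun s => b s j) g *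
        gav (kpath a b θ) c (fun s => b s j) g) := by
    rw [Fintype.sum_sum_type]
    simp only [kpath', Sum.elim_inl, Sum.elim_inr]
    have q2 : ∀ i, gav (kpath a b θ) c (fun s => kpath a b θ s (Sum.inl i)) g =
        Real.sin θ * gav (kpath a b θ) c (fun s => a s i) g := fun i => q0 _ _
    have q3 : ∀ j, gav (kpath a b θ) c (fun s => kpath a b θ s (Sum.inr j)) g =
        Real.cos θ * gav (kpath a b θ) c (fun s => b s j) g := fun j => q0 _ _
    simp only [q0, q2, q3]
    rw [mul_sub, Finset.mul_sum, Finset.mul_sum, sub_eq_add_neg, ← Finset.sum_neg_distrib]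
    congr 1
    · exact Finset.sum_congr rfl fun i _ => by ring
    · exact Finset.sum_congr rfl fun i _ => by ring
  rw [e3, sum_gav_sq, sum_gav_sq]
  have e4 : gav (kpath a b θ) c (fun s => gav (kpath a b θ) c (fun t => DD a b s t) g) g =
      (∑ s, ∑ t, (wt (kpath a b θ) c g s / zz (kpath a b θ) c g) *
        (wt (kpath a b θ) c g t / zz (kpath a b θ) c g) * ∑ j, b s j * b t j) -
      ∑ s, ∑ t, (wt (kpath a b θ) c g s / zz (kpath a b θ) c g) *
        (wt (kpath a b θ) c g t / zz (kpath a b θ) c g) * ∑ i, a s i * a t i := by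
    rw [gav_form, ← Finset.sum_sub_distrib]
    refine Finset.sum_congr rfl fun s _ => ?_
    rw [gav_form, ← Finset.sum_sub_distrib, Finset.sum_mul]
    refine Finset.sum_congr rfl fun t _ => ?_
    unfold DD
    ring
  rw [e4]
  ring

/-- sign changes of a Gaussian vector -/
lemma mp_sign {κ : Type} [Fintype κ] (χ : κ → ℝ) (h : ∀ e, χ e = 1 ∨ χ e = -1) :
    MeasurePreserving (fun g : κ → ℝ => fun e => χ e * g e) (gpi κ) (gpi κ) := by
  unfold gpi
  refine measurePreserving_pi _ _ fun e => ⟨measurable_const_mul _, ?_⟩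
  rw [gaussianReal_map_const_mul, mul_zero]
  congr 1
  ext
  simp only [NNReal.coe_mk, NNReal.coe_one, mul_one]
  rcases h e with h1 | h1 <;> rw [h1] <;> norm_num

/-- the symmetry along the path -/
lemma sym_path (hg : Gg a b s0) (θ : ℝ) (s : S) : Sym (kpath a b θ) (DD a b) s0 s := by
  obtain ⟨π, χ, χ', h1, h2, h3, h4, h5, h6⟩ := hg.ex s
  have q1 : ∀ i, χ i * χ i = 1 := fun i => by rcases h3 i with h | h <;> rw [h] <;> norm_num
  have q2 : ∀ j, χ' j * χ' j = 1 := fun j => by rcases h4 j with h | h <;> rw [h] <;> norm_num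
  have hD : ∀ u t, DD a b (π u) (π t) = DD a b u t := by
    intro u t
    unfold DD
    congr 1
    · refine Finset.sum_congr rfl fun j _ => ?_
      rw [h6, h6]
      linear_combination (b u j * b t j) * q2 j
    · refine Finset.sum_congr rfl fun i _ => ?_
      rw [h5, h5]
      linear_combination (a u i * a t i) * q1 i
  refine ⟨fun g e => Sum.elim χ χ' e * g e, π, mp_sign _ ?_, ?_, h1, h2, ?_, ?_⟩
  · rintro (e | e)
    · exact h3 e
    · exact h4 e
  · intro t g
    refine Finset.sum_congr rfl fun e _ => ?_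
    rcases e with i | j
    · simp only [kpath, Sum.elim_inl]
      rw [h5]
      ring
    · simp only [kpath, Sum.elim_inr]
      rw [h6]
      ring
  · intro t
    have := hD s t
    rwa [h2] at this
  · intro t
    have := hD s0 t
    rwa [h1] at this

/-- **the transport inequality**, unplanted form -/
theorem trans0 (hp : 0 ≤ p) (hp1 : p ≤ 1) (hd : ∀ s, ∑ i, a s i ^ 2 = ∑ j, b s j ^ 2)
    (hg : Gg a b s0) :
    ∫ g, zp (-p) a (fun t => ∑ i, a s0 i * a t i) g ∂(gpi ι) ≤
      ∫ g, zp (-p) b (fun t => (∑ j, b s0 j * b t j) + -((1 - p) / 2) * DD a b s0 t) g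
        ∂(gpi ι') := by
  classical
  obtain ⟨B, hB⟩ : ∃ B : ℝ, B = (∑ s, ∑ i, |a s i|) + ∑ s, ∑ j, |b s j| := ⟨_, rfl⟩
  have hcb : ∀ θ t, |cT p a b s0 θ t| ≤ ∑ t, (|∑ i, a s0 i * a t i| +
      |∑ j, b s0 j * b t j| + (1 - p) / 2 * |DD a b s0 t|) := by
    intro θ t
    have hs : Real.sin θ ^ 2 ≤ 1 := Real.sin_sq_le_one θ
    have hc : Real.cos θ ^ 2 ≤ 1 := Real.cos_sq_le_one θ
    have h1 : |cT p a b s0 θ t| ≤ |∑ i, a s0 i * a t i| +
      |∑ j, b s0 j * b t j| + (1 - p) / 2 * |DD a b s0 t| := by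
      unfold cT
      rw [kp_gram]
      refine (abs_add_le _ _).trans (add_le_add ((abs_add_le _ _).trans (add_le_add ?_ ?_)) ?_)
      · rw [abs_mul, abs_of_nonneg (sq_nonneg _)]
        exact mul_le_of_le_one_left (abs_nonneg _) hs
      · rw [abs_mul, abs_of_nonneg (sq_nonneg _)]
        exact mul_le_of_le_one_left (abs_nonneg _) hc
      · rw [abs_mul, abs_neg, abs_of_nonneg (by
          have : 0 ≤ (1 - p) / 2 := by linarith
          positivity)]
        refine mul_le_mul_of_nonneg_right ?_ (abs_nonneg _)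
        exact mul_le_of_le_one_right (by linarith) hc
    exact h1.trans (Finset.single_le_sum (f := fun t => |∑ i, a s0 i * a t i| +
      |∑ j, b s0 j * b t j| + (1 - p) / 2 * |DD a b s0 t|) (fun t _ => by
        have : 0 ≤ (1 - p) / 2 := by linarith
        positivity) (Finset.mem_univ t))
  have hcb' : ∀ θ t, |cT' p a b s0 θ t| ≤ ∑ t, (1 + p) * |DD a b s0 t| := by
    intro θ t
    have h1 : |cT' p a b s0 θ t| ≤ (1 + p) * |DD a b s0 t| := by
      unfold cT'
      rw [abs_mul, abs_neg, abs_mul, abs_of_nonneg (show 0 ≤ 1 + p by linarith), abs_mul]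
      refine mul_le_mul_of_nonneg_right ?_ (abs_nonneg _)
      refine mul_le_of_le_one_right (by linarith) ?_
      exact mul_le_one₀ (Real.abs_sin_le_one θ) (abs_nonneg _) (Real.abs_cos_le_one θ)
    exact h1.trans (Finset.single_le_sum (f := fun t => (1 + p) * |DD a b s0 t|)
      (fun t _ => by positivity) (Finset.mem_univ t))
  have hder : ∀ θ, HasDerivAt
      (fun θ => ∫ g, zp (-p) (kpath a b θ) (cT p a b s0 θ) g ∂(gpi (ι ⊕ ι')))
      (-p * ∫ g, zp (-p) (kpath a b θ) (cT p a b s0 θ) g * br (-p) (kpath a b θ)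
        (cT p a b s0 θ) (kpath' a b θ) (cT' p a b s0 θ) g ∂(gpi (ι ⊕ ι'))) θ := fun θ =>
    hasDerivAt_moment (-p) (a := kpath a b) (a' := kpath' a b) (c := cT p a b s0)
      (c' := cT' p a b s0) (A := B) (A' := B)
      (fun θ s i => by
        rcases i with i | j
        · simp only [kpath, kpath', Sum.elim_inl]
          exact (Real.hasDerivAt_sin θ).mul_const _
        · simp only [kpath, kpath', Sum.elim_inr]
          exact (Real.hasDerivAt_cos θ).mul_const _)
      (fun θ s => cT_der p a b s0 θ s)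
      (fun θ s i => by
        rw [hB]
        exact abs_kp _ _ (Real.abs_sin_le_one θ) (Real.abs_cos_le_one θ) s i)
      (fun θ s i => by
        rw [hB]
        exact abs_kp (a := a) (b := b) (Real.cos θ) (-Real.sin θ) (Real.abs_cos_le_one θ)
          (by rw [abs_neg]; exact Real.abs_sin_le_one θ) s i)
      hcb hcb' θ
  have hpi : (0 : ℝ) ≤ Real.pi / 2 := by positivity
  have hanti := antitoneOn_of_deriv_nonpos (D := Set.Icc 0 (Real.pi / 2)) (convex_Icc _ _)
    (f := fun θ => ∫ g, zp (-p) (kpath a b θ) (cT p a b s0 θ) g ∂(gpi (ι ⊕ ι')))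
    (fun θ _ => (hder θ).continuousAt.continuousWithinAt)
    (fun θ _ => (hder θ).differentiableAt.differentiableWithinAt)
    (fun θ hθ => by
      rw [interior_Icc] at hθ
      rw [(hder θ).deriv]
      have h0 : 0 ≤ Real.sin θ := Real.sin_nonneg_of_nonneg_of_le_pi hθ.1.le
        (by linarith [hθ.2, Real.pi_pos])
      have h1 : 0 ≤ Real.cos θ := Real.cos_nonneg_of_neg_pi_div_two_le_of_le
        (by linarith [hθ.1, Real.pi_pos]) hθ.2.le
      have h2 : 0 ≤ ∫ g, zp (-p) (kpath a b θ) (cT p a b s0 θ) g * br (-p) (kpath a b θ)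
          (cT p a b s0 θ) (kpath' a b θ) (cT' p a b s0 θ) g ∂(gpi (ι ⊕ ι')) := by
        simp only [br_T hd]
        have h3 := swap (S := S) (ι := ι ⊕ ι') (a := kpath a b θ) (f := DD a b) (s0 := s0) hp
          (fun s => sym_path hg θ s) (lam := -((1 - p) / 2 * Real.cos θ ^ 2))
          (by
            have : 0 ≤ (1 - p) / 2 := by linarith
            have h4 : 0 ≤ (1 - p) / 2 * Real.cos θ ^ 2 := by positivity
            linarith) (c := cT p a b s0 θ) rfl
        have e : ∫ g, zp (-p) (kpath a b θ) (cT p a b s0 θ) g *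
            ((1 + p) * (Real.sin θ * Real.cos θ) *
              (gav (kpath a b θ) (cT p a b s0 θ) (fun s => gav (kpath a b θ) (cT p a b s0 θ)
                (fun t => DD a b s t) g) g -
              gav (kpath a b θ) (cT p a b s0 θ) (fun t => DD a b s0 t) g)) ∂(gpi (ι ⊕ ι')) =
            (1 + p) * (Real.sin θ * Real.cos θ) *
            ∫ g, zp (-p) (kpath a b θ) (cT p a b s0 θ) g *
              (gav (kpath a b θ) (cT p a b s0 θ) (fun s => gav (kpath a b θ) (cT p a b s0 θ)
                (fun t => DD a b s t) g) g -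
              gav (kpath a b θ) (cT p a b s0 θ) (fun t => DD a b s0 t) g) ∂(gpi (ι ⊕ ι')) := by
          rw [← integral_const_mul]
          refine integral_congr_ae (Eventually.of_forall fun g => ?_)
          ring
        rw [e]
        exact mul_nonneg (by positivity) h3
      nlinarith)
  have h := hanti (Set.left_mem_Icc.2 hpi) (Set.right_mem_Icc.2 hpi) hpi
  have e1 : ∀ g : ι ⊕ ι' → ℝ, zp (-p) (kpath a b (Real.pi / 2)) (cT p a b s0 (Real.pi / 2)) g =
      zp (-p) a (fun t => ∑ i, a s0 i * a t i) fun i => g (Sum.inl i) := by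
    intro g
    have e : cT p a b s0 (Real.pi / 2) = fun t => ∑ i, a s0 i * a t i := by
      funext t
      unfold cT
      rw [kp_gram]
      simp
    rw [e]
    unfold zp zz wt kpath
    simp only [Real.sin_pi_div_two, Real.cos_pi_div_two, one_mul, zero_mul,
      Fintype.sum_sum_type, Sum.elim_inl, Sum.elim_inr, Finset.sum_const_zero, add_zero]
  have e2 : ∀ g : ι ⊕ ι' → ℝ, zp (-p) (kpath a b 0) (cT p a b s0 0) g =
      zp (-p) b (fun t => (∑ j, b s0 j * b t j) + -((1 - p) / 2) * DD a b s0 t)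
        fun i => g (Sum.inr i) := by
    intro g
    have e : cT p a b s0 0 = fun t => (∑ j, b s0 j * b t j) + -((1 - p) / 2) * DD a b s0 t := by
      funext t
      unfold cT
      rw [kp_gram]
      simp
    rw [e]
    unfold zp zz wt kpath
    simp only [Real.sin_zero, Real.cos_zero, one_mul, zero_mul,
      Fintype.sum_sum_type, Sum.elim_inl, Sum.elim_inr, Finset.sum_const_zero, zero_add]
  simp only [e1, e2] at h
  rw [int_inl (zp_cont (-p) a _).measurable, int_inr (zp_cont (-p) b _).measurable] at h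
  exact h

/-- **THE TRANSPORT INEQUALITY.** -/
theorem trans (hp : 0 ≤ p) (hp1 : p ≤ 1) (hd : ∀ s, ∑ i, a s i ^ 2 = ∑ j, b s j ^ 2)
    (hg : Gg a b s0) :
    H863.D29.Np p a s0 (fun _ => 0) ≤ H863.D29.Np p b s0 (fun s => -((1 - p) / 2 *
      (∑ j, b s0 j * b s j - ∑ i, a s0 i * a s i))) := by
  unfold H863.D29.Np
  rw [shift_int, shift_int, hd s0]
  refine mul_le_mul_of_nonneg_left ?_ (Real.exp_pos _).le
  simp only [zp_shift]
  have h := trans0 hp hp1 hd hg
  unfold DD at h
  have e1 : (fun t => (∑ i, a s0 i * a t i) + (0 : ℝ)) = fun t => ∑ i, a s0 i * a t i := by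
    funext t
    ring
  have e2 : (fun t => (∑ j, b s0 j * b t j) + -((1 - p) / 2 *
      (∑ j, b s0 j * b t j - ∑ i, a s0 i * a t i))) = fun t => (∑ j, b s0 j * b t j) +
      -((1 - p) / 2) * (∑ j, b s0 j * b t j - ∑ i, a s0 i * a t i) := by
    funext t
    ring
  rw [e1, e2]
  exact h

/-- **the transport inequality for the doubling step of SK** -/
theorem trans_sk {n : ℕ} (hn : 1 ≤ n) (β : ℝ) {p : ℝ} (hp : 0 ≤ p) (hp1 : p ≤ 1) :
    H863.D29.Np p (H863.D29.a2 n β) (1, 1) (fun _ => 0) ≤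
      H863.D29.Np p (H863.D29.b2 n β) (1, 1)
        (fun s => -((1 - p) / 2 * H863.D29.gap n β (1, 1) s)) := by
  have h := trans (a := H863.D29.a2 n β) (b := H863.D29.b2 n β) (s0 := (1, 1)) hp hp1
    (H863.D29.gap_diag hn β) (GA.gg_ab n β)
  have e : ∀ s, ∑ j, H863.D29.b2 n β (1, 1) j * H863.D29.b2 n β s j -
      ∑ i, H863.D29.a2 n β (1, 1) i * H863.D29.a2 n β s i = H863.D29.gap n β (1, 1) s := by
    intro s
    rw [H863.D29.gram_gap hn]
    ring
  simpa only [e] using h

end Vale.Agent.P146.H329.TR
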