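import Vale.Agent.P146.H863.Dbl
import Vale.Agent.P146.H329.Trans

/-!
# P146: the doubling inequality with the rate `(x n)^(1/3)`
-/

open MeasureTheory ProbabilityTheory

namespace Vale.Agent.P146.H329

/-- **The doubling inequality**: `log E Z_{2n}^x ≤ 2 log E Z_n^x + C (1 + (x n)^(1/3)) (1 + log n)`. -/
theorem dbl17 (β : ℝ) : ∃ C : ℝ, 0 ≤ C ∧ ∀ n : ℕ, 1 ≤ n → ∀ x : ℝ, 0 < x → x ≤ 1 →
    Real.log (∫ g, Real.exp (x * freeEnergy (2 * n) β g) ∂(disorder (2 * n))) ≤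
      2 * Real.log (∫ g, Real.exp (x * freeEnergy n β g) ∂(disorder n)) +
        C * ((1 + (x * n) ^ (1 / 3 : ℝ)) * (1 + Real.log n)) := by
  obtain ⟨C, hC, h⟩ := H863.D29.dbl_of β
  refine ⟨C, hC, fun n hn x hx hx1 => ?_⟩
  have hn' : (1 : ℝ) ≤ n := by exact_mod_cast hn
  have h1 := h n hn x hx hx1 (x / 2) (by linarith) (by linarith) (by
    have := TR.trans_sk hn β (p := 1 - x) (by linarith) (by linarith)
    have e : (1 - (1 - x)) / 2 = x / 2 := by ring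
    rwa [e] at this)
  refine h1.trans (add_le_add le_rfl (mul_le_mul_of_nonneg_left ?_ hC))
  refine mul_le_mul_of_nonneg_right ?_ (by linarith [Real.log_nonneg hn'])
  refine add_le_add le_rfl (Real.rpow_le_rpow (by positivity) ?_ (by norm_num))
  have : 0 ≤ x * n := by positivity
  linarith

/-- the same in the range `1 ≤ x n` -/
theorem dbl17' (β : ℝ) : ∃ C : ℝ, 0 ≤ C ∧ ∀ n : ℕ, 1 ≤ n → ∀ x : ℝ, 0 < x → x ≤ 1 →
    1 ≤ x * n →
    Real.log (∫ g, Real.exp (x * freeEnergy (2 * n) β g) ∂(disorder (2 * n))) ≤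
      2 * Real.log (∫ g, Real.exp (x * freeEnergy n β g) ∂(disorder n)) +
        C * x ^ (1 / 3 : ℝ) * (n : ℝ) ^ (1 / 3 : ℝ) * (1 + Real.log n) := by
  obtain ⟨C, hC, h⟩ := dbl17 β
  refine ⟨2 * C, by positivity, fun n hn x hx hx1 hxn => ?_⟩
  have hn' : (1 : ℝ) ≤ n := by exact_mod_cast hn
  refine (h n hn x hx hx1).trans (add_le_add le_rfl ?_)
  have h1 : 1 ≤ (x * n) ^ (1 / 3 : ℝ) := Real.one_le_rpow hxn (by norm_num)
  have h2 : (x * n) ^ (1 / 3 : ℝ) = x ^ (1 / 3 : ℝ) * (n : ℝ) ^ (1 / 3 : ℝ) :=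
    Real.mul_rpow hx.le (by positivity)
  have hl : 0 ≤ 1 + Real.log n := by linarith [Real.log_nonneg hn']
  have h3 : C * ((1 + (x * n) ^ (1 / 3 : ℝ)) * (1 + Real.log n)) ≤
      C * ((2 * (x * n) ^ (1 / 3 : ℝ)) * (1 + Real.log n)) :=
    mul_le_mul_of_nonneg_left (mul_le_mul_of_nonneg_right (by linarith) hl) hC
  refine h3.trans (le_of_eq ?_)
  rw [h2]
  ring

end Vale.Agent.P146.H329
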