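import Vale.Agent.P146.H546.Fw

/-!
P146, plan R1, per bulk facts: the sizes of the nonlinear parts of the row field in terms of the
variance of the row gradients.
-/

open Finset Matrix MeasureTheory ProbabilityTheory

set_option linter.unusedSectionVars false

namespace Vale.Agent.P146.R1C

open Vale.Agent.P157.Lv Vale.Agent.P146.H425 Vale.Agent.P146.H325 Vale.Agent.P146.H332
  Vale.Agent.P146.H712 Vale.Agent.P146.R1 Vale.Agent.P146.H816

variable {n : ℕ} {k s : ℝ} {A : (Pair n → ℝ) → Matrix (Fin n) (Fin n) ℝ}
  {DA : Pair n → (Pair n → ℝ) → Matrix (Fin n) (Fin n) ℝ}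
  {H : Fin n → (Pair n → ℝ) → Matrix (Fin n) (Fin n) ℝ} {b b' : Fin n}

/-- The variance of the row gradient over the row, with the left index contracted with `P`. -/
noncomputable def vP (H : Fin n → (Pair n → ℝ) → Matrix (Fin n) (Fin n) ℝ) (s : ℝ)
    (b b' : Fin n) (P : Fin n → Fin n → ℝ) (z : Pair n → ℝ) : ℝ :=
  AvP s (row b ∪ row b') (fun u => ∑ i, ∑ j, (∑ l, P i l *
    (AvP s (row b') (fun u => H b u l j) u -
      AvP s (row b ∪ row b') (fun u => H b u l j) u)) ^ 2) z

/-- The identity. -/
def idq (i l : Fin n) : ℝ := if i = l then 1 else 0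

/-- The projection orthogonal to `v`, on the bulk sites. -/
noncomputable def pq (b b' : Fin n) (v : Fin n → ℝ) (i l : Fin n) : ℝ :=
  if (i = b ∨ i = b') ∨ l = b ∨ l = b' then 0 else (if i = l then 1 else 0) - v i * v l

/-- replace the inner variable in a function of the averaged couplings -/
lemma AvP_fix {κ : Type} [Fintype κ] [DecidableEq κ] {R : Finset κ} {J : Type}
    {m : J → (κ → ℝ) → ℝ} (hm : ∀ j, Ind R (m j)) (f : (κ → ℝ) → (J → ℝ) → ℝ) (z : κ → ℝ) :
    AvP s R (fun u => f u fun j => m j u) z = AvP s R (fun u => f u fun j => m j z) z := by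
  unfold AvP
  refine integral_congr_ae (Filter.Eventually.of_forall fun g => ?_)
  simp only
  congr 1
  funext j
  exact hm j z _

section row

variable (hH : ∀ b i j, EG fun z => H b z i j)

include hH

lemma eg_dif (i j : Fin n) (z : Pair n → ℝ) : EG fun u =>
    AvP s (row b') (fun u => H b u i j) u - AvP s (row b ∪ row b') (fun u => H b u i j) z :=
  (eg_AvP (hH b i j) s _).sub (EG.const _)

lemma vP_fix (P : Fin n → Fin n → ℝ) (z : Pair n → ℝ) : vP H s b b' P z =
    ∑ i, ∑ j, AvP s (row b) (fun u => (∑ l, P i l *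
      (AvP s (row b') (fun u => H b u l j) u -
        AvP s (row b ∪ row b') (fun u => H b u l j) z)) ^ 2) z := by
  have e1 : vP H s b b' P z = AvP s (row b ∪ row b') (fun u => ∑ i, ∑ j, (∑ l, P i l *
      (AvP s (row b') (fun u => H b u l j) u -
        AvP s (row b ∪ row b') (fun u => H b u l j) z)) ^ 2) z :=
    AvP_fix (J := Fin n × Fin n)
      (m := fun p => AvP s (row b ∪ row b') fun u => H b u p.1 p.2)
      (fun p => ind_AvP s _ _) (fun u m => ∑ i, ∑ j, (∑ l, P i l *
        (AvP s (row b') (fun u => H b u l j) u - m (l, j))) ^ 2) z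
  have eg : ∀ i j, EG fun u => (∑ l, P i l * (AvP s (row b') (fun u => H b u l j) u -
        AvP s (row b ∪ row b') (fun u => H b u l j) z)) ^ 2 := fun i j =>
    (EG.sum _ fun l _ => (eg_dif hH l j z).const_mul _).pow 2
  rw [e1, AvP_union_ind (EG.sum _ fun i _ => EG.sum _ fun j _ => eg i j),
    AvP_sum _ fun i _ => EG.sum _ fun j _ => eg i j]
  · exact sum_congr rfl fun i _ => AvP_sum _ (fun j _ => eg i j) z
  · intro z w
    simp only
    refine sum_congr rfl fun i _ => sum_congr rfl fun j _ => ?_
    congr 1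
    refine sum_congr rfl fun l _ => ?_
    rw [ind_AvP s (row b') (fun u => H b u l j) z w]

/-- **`E|a^nl|²` in terms of the variance of the row gradient.** -/
theorem Na1_vP (h : RowIn k A DA H) (hb : b ≠ b') (hs : 0 ≤ s) (z : Pair n → ℝ) :
    Na1 k A H s b b' z ≤ s * k ^ 2 * vP H s b b' idq z := by
  refine (Na1_le h hb hs z).trans ?_
  rw [mul_assoc]
  refine mul_le_mul_of_nonneg_left ?_ hs
  rw [vP_fix hH, mul_sum]
  refine sum_le_sum fun i _ => ?_
  rw [mul_sum]
  refine sum_le_sum fun j _ => ?_
  rw [← AvP_const_mul]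
  refine AvP_mono ((eg_hm h.egH k s b b' i j z).pow 2)
    (((EG.sum _ fun l _ => (eg_dif hH l j z).const_mul _).pow 2).const_mul _) (fun u => ?_) z
  have e1 : ∑ l, idq i l * (AvP s (row b') (fun u => H b u l j) u -
        AvP s (row b ∪ row b') (fun u => H b u l j) z) =
      AvP s (row b') (fun u => H b u i j) u - AvP s (row b ∪ row b') (fun u => H b u i j) z := by
    unfold idq
    simp
  rw [e1, mh_eq h.egH]
  unfold hlz
  by_cases h1 : (i = b ∨ i = b') ∨ j = b ∨ j = b'
  · rw [if_pos h1, if_pos h1]
    have := sq_nonneg (AvP s (row b') (fun u => H b u i j) u -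
      AvP s (row b ∪ row b') (fun u => H b u i j) z)
    have h2 := mul_nonneg (sq_nonneg k) this
    simpa using h2
  · rw [if_neg h1, if_neg h1]
    exact le_of_eq (by ring)

/-- **`2 E|P(H - E H)|²` in terms of the variance of the projected row gradient.** -/
theorem Ne1_vP (hs : 0 ≤ s) {v : Fin n → ℝ} (vb : v b = 0) (vb' : v b' = 0) (z : Pair n → ℝ) :
    Ne1 k H s b b' v z ≤ 2 * s * k ^ 2 * vP H s b b' (pq b b' v) z := by
  rw [Ne1_eq hH hs, mul_assoc (2 * s)]
  refine mul_le_mul_of_nonneg_left ?_ (by linarith)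
  rw [vP_fix hH, mul_sum]
  refine sum_le_sum fun i _ => ?_
  rw [mul_sum]
  refine sum_le_sum fun j _ => ?_
  rw [← AvP_const_mul]
  refine AvP_mono (((eg_hm hH k s b b' i j z).sub ((EG.sum univ fun l _ =>
      (eg_hm hH k s b b' l j z).const_mul (v l)).const_mul (v i))).pow 2)
    (((EG.sum _ fun l _ => (eg_dif hH l j z).const_mul _).pow 2).const_mul _) (fun u => ?_) z
  set D : Fin n → ℝ := fun l => AvP s (row b') (fun u => H b u l j) u -
    AvP s (row b ∪ row b') (fun u => H b u l j) z with hD
  have e0 : ∀ l, hlz k H s b b' u l j - mh k H s b b' z l j =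
      if (l = b ∨ l = b') ∨ j = b ∨ j = b' then 0 else k * D l := by
    intro l
    rw [mh_eq hH]
    unfold hlz
    by_cases h1 : (l = b ∨ l = b') ∨ j = b ∨ j = b'
    · rw [if_pos h1, if_pos h1, if_pos h1, sub_zero]
    · rw [if_neg h1, if_neg h1, if_neg h1]
      simp only [hD]
      ring
  simp only [e0]
  by_cases hj : j = b ∨ j = b'
  · have h1 : ∀ l : Fin n, ((l = b ∨ l = b') ∨ j = b ∨ j = b') := fun l => Or.inr hj
    simp only [if_pos (h1 _), mul_zero, sum_const_zero, sub_zero]
    have := mul_nonneg (sq_nonneg k) (sq_nonneg (∑ l, pq b b' v i l * D l))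
    simpa using this
  · have h1 : ∀ l : Fin n, ((l = b ∨ l = b') ∨ j = b ∨ j = b') ↔ (l = b ∨ l = b') := by
      intro l; tauto
    simp only [h1]
    have e2 : ∑ l, v l * (if l = b ∨ l = b' then 0 else k * D l) = k * ∑ l, v l * D l := by
      rw [mul_sum]
      refine sum_congr rfl fun l _ => ?_
      by_cases hl : l = b ∨ l = b'
      · rw [if_pos hl]
        rcases hl with hl | hl
        · rw [hl, vb]; ring
        · rw [hl, vb']; ring
      · rw [if_neg hl]; ring
    rw [e2]
    by_cases hi : i = b ∨ i = b'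
    · have hvi : v i = 0 := by
        rcases hi with hi | hi
        · rw [hi, vb]
        · rw [hi, vb']
      rw [if_pos hi, hvi, zero_mul, sub_zero]
      have := mul_nonneg (sq_nonneg k) (sq_nonneg (∑ l, pq b b' v i l * D l))
      simpa using this
    · have e3 : ∑ l, pq b b' v i l * D l = D i - v i * ∑ l, v l * D l := by
        have e4 : ∀ l, pq b b' v i l * D l = (if i = l then D l else 0) - v i * (v l * D l) := by
          intro l
          unfold pq
          by_cases hl : l = b ∨ l = b'
          · rw [if_pos (Or.inr hl)]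
            have hil : i ≠ l := by
              rintro rfl
              exact hi hl
            rw [if_neg hil]
            rcases hl with hl | hl
            · rw [hl, vb]; ring
            · rw [hl, vb']; ring
          · rw [if_neg (by tauto)]
            by_cases hil : i = l
            · rw [if_pos hil, if_pos hil]; ring
            · rw [if_neg hil, if_neg hil]; ring
        simp only [e4, sum_sub_distrib, sum_ite_eq, mem_univ, if_true, ← mul_sum]
      rw [if_neg hi, e3]
      exact le_of_eq (by ring)

end row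

end Vale.Agent.P146.R1C
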