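import Vale.Agent.P146.H518.End
import Vale.Agent.P146.H329.Dbl17

/-!
# P146: the end assembly with the rate `n^(1/3) r^(-2/3)` of one exponential moment

The doubling inequality `dbl17` feeds the telescoping sum of `H518.Tel` (the range `1 ≤ x n` is
enough) and the end assembly `H518.all_c` with `θ = 2/17`.
-/

open MeasureTheory ProbabilityTheory Filter Topology

namespace Vale.Agent.P146.H329

open Vale.Agent.P146 Vale.Agent.P146.H605 Vale.Agent.P146.H260.Asm Vale.Agent.P146.H737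
open Vale.Agent.P146.H518 (Lm pot AllC all_c)

set_option linter.unusedSectionVars false

/-- doubling the size costs `C x^{1-c} n^{1/3} (1 + log n)` in the logarithm of a moment, for
`1 ≤ x n` -/
def Dblx (β c C : ℝ) : Prop := ∀ n : ℕ, 1 ≤ n → ∀ x : ℝ, 0 < x → x ≤ 1 / 2 → 1 ≤ x * n →
  Real.log (∫ g, Real.exp (x * freeEnergy (2 * n) β g) ∂(disorder (2 * n))) ≤
    2 * Real.log (∫ g, Real.exp (x * freeEnergy n β g) ∂(disorder n)) +
      C * x ^ (1 - c) * (n : ℝ) ^ (1 / 3 : ℝ) * (1 + Real.log n)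

lemma telx {β c C₀ C : ℝ} (h : Dblx β c C₀) {n : ℕ} (hn : 1 ≤ n) {x : ℝ} (hx : 0 < x)
    (hx2 : x ≤ 1 / 2) (hxn : 1 ≤ x * n) (hC : 0 ≤ C) (hCC : C = C₀ * x ^ (1 - c)) (k : ℕ) :
    Lm β x (2 ^ k * n) + 2 * C * ((2 ^ k * n : ℕ) : ℝ) ^ (1 / 3 : ℝ) *
      (4 + Real.log ((2 ^ k * n : ℕ) : ℝ)) ≤
      2 ^ k * (Lm β x n + 2 * C * (n : ℝ) ^ (1 / 3 : ℝ) * (4 + Real.log n)) := by
  induction k with
  | zero => simp
  | succ k ih =>
    have e : 2 ^ (k + 1) * n = 2 * (2 ^ k * n) := by rw [pow_succ]; ring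
    obtain ⟨N, hN⟩ : ∃ N, N = 2 ^ k * n := ⟨_, rfl⟩
    rw [e, ← hN]
    rw [← hN] at ih
    have hN1 : 1 ≤ N := by
      rw [hN]; exact Nat.one_le_iff_ne_zero.2 (by positivity)
    have hNn : n ≤ N := by
      rw [hN]; exact Nat.le_mul_of_pos_left _ (by positivity)
    have hxN : 1 ≤ x * N := by
      have h0 : (n : ℝ) ≤ N := by exact_mod_cast hNn
      have := mul_le_mul_of_nonneg_left h0 hx.le
      linarith
    have h1 := h N hN1 x hx hx2 hxN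
    rw [← hCC] at h1
    have h2 := pot (N := (N : ℝ)) (C := C) (by exact_mod_cast hN1) hC
    unfold Lm at ih ⊢
    have e2 : ((2 * N : ℕ) : ℝ) = 2 * (N : ℝ) := by push_cast; ring
    rw [e2]
    have e3 : (2 : ℝ) ^ (k + 1) = 2 * 2 ^ k := by rw [pow_succ]; ring
    rw [e3]
    linarith

/-- **The rate `n^{1/3} r^{-c}` of one exponential moment.** -/
theorem tmh_of_dblx {β c C₀ : ℝ} (hβ : 1 ≤ β) (hC₀ : 0 ≤ C₀) (h : Dblx β c C₀) :
    TMh β (1 / 3) c 1 := by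
  obtain ⟨D, hD, h1⟩ := tmh2 hβ
  refine ⟨8 * C₀, by positivity, fun n hn r hr hr2 hr6 => ?_⟩
  obtain ⟨C, hCC⟩ : ∃ C, C = C₀ * r ^ (1 - c) := ⟨_, rfl⟩
  have hC : 0 ≤ C := by rw [hCC]; positivity
  have hn1 : (1 : ℝ) ≤ n := by exact_mod_cast hn
  have hn0 : (0 : ℝ) < n := by linarith
  have hl : 0 ≤ Real.log (n : ℝ) := Real.log_nonneg hn1
  have hrn : 1 ≤ r * n := by
    have h6 : r ^ 6 ≤ r := by
      calc r ^ 6 ≤ r ^ 1 := pow_le_pow_of_le_one hr.le (by linarith) (by norm_num)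
        _ = r := pow_one r
    exact hr6.trans (mul_le_mul_of_nonneg_right h6 (by linarith))
  obtain ⟨P, hP⟩ : ∃ P, P = Real.log 2 + Sh.Vx β r := ⟨_, rfl⟩
  obtain ⟨W, hW⟩ : ∃ W, W = Lm β r n + 2 * C * (n : ℝ) ^ (1 / 3 : ℝ) * (4 + Real.log n) :=
    ⟨_, rfl⟩
  -- the limit
  have key : r * (n * P) ≤ W := by
    have h2 : ∀ᶠ k : ℕ in atTop, r * (n * P) - r * n * ((2 ^ k * n : ℕ) : ℝ) ^ (-(1 / 6) : ℝ) ≤
        W := by
      have h3 := Vale.Agent.P146.R3.H924.Low5.log_pow_le D 2 (δ := 1 / 6) (by norm_num)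
      have t1 : Tendsto (fun k : ℕ => 2 ^ k * n) atTop atTop := by
        refine Filter.tendsto_atTop_mono (fun k => ?_)
          (tendsto_pow_atTop_atTop_of_one_lt (by norm_num : (1 : ℕ) < 2))
        exact Nat.le_mul_of_pos_right _ (by omega)
      filter_upwards [t1.eventually h3] with k hk
      obtain ⟨N, hN⟩ : ∃ N, N = 2 ^ k * n := ⟨_, rfl⟩
      have h4 := telx h hn hr hr2 hrn hC hCC k
      rw [← hN] at hk h4 ⊢
      have hN1 : n ≤ N := by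
        rw [hN]; exact Nat.le_mul_of_pos_left _ (by positivity)
      have hNn : (n : ℝ) ≤ N := by exact_mod_cast hN1
      have hN0 : (0 : ℝ) < N := by linarith
      have h5 := h1 N (by omega) r hr hr2 (hr6.trans (by gcongr))
      rw [← hP, neg_zero, Real.rpow_zero, mul_one] at h5
      have hlN : 0 ≤ Real.log (N : ℝ) := Real.log_nonneg (by linarith)
      have h6 : D * (1 + Real.log (N : ℝ)) ^ 2 * (N : ℝ) ^ (2 / 3 : ℝ) ≤
          N * (N : ℝ) ^ (-(1 / 6) : ℝ) := by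
        have e1 : (N : ℝ) * (N : ℝ) ^ (-(1 / 6) : ℝ) = (N : ℝ) ^ (1 / 6 : ℝ) *
            (N : ℝ) ^ (2 / 3 : ℝ) := by
          rw [← Real.rpow_add hN0, ← Real.rpow_one_add' hN0.le (by norm_num)]
          norm_num
        rw [e1]
        gcongr
      have h7 : r * (N * P) ≤ Lm β r N + r * (N * (N : ℝ) ^ (-(1 / 6) : ℝ)) := by
        have h8 : N * P ≤ 1 / r * Lm β r N + N * (N : ℝ) ^ (-(1 / 6) : ℝ) := by
          unfold Lm
          linarith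
        have h9 := mul_le_mul_of_nonneg_left h8 hr.le
        have e2 : r * (1 / r * Lm β r N + N * (N : ℝ) ^ (-(1 / 6) : ℝ)) =
            Lm β r N + r * (N * (N : ℝ) ^ (-(1 / 6) : ℝ)) := by
          field_simp
        linarith
      have h10 : 0 ≤ 2 * C * (N : ℝ) ^ (1 / 3 : ℝ) * (4 + Real.log (N : ℝ)) := by positivity
      have e3 : (N : ℝ) = 2 ^ k * n := by rw [hN]; push_cast; ring
      have h11 : r * (N * P) - r * (N * (N : ℝ) ^ (-(1 / 6) : ℝ)) ≤ 2 ^ k * W := by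
        rw [hW]; linarith
      have h12 : 2 ^ k * (r * (n * P) - r * n * (N : ℝ) ^ (-(1 / 6) : ℝ)) ≤ 2 ^ k * W := by
        refine le_trans (le_of_eq ?_) h11
        rw [show r * (N * P) - r * (N * (N : ℝ) ^ (-(1 / 6) : ℝ)) =
          N * (r * P - r * (N : ℝ) ^ (-(1 / 6) : ℝ)) by ring]
        conv_rhs => rw [show (N : ℝ) * (r * P - r * (N : ℝ) ^ (-(1 / 6) : ℝ)) =
          (2 ^ k * n) * (r * P - r * (N : ℝ) ^ (-(1 / 6) : ℝ)) by rw [← e3]]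
        ring
      exact le_of_mul_le_mul_left h12 (by positivity)
    have h3 : Tendsto (fun k : ℕ => r * (n * P) -
        r * n * ((2 ^ k * n : ℕ) : ℝ) ^ (-(1 / 6) : ℝ)) atTop (𝓝 (r * (n * P) - r * n * 0)) := by
      refine tendsto_const_nhds.sub (Tendsto.const_mul _ ?_)
      refine (tendsto_rpow_neg_atTop (by norm_num : (0 : ℝ) < 1 / 6)).comp
        (tendsto_natCast_atTop_atTop.comp ?_)
      refine Filter.tendsto_atTop_mono (fun k => ?_)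
        (tendsto_pow_atTop_atTop_of_one_lt (by norm_num : (1 : ℕ) < 2))
      exact Nat.le_mul_of_pos_right _ (by omega)
    have h4 := le_of_tendsto h3 h2
    linarith
  rw [← hP, pow_one]
  have e1 : 1 / r * Real.log (∫ g, Real.exp (r * freeEnergy n β g) ∂(disorder n)) +
      8 * C₀ * (1 + Real.log n) * ((n : ℝ) ^ (1 / 3 : ℝ) * r ^ (-c)) =
      1 / r * (Lm β r n + 2 * C * (n : ℝ) ^ (1 / 3 : ℝ) * (4 + 4 * Real.log n)) := by
    have e2 : r ^ (-c) = 1 / r * r ^ (1 - c) := by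
      rw [sub_eq_add_neg, Real.rpow_add hr, Real.rpow_one]
      field_simp
    rw [e2, hCC]
    unfold Lm
    ring
  rw [e1]
  have h5 : W ≤ Lm β r n + 2 * C * (n : ℝ) ^ (1 / 3 : ℝ) * (4 + 4 * Real.log n) := by
    rw [hW]
    have : 2 * C * (n : ℝ) ^ (1 / 3 : ℝ) * (4 + Real.log n) ≤
        2 * C * (n : ℝ) ^ (1 / 3 : ℝ) * (4 + 4 * Real.log n) := by
      gcongr
      linarith
    linarith
  have h6 : n * P = 1 / r * (r * (n * P)) := by field_simp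
  rw [h6]
  exact mul_le_mul_of_nonneg_left (key.trans h5) (by positivity)

/-- the doubling inequality with the rate `(x n)^(1/3)` -/
theorem dblx (β : ℝ) : ∃ C, 0 ≤ C ∧ Dblx β (2 / 3) C := by
  obtain ⟨C, hC, h⟩ := dbl17' β
  refine ⟨C, hC, fun n hn x hx hx2 hxn => ?_⟩
  have h1 := h n hn x hx (by linarith) hxn
  have e : (1 : ℝ) - 2 / 3 = 1 / 3 := by norm_num
  rw [e]
  exact h1

/-- **The rate `n^(1/3) r^(-2/3)` of one exponential moment.** -/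
theorem tmh17 {β : ℝ} (hβ : 1 ≤ β) : TMh β (1 / 3) (2 / 3) 1 := by
  obtain ⟨C, hC, h⟩ := dblx β
  exact tmh_of_dblx hβ hC h

/-- **THE END ASSEMBLY, `θ = 2/17`**: the sharp moment law for `x ≥ n^(-2/17+)`, the mean with the
correction `n^(7/17+)`, the variance above `n^(4/17-)`. -/
theorem final17 : ∃ Λ : ℝ → ℝ, Tendsto Λ (𝓝[>] 1) (𝓝 (9 / 5120)) ∧ ∀ β : ℝ, 1 < β → 0 < Λ β ∧
      ∃ p κ₀ C : ℝ, 0 < κ₀ ∧ AllC β (2 / 17) (1 / 3) (2 / 3) 1 (Λ β) p κ₀ C := by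
  obtain ⟨Λ, hΛ, hΛβ⟩ := Sh.lim_Lam
  refine ⟨Λ, hΛ, fun β hβ => ?_⟩
  obtain ⟨hΛ0, hlimΛ⟩ := hΛβ β hβ
  have hT := tmh17 hβ.le
  exact ⟨hΛ0, all_c hβ (by norm_num) (by norm_num) (by norm_num) (by norm_num) (by norm_num) hT
    (hT.tm hβ.le (by norm_num) (by norm_num)) hΛ0 hlimΛ⟩

/-- **`Var F_n ≥ n^γ` for every `γ < 4/17`, `β > 1`.** -/
theorem var17 {β : ℝ} (hβ : 1 < β) (γ : ℝ) (hγ : γ < 4 / 17) : ∀ᶠ n : ℕ in atTop,
    (n : ℝ) ^ γ ≤ Var[freeEnergy n β; disorder n] ∧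
      ∃ t : ℝ, 0 ≤ t ∧ t < 1 ∧ (n : ℝ) ^ γ ≤ n * (1 - t) * crossOverlap n β t := by
  obtain ⟨Λ, -, h⟩ := final17
  obtain ⟨-, p, κ₀, C, -, h1⟩ := h β hβ
  exact h1.2.2.2.2.2.1 γ (by linarith)

/-- **small balls**: `P(|F_n - y| ≤ n^κ) ≤ n^(-κ)` for `κ < 1/17`. -/
theorem small17 {β : ℝ} (hβ : 1 < β) (κ : ℝ) (hκ0 : 0 ≤ κ) (hκ : κ < 1 / 17) :
    ∀ᶠ n : ℕ in atTop, ∀ y : ℝ,
      (disorder n).real {g | |freeEnergy n β g - y| ≤ (n : ℝ) ^ κ} ≤ (n : ℝ) ^ (-κ) := by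
  obtain ⟨Λ, -, h⟩ := final17
  obtain ⟨-, p, κ₀, C, -, h1⟩ := h β hβ
  exact h1.2.2.2.2.2.2 κ hκ0 (by linarith)

end Vale.Agent.P146.H329
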