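import Vale.Agent.P146.H350.Chi
import Vale.Agent.P146.H45.F2LY
import Vale.Agent.P146.H706G.F2Low
import Vale.Agent.P146.H941.F01
import Vale.Agent.P146.H508.DeepCS

/-!
Plan R2, row F2, [F2-CMP]: the nonlinear rest of (F1) in the form `Y` against the scalar weight
`tr (Y C²) / |C|²` times the nonlinear part of the row.
-/

open MeasureTheory ProbabilityTheory Finset

namespace Vale.Agent.P146.H329.F2C

open Vale.Agent.P157.Lv Vale.Agent.P146.H425 Vale.Agent.P146.H325 Vale.Agent.P146.H332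
  Vale.Agent.P146.H712 Vale.Agent.P146.R1 Vale.Agent.P146.R1C Vale.Agent.P146.H706
  Vale.Agent.P146.R1S Vale.Agent.P146.H191 Vale.Agent.P146.H350

set_option linter.unusedSectionVars false

section det

variable {n : ℕ} {Y M : Fin n → Fin n → ℝ}

/-- Young's inequality in the form `Y` -/
lemma bf_young (hs : ∀ i j, Y i j = Y j i)
    (hY : ∀ v : Fin n → ℝ, 0 ≤ ∑ i, ∑ j, Y i j * (v i * v j)) (f g : Fin n → ℝ) {η : ℝ}
    (hη : 0 < η) : bf Y (fun i => f i + g i) (fun i => f i + g i) ≤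
      (1 + η) * bf Y f f + (1 + 1 / η) * bf Y g g := by
  have h := hY fun i => η * f i - g i
  have hc : bf Y g f = bf Y f g := by
    unfold bf
    rw [Finset.sum_comm]
    exact Finset.sum_congr rfl fun i _ => Finset.sum_congr rfl fun j _ => by rw [hs j i]; ring
  have e : ∑ i, ∑ j, Y i j * ((η * f i - g i) * (η * f j - g j)) =
      η ^ 2 * bf Y f f - η * bf Y f g - η * bf Y g f + bf Y g g := by
    unfold bf
    simp only [Finset.mul_sum, ← Finset.sum_sub_distrib, ← Finset.sum_add_distrib]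
    exact Finset.sum_congr rfl fun i _ => Finset.sum_congr rfl fun l _ => by ring
  have e' : bf Y (fun i => f i + g i) (fun i => f i + g i) =
      bf Y f f + bf Y f g + bf Y g f + bf Y g g := by
    unfold bf
    simp only [← Finset.sum_add_distrib]
    exact Finset.sum_congr rfl fun i _ => Finset.sum_congr rfl fun l _ => by ring
  rw [e, hc] at h
  rw [e', hc]
  have h2 : 0 ≤ (η ^ 2 * bf Y f f - η * bf Y f g - η * bf Y f g + bf Y g g) / η :=
    div_nonneg h hη.le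
  have e3 : (η ^ 2 * bf Y f f - η * bf Y f g - η * bf Y f g + bf Y g g) / η =
      η * bf Y f f - 2 * bf Y f g + 1 / η * bf Y g g := by
    field_simp
    ring
  linarith

/-- `|Y^(1/2) M f|² ≤ tr (M Y M) |f|²` -/
lemma bf_mv_le (hs : ∀ i j, Y i j = Y j i)
    (hY : ∀ v : Fin n → ℝ, 0 ≤ ∑ i, ∑ j, Y i j * (v i * v j)) (f : Fin n → ℝ) :
    bf Y (H350.mv M f) (H350.mv M f) ≤ wb Y M M * ∑ i, f i ^ 2 := by
  obtain ⟨G, hG⟩ : ∃ G : Fin n → Fin n → ℝ, ∀ p q, G p q = ∑ i, ∑ j, Y i j * (M i p * M j q) :=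
    ⟨fun p q => ∑ i, ∑ j, Y i j * (M i p * M j q), fun _ _ => rfl⟩
  have hGs : ∀ p q, G q p = G p q := by
    intro p q
    rw [hG, hG, Finset.sum_comm]
    exact Finset.sum_congr rfl fun i _ => Finset.sum_congr rfl fun j _ => by rw [hs j i]; ring
  have e1 : bf Y (H350.mv M f) (H350.mv M f) = ∑ p, ∑ q, f p * f q * G p q := by
    unfold bf H350.mv
    have a0 : ∀ i l, Y i l * ((∑ j, M i j * f j) * ∑ j, M l j * f j) =
        ∑ p, ∑ q, Y i l * (M i p * f p * (M l q * f q)) := by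
      intro i l
      rw [Finset.sum_mul_sum, Finset.mul_sum]
      exact Finset.sum_congr rfl fun p _ => Finset.mul_sum _ _ _
    simp only [a0]
    calc ∑ i, ∑ l, ∑ p, ∑ q, Y i l * (M i p * f p * (M l q * f q))
        = ∑ i, ∑ p, ∑ l, ∑ q, Y i l * (M i p * f p * (M l q * f q)) :=
          Finset.sum_congr rfl fun i _ => Finset.sum_comm
      _ = ∑ p, ∑ i, ∑ l, ∑ q, Y i l * (M i p * f p * (M l q * f q)) := Finset.sum_comm
      _ = ∑ p, ∑ i, ∑ q, ∑ l, Y i l * (M i p * f p * (M l q * f q)) :=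
          Finset.sum_congr rfl fun p _ => Finset.sum_congr rfl fun i _ => Finset.sum_comm
      _ = ∑ p, ∑ q, ∑ i, ∑ l, Y i l * (M i p * f p * (M l q * f q)) :=
          Finset.sum_congr rfl fun p _ => Finset.sum_comm
      _ = _ := Finset.sum_congr rfl fun p _ => Finset.sum_congr rfl fun q _ => by
          rw [hG, Finset.mul_sum]
          refine Finset.sum_congr rfl fun i _ => ?_
          rw [Finset.mul_sum]
          exact Finset.sum_congr rfl fun l _ => by ring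
  have e2 : wb Y M M = ∑ p, G p p := by
    unfold wb
    exact Finset.sum_congr rfl fun p _ => (hG p p).symm
  have key : ∀ p q, 0 ≤ f q ^ 2 * G p p - f q * f p * G p q - f p * f q * G q p +
      f p ^ 2 * G q q := by
    intro p q
    have h := hY fun i => f q * M i p - f p * M i q
    refine h.trans (le_of_eq ?_)
    simp only [hG, Finset.mul_sum, ← Finset.sum_sub_distrib, ← Finset.sum_add_distrib]
    exact Finset.sum_congr rfl fun i _ => Finset.sum_congr rfl fun l _ => by ring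
  have h3 : 0 ≤ ∑ p, ∑ q, (f q ^ 2 * G p p - f q * f p * G p q - f p * f q * G q p +
      f p ^ 2 * G q q) := Finset.sum_nonneg fun p _ => Finset.sum_nonneg fun q _ => key p q
  have e3 : ∑ p, ∑ q, (f q ^ 2 * G p p - f q * f p * G p q - f p * f q * G q p +
      f p ^ 2 * G q q) = 2 * ((∑ p, G p p) * ∑ i, f i ^ 2) - 2 * ∑ p, ∑ q, f p * f q * G p q := by
    simp only [Finset.sum_add_distrib, Finset.sum_sub_distrib]
    have a1 : ∑ p, ∑ q, f q ^ 2 * G p p = (∑ p, G p p) * ∑ i, f i ^ 2 := by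
      rw [Finset.sum_mul_sum]
      exact Finset.sum_congr rfl fun p _ => Finset.sum_congr rfl fun q _ => by ring
    have a2 : ∑ p, ∑ q, f p ^ 2 * G q q = (∑ p, G p p) * ∑ i, f i ^ 2 := by
      rw [mul_comm, Finset.sum_mul_sum]
    have a3 : ∑ p, ∑ q, f q * f p * G p q = ∑ p, ∑ q, f p * f q * G p q :=
      Finset.sum_congr rfl fun p _ => Finset.sum_congr rfl fun q _ => by ring
    have a4 : ∑ p, ∑ q, f p * f q * G q p = ∑ p, ∑ q, f p * f q * G p q :=
      Finset.sum_congr rfl fun p _ => Finset.sum_congr rfl fun q _ => by rw [hGs]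
    rw [a1, a2, a3, a4]
    ring
  rw [e3] at h3
  rw [e1, e2]
  linarith

/-- the top part of a vector: `u = M / |M|` -/
noncomputable def up (M : Fin n → Fin n → ℝ) (f : Fin n → ℝ) (i : Fin n) : ℝ :=
  1 / mq M * H350.mv M f i

/-- the scalar weight `tr (Y M²) / |M|²` -/
noncomputable def om (Y M : Fin n → Fin n → ℝ) : ℝ := wq Y M / mq M ^ 2

lemma om_nonneg (hY : ∀ v : Fin n → ℝ, 0 ≤ ∑ i, ∑ j, Y i j * (v i * v j))
    (hM : ∀ i j, M i j = M j i) : 0 ≤ om Y M := div_nonneg (wq_nonneg hY hM) (sq_nonneg _)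

/-- **The form `Y` of a vector**: the top part costs the scalar weight. -/
theorem bf_split (hs : ∀ i j, Y i j = Y j i)
    (hY : ∀ v : Fin n → ℝ, 0 ≤ ∑ i, ∑ j, Y i j * (v i * v j)) (hM : ∀ i j, M i j = M j i)
    (f : Fin n → ℝ) {η : ℝ} (hη : 0 < η) :
    bf Y f f ≤ (1 + η) * (om Y M * ∑ i, f i ^ 2) +
      (1 + 1 / η) * bf Y (fun i => f i - up M f i) (fun i => f i - up M f i) := by
  have h1 := bf_young hs hY (up M f) (fun i => f i - up M f i) hη
  have e1 : (fun i => up M f i + (f i - up M f i)) = f := by funext i; ring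
  rw [e1] at h1
  have h2 : bf Y (up M f) (up M f) ≤ om Y M * ∑ i, f i ^ 2 := by
    have h3 := bf_mv_le (M := M) hs hY f
    have e2 : bf Y (up M f) (up M f) = 1 / mq M ^ 2 * bf Y (H350.mv M f) (H350.mv M f) := by
      unfold bf up
      simp only [Finset.mul_sum]
      refine Finset.sum_congr rfl fun i _ => Finset.sum_congr rfl fun l _ => ?_
      field_simp
    rw [e2]
    have h4 := mul_le_mul_of_nonneg_left h3 (show 0 ≤ 1 / mq M ^ 2 by positivity)
    refine h4.trans (le_of_eq ?_)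
    unfold om
    rw [wq_eq hM]
    ring
  have h5 := mul_le_mul_of_nonneg_left h2 (show 0 ≤ 1 + η by positivity)
  linarith

/-- Young's inequality for matrices in the form `Y` -/
lemma wb_young (hs : ∀ i j, Y i j = Y j i)
    (hY : ∀ v : Fin n → ℝ, 0 ≤ ∑ i, ∑ j, Y i j * (v i * v j)) (P Q : Fin n → Fin n → ℝ) {η : ℝ}
    (hη : 0 < η) : wb Y (fun i l => P i l + Q i l) (fun i l => P i l + Q i l) ≤
      (1 + η) * wb Y P P + (1 + 1 / η) * wb Y Q Q := by
  unfold wb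
  rw [Finset.mul_sum, Finset.mul_sum, ← Finset.sum_add_distrib]
  refine Finset.sum_le_sum fun l _ => ?_
  exact bf_young hs hY (fun i => P i l) (fun i => Q i l) hη

lemma wb_smul (c : ℝ) (P : Fin n → Fin n → ℝ) :
    wb Y (fun i l => c * P i l) (fun i l => c * P i l) = c ^ 2 * wb Y P P := by
  unfold wb
  simp only [Finset.mul_sum]
  exact Finset.sum_congr rfl fun l _ => Finset.sum_congr rfl fun i _ =>
    Finset.sum_congr rfl fun j _ => by ring

/-- **The touch of the scalar weight.** -/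
theorem om_le (hs : ∀ i j, Y i j = Y j i)
    (hY : ∀ v : Fin n → ℝ, 0 ≤ ∑ i, ∑ j, Y i j * (v i * v j)) {C : Fin n → Fin n → ℝ}
    (hM : ∀ i j, M i j = M j i) (hC : ∀ i j, C i j = C j i) {η : ℝ} (hη : 0 < η) :
    om Y M ≤ (1 + η) * om Y C + (1 + 1 / η) * (2 * (wq Y (fun i l => M i l - C i l) / mq C ^ 2) +
      2 * (om Y M * ((H191.fro fun i l => M i l - C i l) ^ 2 / mq C ^ 2))) := by
  have hD : ∀ i j, M i j - C i j = M j i - C j i := fun i j => by rw [hM i j, hC i j]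
  obtain ⟨m, hm⟩ : ∃ m, m = mq M := ⟨_, rfl⟩
  obtain ⟨c, hc⟩ : ∃ c, c = mq C := ⟨_, rfl⟩
  have m0 : 0 < m := hm ▸ mq_pos M
  have c0 : 0 < c := hc ▸ mq_pos C
  have hmc : (m - c) ^ 2 ≤ (H191.fro fun i l => M i l - C i l) ^ 2 := by
    rw [← sq_abs (m - c)]
    refine pow_le_pow_left₀ (abs_nonneg _) ?_ 2
    rw [hm, hc]
    exact mq_sub_abs C M
  have e1 : om Y M = wb Y (fun i l => 1 / m * M i l) (fun i l => 1 / m * M i l) := by
    rw [wb_smul, ← wq_eq hM]
    unfold om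
    rw [← hm]
    field_simp
  have e2 : om Y C = wb Y (fun i l => 1 / c * C i l) (fun i l => 1 / c * C i l) := by
    rw [wb_smul, ← wq_eq hC]
    unfold om
    rw [← hc]
    field_simp
  have h1 := wb_young hs hY (fun i l => 1 / c * C i l)
    (fun i l => 1 / c * (M i l - C i l) + (1 / m - 1 / c) * M i l) hη
  have e3 : (fun i l : Fin n => 1 / c * C i l + (1 / c * (M i l - C i l) +
      (1 / m - 1 / c) * M i l)) = fun i l => 1 / m * M i l := by
    funext i l
    ring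
  rw [e3, ← e1, ← e2] at h1
  have h2 := wb_young hs hY (fun i l => 1 / c * (M i l - C i l))
    (fun i l => (1 / m - 1 / c) * M i l) one_pos
  rw [wb_smul (1 / c) (fun i l => M i l - C i l), wb_smul, ← wq_eq hD, ← wq_eq hM] at h2
  have h3 : (1 / m - 1 / c) ^ 2 * wq Y M ≤
      om Y M * ((H191.fro fun i l => M i l - C i l) ^ 2 / c ^ 2) := by
    have e4 : (1 / m - 1 / c) ^ 2 * wq Y M = wq Y M / m ^ 2 * ((m - c) ^ 2 / c ^ 2) := by
      field_simp
      ring
    rw [e4]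
    unfold om
    rw [← hm]
    refine mul_le_mul_of_nonneg_left ?_ (div_nonneg (wq_nonneg hY hM) (sq_nonneg _))
    exact div_le_div_of_nonneg_right hmc (sq_nonneg _)
  have e5 : (1 / c) ^ 2 * wq Y (fun i l => M i l - C i l) =
      wq Y (fun i l => M i l - C i l) / c ^ 2 := by
    field_simp
  rw [e5] at h2
  have h4 : wb Y (fun i l => 1 / c * (M i l - C i l) + (1 / m - 1 / c) * M i l)
      (fun i l => 1 / c * (M i l - C i l) + (1 / m - 1 / c) * M i l) ≤
      2 * (wq Y (fun i l => M i l - C i l) / c ^ 2) +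
      2 * (om Y M * ((H191.fro fun i l => M i l - C i l) ^ 2 / c ^ 2)) := by
    have h6 : (1 : ℝ) + 1 / 1 = 2 := by norm_num
    have h7 : (1 : ℝ) + 1 = 2 := by norm_num
    rw [h6, h7] at h2
    linarith
  rw [← hc]
  have h5 := mul_le_mul_of_nonneg_left h4 (show 0 ≤ 1 + 1 / η by positivity)
  linarith

end det


/-! ### functions -/

section fn

variable {ι : Type} [Fintype ι] {n : ℕ}

lemma eg_imq {A : (ι → ℝ) → Fin n → Fin n → ℝ} (hA : ∀ i l, EG fun w => A w i l) :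
    EG fun w => 1 / mq (A w) ^ 2 := by
  refine EG.of_bdd (C := 1) (measurable_const.div ((meas_mq hA).pow_const 2)) fun w => ?_
  have h1 := one_le_mq (A w)
  have h2 : 1 ≤ mq (A w) ^ 2 := one_le_pow₀ h1
  rw [abs_of_nonneg (by positivity), div_le_one (by positivity)]
  exact h2

lemma eg_om {Y M : (ι → ℝ) → Fin n → Fin n → ℝ} (hY : ∀ i l, EG fun w => Y w i l)
    (hM : ∀ i l, EG fun w => M w i l) : EG fun w => om (Y w) (M w) := by
  have h := (eg_wq hY hM).mul (eg_imq hM)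
  have e : (fun w => om (Y w) (M w)) = fun w => wq (Y w) (M w) * (1 / mq (M w) ^ 2) := by
    funext w
    unfold om
    ring
  rw [e]
  exact h

lemma eg_up {M : (ι → ℝ) → Fin n → Fin n → ℝ} (hM : ∀ i l, EG fun w => M w i l)
    {f : Fin n → (ι → ℝ) → ℝ} (hf : ∀ i, EG (f i)) (i : Fin n) :
    EG fun w => up (M w) (fun j => f j w) i := by
  have h1 : EG fun w => 1 / mq (M w) := by
    refine EG.of_bdd (C := 1) (measurable_const.div (meas_mq hM)) fun w => ?_
    have h1 := one_le_mq (M w)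
    have h2 := mq_pos (M w)
    rw [abs_of_nonneg (by positivity), div_le_one h2]
    exact h1
  exact h1.mul (EG.sum _ fun j _ => (hM i j).mul (hf j))

lemma eg_bf {Y : (ι → ℝ) → Fin n → Fin n → ℝ} (hY : ∀ i l, EG fun w => Y w i l)
    {f g : Fin n → (ι → ℝ) → ℝ} (hf : ∀ i, EG (f i)) (hg : ∀ i, EG (g i)) :
    EG fun w => bf (Y w) (fun i => f i w) (fun i => g i w) :=
  EG.sum _ fun i _ => EG.sum _ fun l _ => (hY i l).mul ((hf i).mul (hg l))

end fn

section row

variable {n : ℕ} {k x β : ℝ} {S : CS n k x} {s : ℝ} {a : Fin 4 → ℝ}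
  {φ : (K4 (Pair n) → ℝ) → ℝ}

/-- the rest of the row without its top part -/
noncomputable def Npp (S : CS n k x) (s : ℝ) (a : Fin 4 → ℝ) (β : ℝ) (b : Fin n) (M : MF n)
    (w : K4 (Pair n) → ℝ) (i : Fin n) : ℝ :=
  Nv S s a β b M w i - up (M w) (Nv S s a β b M w) i

lemma eg_Nv' {M : MF n} {b : Fin n} (hM : ∀ i l, EG fun w => M w i l) (i : Fin n) :
    EG fun w => Nv S s a β b M w i :=
  (eg_lp a (eg_Uz S s b i)).sub ((eg_Ly (fun i l => by
    simpa [div_eq_mul_inv, mul_comm] using (hM i l).const_mul β⁻¹) i).const_mul _)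

lemma eg_Npp {M : MF n} {b : Fin n} (hM : ∀ i l, EG fun w => M w i l) (i : Fin n) :
    EG fun w => Npp S s a β b M w i :=
  (eg_Nv' hM i).sub (eg_up hM (f := fun i w => Nv S s a β b M w i) (fun j => eg_Nv' hM j) i)

/-- **[CMP], step 1**: the sum over the rows of the rests of (F1) in the form `Y`. -/
theorem cmp1 (h : EG φ) (h0 : ∀ w, 0 ≤ φ w) {Y M : Fin n → MF n} (hY : ∀ b, Frz b (Y b))
    (hM : ∀ b, Frz b (M b))
    (hYp : ∀ b w, ∀ v : Fin n → ℝ, 0 ≤ ∑ i, ∑ l, Y b w i l * (v i * v l)) {η : ℝ} (hη : 0 < η) :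
    ∑ b, Im φ (H941.nl k S s a b (Y b) (fun w i l => M b w i l / β)) ≤
      (1 + η) * ∑ b, Im φ (fun w => om (Y b w) (M b w) * ∑ i, Nv S s a β b (M b) w i ^ 2) +
      (1 + 1 / η) * ∑ b, Im φ (fun w => bf (Y b w) (Npp S s a β b (M b) w)
        (Npp S s a β b (M b) w)) := by
  rw [Finset.mul_sum, Finset.mul_sum, ← Finset.sum_add_distrib]
  refine Finset.sum_le_sum fun b _ => ?_
  have e1 := fun i => eg_Nv' (S := S) (s := s) (a := a) (β := β) (b := b) (hM b).eg i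
  have e2 : EG fun w => om (Y b w) (M b w) * ∑ i, Nv S s a β b (M b) w i ^ 2 :=
    (eg_om (hY b).eg (hM b).eg).mul (EG.sum _ fun i _ => (e1 i).pow 2)
  have e3 : EG fun w => bf (Y b w) (Npp S s a β b (M b) w) (Npp S s a β b (M b) w) :=
    eg_bf (hY b).eg (f := fun i w => Npp S s a β b (M b) w i)
      (g := fun i w => Npp S s a β b (M b) w i) (fun i => eg_Npp (hM b).eg i)
      (fun i => eg_Npp (hM b).eg i)
  rw [← Im_const_mul, ← Im_const_mul, ← Im_add h (e2.const_mul _) (e3.const_mul _)]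
  refine H191.Im_mono h0 h (H941.eg_nl (hY b).eg fun i l => ?_)
    ((e2.const_mul _).add (e3.const_mul _)) fun w => ?_
  · simpa [div_eq_mul_inv, mul_comm] using ((hM b).eg i l).const_mul β⁻¹
  · exact bf_split (hY b |>.sy w) (hYp b w) ((hM b).sy w) (Nv S s a β b (M b) w) hη

end row

/-! ### the law change -/

section lc

variable {n : ℕ} {k β : ℝ} {q : Par} {G : GD (Pair n)} {S : CS n k q.x}

/-- the weight of the law change -/
noncomputable def cw (Y M1 M2 : MF n) (w : K4 (Pair n) → ℝ) : ℝ :=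
  om (Y w) (M1 w) * (1 / mq (M2 w) ^ 2)

lemma fzn_cw {b : Fin n} {Y M1 M2 : MF n} (eY : ∀ i l, EG fun w => Y w i l)
    (e1 : ∀ i l, EG fun w => M1 w i l) (e2 : ∀ i l, EG fun w => M2 w i l) (iY : Ifz b Y)
    (i1 : Ifz b M1) (i2 : Ifz b M2)
    (hYp : ∀ w, ∀ v : Fin n → ℝ, 0 ≤ ∑ i, ∑ l, Y w i l * (v i * v l))
    (s1 : ∀ w i l, M1 w i l = M1 w l i) : Fzn b (cw Y M1 M2) M1 M2 where
  eχ := (eg_om eY e1).mul (eg_imq e2)
  iχ := fun z w => by
    unfold cw
    rw [H350.Ifz.eq iY, H350.Ifz.eq i1, H350.Ifz.eq i2]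
  χ0 w := mul_nonneg (om_nonneg (hYp w) (s1 w)) (by positivity)
  e1 := e1
  e2 := e2
  i1 := i1
  i2 := i2

/-- **[CMP], step 2**: from the true law to the row average. -/
theorem cmp2 (hβ : 0 < β) (hq : q.OkS) (hG : G.Ok) (hr : GRow k q G)
    (hl : 288 * q.x ^ 2 * k ^ 2 * n ≤ 1) (hs1 : 0 < q.s1) {Y M1 M2 : Fin n → MF n}
    (h : ∀ b, Fzn b (cw (Y b) (M1 b) (M2 b)) (M1 b) (M2 b))
    (h2 : ∀ b w, 1 ≤ H191.fro (M2 b w))
    {y K Mg ε : ℝ} (hy : 0 ≤ y) (hK0 : 0 ≤ K) (hMg0 : 0 ≤ Mg) (hε : 0 < ε)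
    (hK : ∀ b w, zz S β (M1 b) (M2 b) w ≤ K)
    (hMg : ∑ b, (lcA (lf (row b)) (psiG q G S.F) (cw (Y b) (M1 b) (M2 b))
        (fun w => gr1 q G (row b) w ^ 2) +
      lcA (lf (row b)) (psiG q G S.F) (cw (Y b) (M1 b) (M2 b))
        (fun w => gr0 q G (row b) w ^ 2)) ≤ 8 * q.x ^ 4 * k ^ 4 * Mg) :
    ∑ b, Im (densG q G S.F) (fun w => om (Y b w) (M1 b w) *
        ∑ i, Nv S q.s1 (k2 q) β b (M1 b) w i ^ 2) ≤
      ∑ b, Im (densG q G S.F) (fun w => om (Y b w) (M1 b w) *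
        Av (lf (row b)) (fun w => ∑ i, Nv S q.s1 (k2 q) β b (M1 b) w i ^ 2) w) +
      lcE S G β y K Mg ε (fun b => cw (Y b) (M1 b) (M2 b)) M1 M2 := by
  have m2 : ∀ b w, ∑ i, ∑ l, M2 b w i l ^ 2 = mq (M2 b w) ^ 2 := fun b w => by
    rw [mq_eq (h2 b w), fro_sq]
  have hp : ∀ b w, 0 < mq (M2 b w) ^ 2 := fun b w => pow_pos (mq_pos _) 2
  have ef : ∀ b, EG fun w => (∑ i, ∑ l, M2 b w i l ^ 2) *
      ∑ i, Nv S q.s1 (k2 q) β b (M1 b) w i ^ 2 := fun b =>
    (EG.sum _ fun i _ => EG.sum _ fun l _ => ((h b).e2 i l).pow 2).mul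
      (EG.sum _ fun i _ => (eg_Nv' (h b).e1 i).pow 2)
  have key := f2_lc_young hβ hq hG hr hl hs1 h (f := fun b w => (∑ i, ∑ l, M2 b w i l ^ 2) *
      ∑ i, Nv S q.s1 (k2 q) β b (M1 b) w i ^ 2) ef (fun b w => by
      have a1 : 0 ≤ ∑ i, ∑ l, M2 b w i l ^ 2 :=
        Finset.sum_nonneg fun _ _ => Finset.sum_nonneg fun _ _ => sq_nonneg _
      have a2 : 0 ≤ ∑ i, Nv S q.s1 (k2 q) β b (M1 b) w i ^ 2 :=
        Finset.sum_nonneg fun _ _ => sq_nonneg _
      have a3 : 0 ≤ ∑ i, ∑ l, M1 b w i l ^ 2 :=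
        Finset.sum_nonneg fun _ _ => Finset.sum_nonneg fun _ _ => sq_nonneg _
      have a4 : 0 ≤ ∑ i, Nv S q.s2 (k3 q) β b (M2 b) w i ^ 2 :=
        Finset.sum_nonneg fun _ _ => sq_nonneg _
      have a5 := mul_nonneg a1 a2
      have a6 := mul_nonneg a3 a4
      rw [abs_of_nonneg a5]
      unfold xr x2
      linarith) hy hK0 hMg0 hε hK hMg
  have e1 : ∀ b, Im (densG q G S.F) (fun w => cw (Y b) (M1 b) (M2 b) w *
      ((∑ i, ∑ l, M2 b w i l ^ 2) * ∑ i, Nv S q.s1 (k2 q) β b (M1 b) w i ^ 2)) =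
      Im (densG q G S.F) (fun w => om (Y b w) (M1 b w) *
        ∑ i, Nv S q.s1 (k2 q) β b (M1 b) w i ^ 2) := fun b => Im_congr fun w => by
    rw [m2 b w]
    unfold cw
    have := (mq_pos (M2 b w)).ne'
    field_simp
  have e2 : ∀ b, lcA (lf (row b)) (psiG q G S.F) (cw (Y b) (M1 b) (M2 b))
      (fun w => (∑ i, ∑ l, M2 b w i l ^ 2) * ∑ i, Nv S q.s1 (k2 q) β b (M1 b) w i ^ 2) =
      Im (densG q G S.F) (fun w => om (Y b w) (M1 b w) *
        Av (lf (row b)) (fun w => ∑ i, Nv S q.s1 (k2 q) β b (M1 b) w i ^ 2) w) := fun b => by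
    rw [lcA_eq (lf_row_SG S hq hG hr b) (h b).eχ (h b).iχ (ef b)]
    refine integral_congr_ae (Filter.Eventually.of_forall fun w => ?_)
    have hi : Ind (lf (row b)) fun w => ∑ i, ∑ l, M2 b w i l ^ 2 := fun z w => by
      show ∑ i, ∑ l, M2 b (sw (lf (row b)) z w) i l ^ 2 = ∑ i, ∑ l, M2 b z i l ^ 2
      rw [H350.Ifz.eq (h b).i2]
    have h3 := Av_mul hi (fun w => ∑ i, Nv S q.s1 (k2 q) β b (M1 b) w i ^ 2) w
    simp only
    rw [h3, m2 b w]
    show densG q G S.F w * _ = densG q G S.F w * _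
    unfold cw
    have := (mq_pos (M2 b w)).ne'
    field_simp
  have h4 : ∑ b, (Im (densG q G S.F) (fun w => cw (Y b) (M1 b) (M2 b) w *
      ((∑ i, ∑ l, M2 b w i l ^ 2) * ∑ i, Nv S q.s1 (k2 q) β b (M1 b) w i ^ 2)) -
      lcA (lf (row b)) (psiG q G S.F) (cw (Y b) (M1 b) (M2 b))
      (fun w => (∑ i, ∑ l, M2 b w i l ^ 2) * ∑ i, Nv S q.s1 (k2 q) β b (M1 b) w i ^ 2)) ≤
      lcE S G β y K Mg ε (fun b => cw (Y b) (M1 b) (M2 b)) M1 M2 :=
    (Finset.sum_le_sum fun b _ => le_abs_self _).trans key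
  simp only [e1, e2] at h4
  rw [Finset.sum_sub_distrib] at h4
  linarith

/-- the linear rest at the bulk, squared norm -/
noncomputable def Lam (S : CS n k q.x) (β : ℝ) (b : Fin n) (M : MF n)
    (w : K4 (Pair n) → ℝ) : ℝ :=
  ∑ i, ∑ j, (H45.MJ k (S.H q.s1) q.s1 b (P2 q w) -
    (k * √q.s1 / β) • Matrix.of (M w)) i j ^ 2

/-- the second moment of a residual field, one coordinate -/
lemma int_res_sq {ι : Type} [Fintype ι] [DecidableEq ι] {a : ι → (ι → ℝ) → ℝ}
    {H : ι → ι → (ι → ℝ) → ℝ} (ha : H329.GF a H) (L : Matrix ι ι ℝ) (i : ι) :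
    ∫ y, H45.res a L i y ^ 2 ∂(gI ι) = ∫ y, H329.nl a H i y ^ 2 ∂(gI ι) +
      ∑ j, (Matrix.of (H329.MH H) - L) i j ^ 2 := by
  obtain ⟨c, hc⟩ : ∃ c : ι → ℝ, ∀ j, c j = (Matrix.of (H329.MH H) - L) i j := ⟨_, fun _ => rfl⟩
  have e0 : ∀ y, H45.res a L i y ^ 2 = H329.nl a H i y ^ 2 +
      (∑ j, c j * (y j * ∑ l, c l * y l) + 2 * ∑ j, c j * (y j * H329.nl a H i y)) := by
    intro y
    rw [H45.res_nl (H := H) L i y]
    unfold H45.mw
    simp only [← hc]
    have a1 : ∑ j, c j * (y j * ∑ l, c l * y l) = (∑ j, c j * y j) * ∑ l, c l * y l := by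
      rw [Finset.sum_mul]
      exact Finset.sum_congr rfl fun j _ => by ring
    have a2 : ∑ j, c j * (y j * H329.nl a H i y) = (∑ j, c j * y j) * H329.nl a H i y := by
      rw [Finset.sum_mul]
      exact Finset.sum_congr rfl fun j _ => by ring
    rw [a1, a2]
    ring
  have g0 : EG fun y => H329.nl a H i y ^ 2 := (ha.eg_nl i).pow 2
  have g1 : ∀ j, EG fun y : ι → ℝ => y j * ∑ l, c l * y l := fun j =>
    (EG.coord j).mul (H329.eg_lin c)
  have g2 : ∀ j, EG fun y : ι → ℝ => y j * H329.nl a H i y := fun j =>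
    (EG.coord j).mul (ha.eg_nl i)
  have g3 : EG fun y : ι → ℝ => ∑ j, c j * (y j * ∑ l, c l * y l) :=
    EG.sum _ fun j _ => (g1 j).const_mul _
  have g4 : EG fun y : ι → ℝ => ∑ j, c j * (y j * H329.nl a H i y) :=
    EG.sum _ fun j _ => (g2 j).const_mul _
  simp only [e0]
  rw [integral_add g0.integrable (g3.add (g4.const_mul 2)).integrable,
    integral_add g3.integrable (g4.const_mul 2).integrable, integral_const_mul,
    integral_finsetSum _ fun j _ => ((g1 j).const_mul _).integrable,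
    integral_finsetSum _ fun j _ => ((g2 j).const_mul _).integrable]
  simp only [integral_const_mul, H329.int_z_lin, H329.stein_nl ha, mul_zero,
    Finset.sum_const_zero, add_zero]
  congr 1
  exact Finset.sum_congr rfl fun j _ => by rw [← hc]; ring

/-- **[CMP], step 3**: the row average at the bulk. -/
theorem cmp3 (S : CS n k q.x) (hq : q.OkS) (h1 : 0 < q.s1) (β : ℝ) {b : Fin n} {M : MF n}
    (i1 : Ifz b M) (c1 : ∀ w i, M w i b = 0) (w : K4 (Pair n) → ℝ) :
    Av (lf (row b)) (fun w => ∑ i, Nv S q.s1 (k2 q) β b M w i ^ 2) w =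
      H45.Na k (S.A q.s1) (S.H q.s1) q.s1 b (P2 q w) + Lam S β b M w := by
  obtain ⟨m, hm⟩ : ∃ m, m = M w := ⟨_, rfl⟩
  have e1 : Av (lf (row b)) (fun w => ∑ i, Nv S q.s1 (k2 q) β b M w i ^ 2) w =
      Av (lf (row b)) (fun w' => ∑ i, H45.nz S q.s1 β b m (P2 q w') i ^ 2) w := by
    unfold Av
    refine integral_congr_ae (Filter.Eventually.of_forall fun u => ?_)
    have j1 : M (sw (lf (row b)) w u) = m := by
      rw [hm]
      exact H350.Ifz.eq i1 w u
    have p1 : P2 q (sw (lf (row b)) w u) = H712.lp (k2 q) (sw (lf (row b)) w u) :=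
      p2_lp _ _ _ _
    simp only
    rw [H45.Nv_nz, j1, p1]
  have eg : EG fun w : Pair n ⊕ Pair n → ℝ =>
      ∑ i, H45.nz S q.s1 β b m (fun e => w (Sum.inl e)) i ^ 2 := by
    refine EG.sum _ fun i _ => EG.pow ?_ 2
    have := eg_prod (κ := Pair n) (H45.eg_nz S q.s1 β b m i) (EG.const 1)
    simpa using this
  have e2 := Av_lf_P23_row_s hq (Φ := fun z1 _ => ∑ i, H45.nz S q.s1 β b m z1 i ^ 2) eg b w
  rw [e1, e2]
  have g := H45.gf_a1 (rowIn_S S h1) q.s1 b (P2 q w)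
  have e3 : ∀ y : Fin n → ℝ, ∫ _y' : Fin n → ℝ,
      ∑ i, H45.nz S q.s1 β b m (put b (√q.s1 • y) (P2 q w)) i ^ 2 ∂(gI (Fin n)) =
      ∑ i, H45.res (H45.fa1 (S.A q.s1) q.s1 b (P2 q w)) ((k * √q.s1 / β) • Matrix.of m) i y ^ 2 := by
    intro y
    rw [integral_const, probReal_univ, one_smul]
    exact Finset.sum_congr rfl fun i _ => by
      rw [H45.nz_put S q.s1 β (fun i => by rw [hm]; exact c1 w i) (P2 q w) y i]
  simp only [e3]
  have er : ∀ i, EG fun y => H45.res (H45.fa1 (S.A q.s1) q.s1 b (P2 q w))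
      ((k * √q.s1 / β) • Matrix.of m) i y ^ 2 := fun i =>
    (H45.eg_res (fun i => g.eg i) _ i).pow 2
  rw [integral_finsetSum _ fun i _ => (er i).integrable]
  simp only [int_res_sq g]
  rw [Finset.sum_add_distrib]
  congr 1
  · unfold H45.Na
    rw [integral_finsetSum _ fun i _ => ((g.eg_nl i).pow 2).integrable]
  · unfold Lam H45.MJ
    rw [hm]

end lc

/-! ### the weight is unfrozen -/

section unf

variable {n : ℕ} {R : Finset (K4 (Pair n))} {φ : (K4 (Pair n) → ℝ) → ℝ}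

/-- the touch of the matrix in the weight -/
noncomputable def Xt (Y M C : Fin n → Fin n → ℝ) : ℝ :=
  2 * (wq Y (fun i l => M i l - C i l) / mq C ^ 2) +
    2 * (om Y M * ((H191.fro fun i l => M i l - C i l) ^ 2 / mq C ^ 2))

lemma eg_Xt {Y M C : MF n} (hY : ∀ i l, EG fun w => Y w i l)
    (hM : ∀ i l, EG fun w => M w i l) (hC : ∀ i l, EG fun w => C w i l) :
    EG fun w => Xt (Y w) (M w) (C w) := by
  have h1 : EG fun w => wq (Y w) (fun i l => M w i l - C w i l) * (1 / mq (C w) ^ 2) :=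
    (eg_wq hY (M := fun w i l => M w i l - C w i l) fun i l => (hM i l).sub (hC i l)).mul
      (eg_imq hC)
  have h2 : EG fun w => om (Y w) (M w) * ((H191.fro fun i l => M w i l - C w i l) ^ 2 *
      (1 / mq (C w) ^ 2)) :=
    (eg_om hY hM).mul (((eg_fro fun i l => (hM i l).sub (hC i l)).pow 2).mul (eg_imq hC))
  have e : (fun w => Xt (Y w) (M w) (C w)) = fun w =>
      2 * (wq (Y w) (fun i l => M w i l - C w i l) * (1 / mq (C w) ^ 2)) +
      2 * (om (Y w) (M w) * ((H191.fro fun i l => M w i l - C w i l) ^ 2 *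
        (1 / mq (C w) ^ 2))) := by
    funext w
    unfold Xt
    ring
  rw [e]
  exact (h1.const_mul 2).add (h2.const_mul 2)

/-- the number of the deep touch -/
noncomputable def dpn (R : Finset (K4 (Pair n))) (φ : (K4 (Pair n) → ℝ) → ℝ) (Y C : MF n)
    (Yb : Fin n → MF n) (P : Fin n → (K4 (Pair n) → ℝ) → ℝ) : ℝ :=
  √(∫ w, ∑ b, ∑ i, ∑ j, (Yb b w i j - Y w i j) ^ 2 ∂(gI (K4 (Pair n)))) *
    √(∫ w, φ w * ∑ b, (1 / mq (C w) ^ 2 * P b w) ^ 2 * ∑ i, ∑ j, (∑ l, C w i l * C w l j) *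
      Av R (fun w => φ w * ∑ l, C w i l * C w l j) w ∂(gI (K4 (Pair n))))

/-- **[CMP], step 4**: from the frozen weights to the weight `tr (Y C²) / |C|²`. -/
theorem cmp4 (h : EG φ) (h0 : ∀ w, 0 ≤ φ w) {Y C : MF n} {Yb Mb : Fin n → MF n}
    (hYe : ∀ i l, EG fun w => Y w i l) (hCe : ∀ i l, EG fun w => C w i l)
    (hCs : ∀ w i l, C w i l = C w l i) (hYb : ∀ b i l, EG fun w => Yb b w i l)
    (hYs : ∀ b w i l, Yb b w i l = Yb b w l i)
    (hYp : ∀ b w, ∀ v : Fin n → ℝ, 0 ≤ ∑ i, ∑ l, Yb b w i l * (v i * v l))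
    (hMe : ∀ b i l, EG fun w => Mb b w i l) (hMs : ∀ b w i l, Mb b w i l = Mb b w l i)
    (hi : ∀ b i l, Ind R fun w => Yb b w i l - Y w i l)
    {P : Fin n → (K4 (Pair n) → ℝ) → ℝ} (hP : ∀ b, EG (P b)) (hP0 : ∀ b w, 0 ≤ P b w) {η : ℝ}
    (hη : 0 < η) :
    ∑ b, Im φ (fun w => om (Yb b w) (Mb b w) * P b w) ≤
      (1 + η) * (Im φ (fun w => om (Y w) (C w) * ∑ b, P b w) + dpn R φ Y C Yb P) +
      (1 + 1 / η) * ∑ b, Im φ (fun w => Xt (Yb b w) (Mb b w) (C w) * P b w) := by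
  have g1 : ∀ b, EG fun w => om (Yb b w) (Mb b w) * P b w := fun b =>
    (eg_om (hYb b) (hMe b)).mul (hP b)
  have g2 : ∀ b, EG fun w => om (Yb b w) (C w) * P b w := fun b =>
    (eg_om (hYb b) hCe).mul (hP b)
  have g3 : ∀ b, EG fun w => Xt (Yb b w) (Mb b w) (C w) * P b w := fun b =>
    (eg_Xt (hYb b) (hMe b) hCe).mul (hP b)
  have g4 : ∀ b, EG fun w => om (Y w) (C w) * P b w := fun b => (eg_om hYe hCe).mul (hP b)
  have s1 : ∀ b, Im φ (fun w => om (Yb b w) (Mb b w) * P b w) ≤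
      (1 + η) * Im φ (fun w => om (Yb b w) (C w) * P b w) +
      (1 + 1 / η) * Im φ (fun w => Xt (Yb b w) (Mb b w) (C w) * P b w) := fun b => by
    rw [← Im_const_mul, ← Im_const_mul, ← Im_add h ((g2 b).const_mul _) ((g3 b).const_mul _)]
    refine H191.Im_mono h0 h (g1 b) (((g2 b).const_mul _).add ((g3 b).const_mul _)) fun w => ?_
    have h1 := om_le (hYs b w) (hYp b w) (hMs b w) (hCs w) hη
    have h2 := mul_le_mul_of_nonneg_right h1 (hP0 b w)
    unfold Xt
    linarith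
  have s2 := Finset.sum_le_sum fun b (_ : b ∈ (univ : Finset (Fin n))) => s1 b
  rw [Finset.sum_add_distrib, ← Finset.mul_sum, ← Finset.mul_sum] at s2
  have s3 : ∑ b, Im φ (fun w => om (Yb b w) (C w) * P b w) ≤
      Im φ (fun w => om (Y w) (C w) * ∑ b, P b w) + dpn R φ Y C Yb P := by
    have e0 : Im φ (fun w => om (Y w) (C w) * ∑ b, P b w) =
        ∑ b, Im φ (fun w => om (Y w) (C w) * P b w) := by
      rw [← Im_sum h univ fun b _ => g4 b]
      exact Im_congr fun w => Finset.mul_sum _ _ _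
    have key := (abs_le.1 (H508.Deep.deep_sq (R := R) (φ := φ) (C := C)
      (D := fun b w i j => Yb b w i j - Y w i j) (g := fun b w => 1 / mq (C w) ^ 2 * P b w) h h0
      hCe hCs (fun b => (eg_imq hCe).mul (hP b)) (fun b i l => (hYb b i l).sub (hYe i l)) hi)).2
    have e1 : ∫ w, φ w * ∑ b, (∑ i, ∑ j, (Yb b w i j - Y w i j) * ∑ l, C w i l * C w l j) *
        (1 / mq (C w) ^ 2 * P b w) ∂(gI (K4 (Pair n))) =
        ∑ b, Im φ (fun w => om (Yb b w) (C w) * P b w) -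
          ∑ b, Im φ (fun w => om (Y w) (C w) * P b w) := by
      rw [← Finset.sum_sub_distrib]
      have e2 : ∀ b, Im φ (fun w => om (Yb b w) (C w) * P b w) -
          Im φ (fun w => om (Y w) (C w) * P b w) =
          Im φ (fun w => om (Yb b w) (C w) * P b w - om (Y w) (C w) * P b w) := fun b =>
        (Im_sub h (g2 b) (g4 b)).symm
      simp only [e2]
      rw [← Im_sum h univ fun b _ => (g2 b).sub (g4 b)]
      refine Im_congr fun w => Finset.sum_congr rfl fun b _ => ?_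
      have e3 : ∑ i, ∑ j, (Yb b w i j - Y w i j) * ∑ l, C w i l * C w l j =
          wq (Yb b w) (C w) - wq (Y w) (C w) := by
        unfold wq
        simp only [← Finset.sum_sub_distrib]
        exact Finset.sum_congr rfl fun i _ => Finset.sum_congr rfl fun j _ => by ring
      rw [e3]
      unfold om
      ring
    rw [e1] at key
    rw [e0]
    unfold dpn
    linarith
  have s4 := mul_le_mul_of_nonneg_left s3 (show 0 ≤ 1 + η by positivity)
  linarith

end unf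

end Vale.Agent.P146.H329.F2C
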