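import Vale.Agent.P146.H329.F2Top
import Vale.Agent.P146.H420.F2Law
import Vale.Agent.P146.H693.RowY
import Vale.Agent.P146.H941.Row01

/-!
Plan R2, row F2, [F2-TOP]: the field `2 NL ≤ 47/25 v R` of the row K at the late time `q.s1`.
-/

open MeasureTheory ProbabilityTheory Finset

namespace Vale.Agent.P146.H329.F2C

open Vale.Agent.P157.Lv Vale.Agent.P146.H425 Vale.Agent.P146.H325 Vale.Agent.P146.H332
  Vale.Agent.P146.H712 Vale.Agent.P146.R1 Vale.Agent.P146.R1C Vale.Agent.P146.H706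
  Vale.Agent.P146.R1S Vale.Agent.P146.H191 Vale.Agent.P146.H350
open Vale.Agent.P146.H364 (Cb eg_Cb ind_Cb Cb_comm frz_Cb Cb_col)
open Vale.Agent.P146.H693 (Tm Yd Yb)
open Vale.Agent.P146.H420 (fst)

set_option linter.unusedSectionVars false

/-- the arithmetic of the row -/
theorem top_alg {NL I dp X L lc P E c c1 : ℝ}
    (h1 : NL ≤ (1 + 1 / 10) * ((1 + 1 / 10) * (I + dp) + (1 + 1 / (1 / 10)) * X + L + lc) +
      (1 + 1 / (1 / 10)) * P)
    (h2 : 2 * I ≤ (21 / 20 + 1 / 10 ^ 5) * c1 + E) (h3 : c1 ≤ 11 / 10 * c) (hc : 0 ≤ c)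
    (hd : dp ≤ c / 100) (hX : X ≤ c / 1000) (hL : L ≤ c / 100) (hl : lc ≤ c / 100)
    (hP : P ≤ c / 1000) (hE : E ≤ c / 10) : 2 * ((1 + 1 / 20) * NL) ≤ 47 / 25 * c := by
  norm_num at h1 h2 ⊢
  linarith

variable {n : ℕ} {k β : ℝ} {q : Par}

/-- **the nonlinear number of the row (F1) at the late time `q.s2`**, frozen weight `Y_b`, frozen
response `C_b / β` -/
noncomputable def NLr (S : CS n k q.x) (β y h : ℝ) : ℝ :=
  ∑ b, EwG q (GTwo q y h S.F S.D) S.F (H941.nl k S q.s2 (k3 q) b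
    (fun w i l => Yb S y h b (P0 q w) i l) (fun w i l => Cb S q.s2 (k3 q) b w i l / β))

/-- the number of the row at the law `fst q s'` is the number at the first time of `q` -/
theorem NLr_fst (S : CS n k q.x) (hq : q.OkS) {y h s' : ℝ} (hG : (GTwo q y h S.F S.D).Ok)
    (h0 : q.t1 ≤ s') (h1 : s' ≤ q.s1) (hT : Tm (fst q s') y h) :
    NLr (q := fst q s') S β y h =
      ∑ b, Im (densG q (GTwo q y h S.F S.D) S.F) (H941.nl k S q.s1 (k2 q) b
        (fun w i l => Yb (q := fst q s') S y h b (P0 q w) i l)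
        (fun w i l => Cb S q.s1 (k2 q) b w i l / β)) := by
  refine Finset.sum_congr rfl fun b _ => ?_
  exact (H420.nl_fst (S := S) (s := q.s1) hq hG h0 h1
    (Y := fun z i l => Yb (q := fst q s') S y h b z i l)
    (fun i l => H693.eg_Yb hT b i l) β b).symm

/-- the output weight of the row at the late time `q.s1`, as a function on `K4` -/
noncomputable def Yw (S : CS n k q.x) (s' y h : ℝ) : MF n := fun w i l =>
  Yd (q := fst q s') S y h (P0 q w) i l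

/-- its mean over the row `b` of the deep position -/
noncomputable def Ybw (S : CS n k q.x) (s' y h : ℝ) (b : Fin n) : MF n := fun w i l =>
  Yb (q := fst q s') S y h b (P0 q w) i l

lemma frz_Ybw {S : CS n k q.x} {s' y h : ℝ} (hT : Tm (fst q s') y h) (b : Fin n) :
    Frz b (Ybw S s' y h b) := H693.frz_Yb (q := fst q s') hT b

lemma psd_Ybw {S : CS n k q.x} {s' y h : ℝ} (hT : Tm (fst q s') y h) (b : Fin n)
    (w : K4 (Pair n) → ℝ) (v : Fin n → ℝ) :
    0 ≤ ∑ i, ∑ l, Ybw S s' y h b w i l * (v i * v l) := by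
  refine ((H693.Yb_psd (q := fst q s') (S := S) hT b (P0 q w)).2 v).trans (le_of_eq ?_)
  exact Finset.sum_congr rfl fun i _ => Finset.sum_congr rfl fun j _ => by
    show _ = Yb (q := fst q s') S y h b (P0 q w) i j * _
    ring

lemma eg_Yw {S : CS n k q.x} {s' y h : ℝ} (hT : Tm (fst q s') y h) (i l : Fin n) :
    EG fun w => Yw S s' y h w i l :=
  eg_P0 (H693.eg_Yd (q := fst q s') hT i l)

/-- **The field of the row K** from the size line of the two-time row and the error numbers. -/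
theorem f2_row (S : CS n k q.x) (hβ : 0 < β) (hq : q.OkS) {y h s' : ℝ}
    (hG : (GTwo q y h S.F S.D).Ok) (hr : GRow k q (GTwo q y h S.F S.D))
    (hl : 288 * q.x ^ 2 * k ^ 2 * n ≤ 1) (hs1 : 0 < q.s1) (hn : 2 ≤ n)
    (h0 : q.t1 ≤ s') (h1 : s' ≤ q.s1) (hT : Tm (fst q s') y h)
    (iYb : ∀ b, Ifz b (Ybw S s' y h b))
    {R : Finset (K4 (Pair n))}
    (hi : ∀ b i l, Ind R fun w => Ybw S s' y h b w i l - Yw S s' y h w i l)
    {y1 Mg ε : ℝ} (hy : 0 ≤ y1) (hMg0 : 0 ≤ Mg) (hε : 0 < ε)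
    (hMg : ∑ b, (lcA (lf (row b)) (psiG q (GTwo q y h S.F S.D) S.F)
        (cw (Ybw S s' y h b) (Cb S q.s1 (k2 q) b) (Cb S q.s2 (k3 q) b))
        (fun w => gr1 q (GTwo q y h S.F S.D) (row b) w ^ 2) + lcA (lf (row b))
        (psiG q (GTwo q y h S.F S.D) S.F)
        (cw (Ybw S s' y h b) (Cb S q.s1 (k2 q) b) (Cb S q.s2 (k3 q) b))
        (fun w => gr0 q (GTwo q y h S.F S.D) (row b) w ^ 2)) ≤ 8 * q.x ^ 4 * k ^ 4 * Mg)
    {c c1 E : ℝ} (hc : 0 ≤ c)
    -- the size line of the two-time row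
    (hF2 : 2 * Im (densG q (GTwo q y h S.F S.D) S.F)
        (fun w => wq (Yw S s' y h w) (CA S w) * Nn S w) ≤ (21 / 20 + 1 / 10 ^ 5) * c1 + E)
    (hgr : c1 ≤ 11 / 10 * c) (hE : E ≤ c / 10)
    -- the numbers
    (hd : dpn R (densG q (GTwo q y h S.F S.D) S.F) (Yw S s' y h) (CA S) (Ybw S s' y h) (Pn S) ≤
      c / 100)
    (hX : ∑ b, Im (densG q (GTwo q y h S.F S.D) S.F) (fun w =>
      Xt (Ybw S s' y h b w) (Cb S q.s1 (k2 q) b w) (CA S w) * Pn S b w) ≤ c / 1000)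
    (hL : ∑ b, Im (densG q (GTwo q y h S.F S.D) S.F) (fun w =>
      om (Ybw S s' y h b w) (Cb S q.s1 (k2 q) b w) * Lam S β b (Cb S q.s1 (k2 q) b) w) ≤ c / 100)
    (hlc : lcb S (GTwo q y h S.F S.D) β y1 Mg ε
      (fun b => cw (Ybw S s' y h b) (Cb S q.s1 (k2 q) b) (Cb S q.s2 (k3 q) b)) ≤ c / 100)
    (hP : ∑ b, Im (densG q (GTwo q y h S.F S.D) S.F) (fun w => bf (Ybw S s' y h b w)
        (Npp S q.s1 (k2 q) β b (Cb S q.s1 (k2 q) b) w)
        (Npp S q.s1 (k2 q) β b (Cb S q.s1 (k2 q) b) w)) ≤ c / 1000) :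
    2 * ((1 + 1 / 20) * NLr (q := fst q s') S β y h) ≤ 47 / 25 * c := by
  have key := f2_cmp S hβ hq hG hr hl hs1 hn (eg_Yw hT) (fun b => frz_Ybw hT b) iYb
    (fun b w v => psd_Ybw hT b w v) hi hy hMg0 hε hMg (η := 1 / 10) (by norm_num)
  rw [NLr_fst S hq hG h0 h1 hT]
  exact top_alg key hF2 hgr hc hd hX hL hlc hP hE

end Vale.Agent.P146.H329.F2C
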