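import Vale.Agent.P146.H329.F2Cmp
import Vale.Agent.P146.H706G.F2HLs

/-!
Plan R2, row F2, [F2-TOP]: the field `2 NL ≤ 47/25 v R + ..` of the row K from the size line of
the two-time row and the error numbers.
-/

open MeasureTheory ProbabilityTheory Finset

namespace Vale.Agent.P146.H329.F2C

open Vale.Agent.P157.Lv Vale.Agent.P146.H425 Vale.Agent.P146.H325 Vale.Agent.P146.H332
  Vale.Agent.P146.H712 Vale.Agent.P146.R1 Vale.Agent.P146.R1C Vale.Agent.P146.H706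
  Vale.Agent.P146.R1S Vale.Agent.P146.H191 Vale.Agent.P146.H350
open Vale.Agent.P146.H364 (Cb eg_Cb ind_Cb Cb_comm frz_Cb Cb_col)

set_option linter.unusedSectionVars false

variable {n : ℕ} {k β : ℝ} {q : Par} {G : GD (Pair n)}

/-- the matrix `C1` -/
noncomputable def CA (S : CS n k q.x) : MF n := fun w i j => S.A q.s1 (H712.lp (k2 q) w) i j

/-- the nonlinear number of the row `b` at the bulk -/
noncomputable def Pn (S : CS n k q.x) (b : Fin n) (w : K4 (Pair n) → ℝ) : ℝ :=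
  H45.Na k (S.A q.s1) (S.H q.s1) q.s1 b (P2 q w)

/-- the number `N = Σ Na / |C1|²` -/
noncomputable def Nn (S : CS n k q.x) (w : K4 (Pair n) → ℝ) : ℝ :=
  (∑ b, Pn S b w) / fr (S.A q.s1 (H712.lp (k2 q) w))

lemma eg_CA (S : CS n k q.x) (i j : Fin n) : EG fun w => CA S w i j := eg_lp _ (S.eg_A q.s1 i j)

lemma CA_comm (S : CS n k q.x) (w : K4 (Pair n) → ℝ) (i j : Fin n) : CA S w i j = CA S w j i :=
  S.A_comm q.s1 _ i j

lemma eg_Pn (S : CS n k q.x) (h1 : 0 < q.s1) (b : Fin n) : EG (Pn S b) :=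
  eg_P2 (eg_Na S h1 b)

lemma Pn_nonneg (S : CS n k q.x) (b : Fin n) (w : K4 (Pair n) → ℝ) : 0 ≤ Pn S b w :=
  H45.Na_nonneg _ _ _

lemma fro_CA (S : CS n k q.x) (w : K4 (Pair n) → ℝ) :
    H191.fro (CA S w) ^ 2 = fr (S.A q.s1 (H712.lp (k2 q) w)) := fro_sq _

lemma one_le_CA (S : CS n k q.x) (hn : 0 < n) (w : K4 (Pair n) → ℝ) :
    1 ≤ H191.fro (CA S w) := one_le_fro hn fun i => S.A_self q.s1 _ i

lemma one_le_Cb (S : CS n k q.x) (hn : 2 ≤ n) (s : ℝ) (a : Fin 4 → ℝ) (b : Fin n)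
    (w : K4 (Pair n) → ℝ) : 1 ≤ H191.fro (Cb S s a b w) := by
  have h := fr_Cb_ge S s a hn b w
  have h2 : H191.fro (Cb S s a b w) ^ 2 = fr (Matrix.of (Cb S s a b w)) := fro_sq _
  have h3 := H191.fro_nonneg (Cb S s a b w)
  nlinarith

/-- `om (Y, C1) Σ P = W N` -/
lemma om_CA (S : CS n k q.x) (hn : 0 < n) (Y : Fin n → Fin n → ℝ) (w : K4 (Pair n) → ℝ) :
    om Y (CA S w) * ∑ b, Pn S b w = wq Y (CA S w) * Nn S w := by
  unfold om Nn
  rw [mq_eq (one_le_CA S hn w), fro_CA]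
  ring

/-- **[F2-CMP]**: the nonlinear rests of (F1) at the time `s1` in the form `Y`. -/
theorem f2_cmp (S : CS n k q.x) (hβ : 0 < β) (hq : q.OkS) (hG : G.Ok) (hr : GRow k q G)
    (hl : 288 * q.x ^ 2 * k ^ 2 * n ≤ 1) (hs1 : 0 < q.s1) (hn : 2 ≤ n) {Y : MF n}
    {Yb : Fin n → MF n} (hYe : ∀ i l, EG fun w => Y w i l) (hYb : ∀ b, Frz b (Yb b))
    (iYb : ∀ b, Ifz b (Yb b))
    (hYp : ∀ b w, ∀ v : Fin n → ℝ, 0 ≤ ∑ i, ∑ l, Yb b w i l * (v i * v l))
    {R : Finset (K4 (Pair n))} (hi : ∀ b i l, Ind R fun w => Yb b w i l - Y w i l)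
    {y Mg ε : ℝ} (hy : 0 ≤ y) (hMg0 : 0 ≤ Mg) (hε : 0 < ε)
    (hMg : ∑ b, (lcA (lf (row b)) (psiG q G S.F)
        (cw (Yb b) (Cb S q.s1 (k2 q) b) (Cb S q.s2 (k3 q) b))
        (fun w => gr1 q G (row b) w ^ 2) + lcA (lf (row b)) (psiG q G S.F)
        (cw (Yb b) (Cb S q.s1 (k2 q) b) (Cb S q.s2 (k3 q) b))
        (fun w => gr0 q G (row b) w ^ 2)) ≤ 8 * q.x ^ 4 * k ^ 4 * Mg) {η : ℝ} (hη : 0 < η) :
    ∑ b, Im (densG q G S.F) (H941.nl k S q.s1 (k2 q) b (Yb b)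
        (fun w i l => Cb S q.s1 (k2 q) b w i l / β)) ≤
      (1 + η) * ((1 + η) * (Im (densG q G S.F) (fun w => wq (Y w) (CA S w) * Nn S w) +
          dpn R (densG q G S.F) Y (CA S) Yb (Pn S)) +
        (1 + 1 / η) * ∑ b, Im (densG q G S.F) (fun w =>
          Xt (Yb b w) (Cb S q.s1 (k2 q) b w) (CA S w) * Pn S b w) +
        ∑ b, Im (densG q G S.F) (fun w => om (Yb b w) (Cb S q.s1 (k2 q) b w) *
          Lam S β b (Cb S q.s1 (k2 q) b) w) +
        lcb S G β y Mg ε (fun b => cw (Yb b) (Cb S q.s1 (k2 q) b) (Cb S q.s2 (k3 q) b))) +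
      (1 + 1 / η) * ∑ b, Im (densG q G S.F) (fun w => bf (Yb b w)
        (Npp S q.s1 (k2 q) β b (Cb S q.s1 (k2 q) b) w)
        (Npp S q.s1 (k2 q) β b (Cb S q.s1 (k2 q) b) w)) := by
  have h : EG (densG q G S.F) := eg_densG S.c11 hq.x0 hG
  have h0 : ∀ w, 0 ≤ densG q G S.F w := fun w => (densG_pos w).le
  have hz : ∀ b, Fzn b (cw (Yb b) (Cb S q.s1 (k2 q) b) (Cb S q.s2 (k3 q) b))
      (Cb S q.s1 (k2 q) b) (Cb S q.s2 (k3 q) b) := fun b =>
    fzn_cw (hYb b).eg (fun i l => eg_Cb i l) (fun i l => eg_Cb i l) (iYb b)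
      (fun i l => ind_Cb i l) (fun i l => ind_Cb i l) (hYp b) fun w i l => Cb_comm w i l
  have c1 := cmp1 (S := S) (s := q.s1) (a := k2 q) (β := β) h h0 hYb
    (M := fun b => Cb S q.s1 (k2 q) b) (fun b => frz_Cb) hYp hη
  have c2 := cmp2 (S := S) (Y := Yb) (M1 := fun b => Cb S q.s1 (k2 q) b)
    (M2 := fun b => Cb S q.s2 (k3 q) b) hβ hq hG hr hl hs1 hz
    (fun b w => one_le_Cb S hn _ _ b w) hy (K := zK n k β) (by unfold zK; positivity) hMg0 hε
    (fun b w => zz_Cb_le b w) hMg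
  have c3 : ∀ b, Im (densG q G S.F) (fun w => om (Yb b w) (Cb S q.s1 (k2 q) b w) *
        Av (lf (row b)) (fun w => ∑ i, Nv S q.s1 (k2 q) β b (Cb S q.s1 (k2 q) b) w i ^ 2) w) =
      Im (densG q G S.F) (fun w => om (Yb b w) (Cb S q.s1 (k2 q) b w) * Pn S b w) +
      Im (densG q G S.F) (fun w => om (Yb b w) (Cb S q.s1 (k2 q) b w) *
          Lam S β b (Cb S q.s1 (k2 q) b) w) := by
    intro b
    have eo : EG fun w => om (Yb b w) (Cb S q.s1 (k2 q) b w) :=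
      eg_om (hYb b).eg fun i l => eg_Cb i l
    have eP := eg_Pn S hs1 b
    have eA : EG (Av (lf (row b)) (fun w => ∑ i, Nv S q.s1 (k2 q) β b
        (Cb S q.s1 (k2 q) b) w i ^ 2)) :=
      eg_Av _ (EG.sum _ fun i _ => (eg_Nv' (fun i l => eg_Cb i l) i).pow 2)
    have eL : EG fun w => Lam S β b (Cb S q.s1 (k2 q) b) w := by
      have e : (fun w => Lam S β b (Cb S q.s1 (k2 q) b) w) = fun w =>
          Av (lf (row b)) (fun w => ∑ i, Nv S q.s1 (k2 q) β b (Cb S q.s1 (k2 q) b) w i ^ 2) w -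
            Pn S b w := by
        funext w
        rw [cmp3 S hq hs1 β (fun i l => ind_Cb i l) (fun w i => Cb_col w i) w]
        unfold Pn
        ring
      rw [e]
      exact eA.sub eP
    rw [← Im_add h (eo.mul eP) (eo.mul eL)]
    refine Im_congr fun w => ?_
    rw [cmp3 S hq hs1 β (fun i l => ind_Cb i l) (fun w i => Cb_col w i) w]
    unfold Pn
    ring
  simp only [c3, Finset.sum_add_distrib] at c2
  have c4 := cmp4 (R := R) (φ := densG q G S.F) (Y := Y) (C := CA S) (Yb := Yb)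
    (Mb := fun b => Cb S q.s1 (k2 q) b) h h0 hYe (eg_CA S) (fun w i l => CA_comm S w i l)
    (fun b => (hYb b).eg) (fun b => (hYb b).sy) hYp (fun b i l => eg_Cb i l)
    (fun b w i l => Cb_comm w i l) hi (fun b => eg_Pn S hs1 b) (fun b w => Pn_nonneg S b w) hη
  have e5 : Im (densG q G S.F) (fun w => om (Y w) (CA S w) * ∑ b, Pn S b w) =
      Im (densG q G S.F) (fun w => wq (Y w) (CA S w) * Nn S w) :=
    Im_congr fun w => om_CA S (by omega) (Y w) w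
  rw [e5] at c4
  have c5 := mul_le_mul_of_nonneg_left (c2.trans (add_le_add_left (add_le_add_left c4 _) _))
    (show 0 ≤ 1 + η by positivity)
  unfold lcb
  refine c1.trans ?_
  linarith

end Vale.Agent.P146.H329.F2C
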