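import Vale.Agent.P146.Bdl.B2

/-!
The one-dimensional transform `G(t) = e^{t²/2} ∫_t^∞ A(s) e^{-s²/2} ds` of an odd function `A`:
`t G - G' = A`.
-/

open MeasureTheory ProbabilityTheory Filter Topology

namespace Vale.Agent.P146.H329

open Vale.Agent.P157.Lv

/-- Continuous odd functions of exponential growth. -/
structure OE (A : ℝ → ℝ) : Prop where
  cont : Continuous A
  odd : ∀ t, A (-t) = -A t
  bdd : ∃ C a : ℝ, 0 ≤ C ∧ 0 ≤ a ∧ ∀ t, |A t| ≤ C * Real.exp (a * |t|)

lemma cce_of {f : ℝ → ℝ} (hc : Continuous f)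
    (h : ∃ C a : ℝ, 0 ≤ C ∧ 0 ≤ a ∧ ∀ t, |f t| ≤ C * Real.exp (a * |t|)) : CcE f := by
  obtain ⟨C, a, hC, ha, hb⟩ := h
  exact CcE.of_bdd hc.measurable hC ha hb

lemma int_wt {f : ℝ → ℝ} (hf : CcE f) : Integrable fun s => f s * Real.exp (-(s ^ 2 / 2)) := by
  have h := (integrable_gaussianReal_iff f).1 hf.integrable
  have h2 := h.const_mul (Real.sqrt (2 * Real.pi * ((1 : NNReal) : ℝ)))
  refine h2.congr (Filter.Eventually.of_forall fun x => ?_)
  have hs : Real.sqrt (2 * Real.pi * ((1 : NNReal) : ℝ)) ≠ 0 := by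
    have : 0 < 2 * Real.pi * ((1 : NNReal) : ℝ) := by
      have := Real.pi_pos
      simp only [NNReal.coe_one]
      positivity
    exact (Real.sqrt_pos.2 this).ne'
  simp only [gaussianPDFReal_def, sub_zero, NNReal.coe_one, mul_one] at hs ⊢
  field_simp

/-- The transform. -/
noncomputable def Gt (A : ℝ → ℝ) (t : ℝ) : ℝ :=
  Real.exp (t ^ 2 / 2) * ∫ s in Set.Ioi t, A s * Real.exp (-(s ^ 2 / 2))

variable {A : ℝ → ℝ}

lemma Gt_deriv (hA : OE A) (t : ℝ) : HasDerivAt (Gt A) (t * Gt A t - A t) t := by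
  have hi := int_wt (cce_of hA.cont hA.bdd)
  have hcont : Continuous fun s => A s * Real.exp (-(s ^ 2 / 2)) := by
    have := hA.cont
    fun_prop
  have e1 : ∀ u : ℝ, ∫ s in Set.Ioi u, A s * Real.exp (-(s ^ 2 / 2)) =
      (∫ s in Set.Ioi (0 : ℝ), A s * Real.exp (-(s ^ 2 / 2))) -
        ∫ s in (0 : ℝ)..u, A s * Real.exp (-(s ^ 2 / 2)) := by
    intro u
    have := intervalIntegral.integral_interval_add_Ioi (a := (0 : ℝ)) (b := u)
      (f := fun s => A s * Real.exp (-(s ^ 2 / 2))) (μ := volume) hi.integrableOn hi.integrableOn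
    linarith
  have h1 : HasDerivAt (fun u : ℝ => ∫ s in Set.Ioi u, A s * Real.exp (-(s ^ 2 / 2)))
      (-(A t * Real.exp (-(t ^ 2 / 2)))) t := by
    have h2 : HasDerivAt (fun u : ℝ => ∫ s in (0 : ℝ)..u, A s * Real.exp (-(s ^ 2 / 2)))
        (A t * Real.exp (-(t ^ 2 / 2))) t :=
      intervalIntegral.integral_hasDerivAt_right hi.intervalIntegrable
        (hcont.stronglyMeasurableAtFilter _ _) hcont.continuousAt
    have h3 := h2.const_sub (∫ s in Set.Ioi (0 : ℝ), A s * Real.exp (-(s ^ 2 / 2)))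
    exact h3.congr_of_eventuallyEq (Filter.Eventually.of_forall e1)
  have h4 : HasDerivAt (fun u : ℝ => Real.exp (u ^ 2 / 2)) (Real.exp (t ^ 2 / 2) * t) t := by
    have h5 : HasDerivAt (fun u : ℝ => u ^ 2 / 2) t t := by
      have := (hasDerivAt_pow 2 t).div_const 2
      refine this.congr_deriv ?_
      push_cast
      ring
    exact h5.exp
  have h6 := h4.mul h1
  refine h6.congr_deriv ?_
  unfold Gt
  have : Real.exp (t ^ 2 / 2) * Real.exp (-(t ^ 2 / 2)) = 1 := by
    rw [← Real.exp_add]; simp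
  linear_combination (-(A t)) * this

lemma Gt_cont (hA : OE A) : Continuous (Gt A) :=
  continuous_iff_continuousAt.2 fun t => (Gt_deriv hA t).continuousAt

/-- `G` is even. -/
lemma Gt_even (hA : OE A) (t : ℝ) : Gt A (-t) = Gt A t := by
  have hi := int_wt (cce_of hA.cont hA.bdd)
  have hodd : ∀ s, A (-s) * Real.exp (-((-s) ^ 2 / 2)) = -(A s * Real.exp (-(s ^ 2 / 2))) := by
    intro s
    rw [hA.odd, neg_sq]; ring
  have h1 := intervalIntegral.integral_interval_add_Ioi (a := -t) (b := t)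
    (f := fun s => A s * Real.exp (-(s ^ 2 / 2))) (μ := volume) hi.integrableOn hi.integrableOn
  have h2 : ∫ s in (-t)..t, A s * Real.exp (-(s ^ 2 / 2)) = 0 := by
    have h3 : ∫ s in (-t)..t, A (-s) * Real.exp (-((-s) ^ 2 / 2)) =
        ∫ s in (-t)..t, A s * Real.exp (-(s ^ 2 / 2)) := by
      have := intervalIntegral.integral_comp_neg (a := -t) (b := t)
        (fun s => A s * Real.exp (-(s ^ 2 / 2)))
      simpa using this
    simp only [hodd, intervalIntegral.integral_neg] at h3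
    linarith
  unfold Gt
  rw [neg_sq, ← h1, h2, zero_add]

lemma Gt_bdd (hA : OE A) : ∃ C a : ℝ, 0 ≤ C ∧ 0 ≤ a ∧ ∀ t, |Gt A t| ≤ C * Real.exp (a * |t|) := by
  have hi := int_wt (cce_of hA.cont hA.bdd)
  obtain ⟨C, a, hC, ha, hb⟩ := hA.bdd
  have hK : Integrable fun u : ℝ => Real.exp (a * |u|) * Real.exp (-(u ^ 2 / 2)) := by
    refine int_wt (CcE.of_bdd (by fun_prop) (C := 1) (a := a) zero_le_one ha fun x => ?_)
    rw [abs_of_pos (Real.exp_pos _), one_mul]
  set K := ∫ u : ℝ, Real.exp (a * |u|) * Real.exp (-(u ^ 2 / 2)) with hKd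
  have hK0 : 0 ≤ K := integral_nonneg fun u => by positivity
  have key : ∀ t, 0 ≤ t → |Gt A t| ≤ C * K * Real.exp (a * |t|) := by
    intro t ht
    have hsh : Integrable fun s : ℝ => Real.exp (a * |s - t|) * Real.exp (-((s - t) ^ 2 / 2)) :=
      hK.comp_sub_right t
    unfold Gt
    rw [← integral_const_mul]
    have h1 : ∀ s ∈ Set.Ioi t, ‖Real.exp (t ^ 2 / 2) * (A s * Real.exp (-(s ^ 2 / 2)))‖ ≤
        C * Real.exp (a * |t|) * (Real.exp (a * |s - t|) * Real.exp (-((s - t) ^ 2 / 2))) := by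
      intro s hs
      have hs' : t < s := hs
      rw [Real.norm_eq_abs, abs_mul, abs_mul, abs_of_pos (Real.exp_pos _),
        abs_of_pos (Real.exp_pos _)]
      have e1 : Real.exp (t ^ 2 / 2) * Real.exp (-(s ^ 2 / 2)) ≤
          Real.exp (-((s - t) ^ 2 / 2)) := by
        rw [← Real.exp_add]
        apply Real.exp_le_exp.2
        nlinarith
      have e2 : |A s| ≤ C * (Real.exp (a * |t|) * Real.exp (a * |s - t|)) := by
        refine (hb s).trans ?_
        rw [← Real.exp_add]
        refine mul_le_mul_of_nonneg_left (Real.exp_le_exp.2 ?_) hC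
        have : |s| ≤ |t| + |s - t| := by
          calc |s| = |t + (s - t)| := by ring_nf
            _ ≤ |t| + |s - t| := abs_add_le _ _
        nlinarith
      calc Real.exp (t ^ 2 / 2) * (|A s| * Real.exp (-(s ^ 2 / 2)))
          = |A s| * (Real.exp (t ^ 2 / 2) * Real.exp (-(s ^ 2 / 2))) := by ring
        _ ≤ C * (Real.exp (a * |t|) * Real.exp (a * |s - t|)) * Real.exp (-((s - t) ^ 2 / 2)) :=
            mul_le_mul e2 e1 (by positivity) (by positivity)
        _ = _ := by ring
    have h2 : Integrable fun s : ℝ =>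
        C * Real.exp (a * |t|) * (Real.exp (a * |s - t|) * Real.exp (-((s - t) ^ 2 / 2))) :=
      hsh.const_mul _
    calc |∫ s in Set.Ioi t, Real.exp (t ^ 2 / 2) * (A s * Real.exp (-(s ^ 2 / 2)))|
        ≤ ∫ s in Set.Ioi t, ‖Real.exp (t ^ 2 / 2) * (A s * Real.exp (-(s ^ 2 / 2)))‖ := by
          rw [← Real.norm_eq_abs]
          exact norm_integral_le_integral_norm _
      _ ≤ ∫ s in Set.Ioi t,
          C * Real.exp (a * |t|) * (Real.exp (a * |s - t|) * Real.exp (-((s - t) ^ 2 / 2))) :=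
          setIntegral_mono_on ((hi.const_mul _).norm.integrableOn) h2.integrableOn
            measurableSet_Ioi h1
      _ ≤ ∫ s : ℝ,
          C * Real.exp (a * |t|) * (Real.exp (a * |s - t|) * Real.exp (-((s - t) ^ 2 / 2))) :=
          setIntegral_le_integral h2 (Filter.Eventually.of_forall fun s => by positivity)
      _ = C * Real.exp (a * |t|) * K := by
          rw [integral_const_mul]
          congr 1
          exact integral_sub_right_eq_self
            (fun u : ℝ => Real.exp (a * |u|) * Real.exp (-(u ^ 2 / 2))) t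
      _ = C * K * Real.exp (a * |t|) := by ring
  refine ⟨C * K, a, by positivity, ha, fun t => ?_⟩
  rcases le_total 0 t with h | h
  · exact key t h
  · have := key (-t) (by linarith)
    rwa [Gt_even hA, abs_neg] at this

lemma Gt_cce (hA : OE A) : CcE (Gt A) := cce_of (Gt_cont hA) (Gt_bdd hA)

end Vale.Agent.P146.H329
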