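import Vale.Agent.P146.H329.Fb0

/-!
The fixed bulk inequality for a field `A(v·z) v` with a function `A` of one variable: the loss of
the Cauchy-Schwarz inequality controls the rotation.
-/

open MeasureTheory ProbabilityTheory Filter Topology

namespace Vale.Agent.P146.H329

open Vale.Agent.P157.Lv

set_option linter.unusedSectionVars false

variable {ι : Type} [Fintype ι] [DecidableEq ι]

/-- `F'` is the gradient of `F`. -/
def FD (F : (ι → ℝ) → ℝ) (F' : ι → (ι → ℝ) → ℝ) : Prop :=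
  ∀ y, HasFDerivAt F (∑ j, F' j y • (ContinuousLinearMap.proj j : (ι → ℝ) →L[ℝ] ℝ)) y

lemma clm_ext {L M : (ι → ℝ) →L[ℝ] ℝ} (h : ∀ i, L (Pi.single i 1) = M (Pi.single i 1)) :
    L = M := by
  refine ContinuousLinearMap.coe_injective (LinearMap.pi_ext' fun i => ?_)
  ext
  simpa using h i

lemma sum_proj_single (c : ι → ℝ) (i : ι) :
    (∑ j, c j • (ContinuousLinearMap.proj j : (ι → ℝ) →L[ℝ] ℝ)) (Pi.single i 1) = c i := by
  simp only [_root_.sum_apply, _root_.smul_apply, ContinuousLinearMap.proj_apply, smul_eq_mul]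
  rw [Finset.sum_eq_single i]
  · simp
  · intro j _ hj
    simp [Pi.single_eq_of_ne hj]
  · intro hi
    exact absurd (Finset.mem_univ i) hi

namespace FD

variable {F G : (ι → ℝ) → ℝ} {F' G' : ι → (ι → ℝ) → ℝ}

lemma congr' {F1 : ι → (ι → ℝ) → ℝ} (h : FD F F') (h1 : ∀ j y, F1 j y = F' j y) : FD F F1 := by
  have : F1 = F' := by funext j y; exact h1 j y
  rw [this]; exact h

lemma pd (h : FD F F') (e : ι) : PD e F (F' e) := by
  intro y x
  have h1 := (h (Function.update y e x)).comp_hasDerivAt x (hasDerivAt_update y e x)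
  rw [sum_proj_single] at h1
  exact h1

lemma cont (h : FD F F') : Continuous F :=
  continuous_iff_continuousAt.2 fun y => (h y).continuousAt

lemma mul (h : FD F F') (k : FD G G') :
    FD (fun z => F z * G z) (fun j z => F z * G' j z + G z * F' j z) := by
  intro y
  refine ((h y).mul (k y)).congr_fderiv ?_
  refine clm_ext fun i => ?_
  simp only [_root_.add_apply, _root_.smul_apply, sum_proj_single, smul_eq_mul]

lemma comp1 {f f' : ℝ → ℝ} (hf : ∀ x, HasDerivAt f (f' x) x) (h : FD F F') :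
    FD (fun z => f (F z)) (fun j z => f' (F z) * F' j z) := by
  intro y
  refine ((hf (F y)).comp_hasFDerivAt y (h y)).congr_fderiv ?_
  refine clm_ext fun i => ?_
  simp only [_root_.smul_apply, sum_proj_single, smul_eq_mul]

lemma lsum {κ : Type*} [Fintype κ] {f : κ → (ι → ℝ) → ℝ} {f' : κ → ι → (ι → ℝ) → ℝ}
    (h : ∀ i, FD (f i) (f' i)) (c : κ → ℝ) :
    FD (fun z => ∑ i, c i * f i z) (fun j z => ∑ i, c i * f' i j z) := by
  intro y
  refine (HasFDerivAt.fun_sum fun i _ => ((h i) y).const_mul (c i)).congr_fderiv ?_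
  refine clm_ext fun i => ?_
  rw [sum_proj_single]
  have : (∑ k, c k • ∑ j, f' k j y • (ContinuousLinearMap.proj j : (ι → ℝ) →L[ℝ] ℝ))
      (Pi.single i 1) = ∑ k, c k * ((∑ j, f' k j y • (ContinuousLinearMap.proj j :
        (ι → ℝ) →L[ℝ] ℝ)) (Pi.single i 1)) := by
    rw [_root_.sum_apply]
    rfl
  rw [this]
  exact Finset.sum_congr rfl fun k _ => by rw [sum_proj_single]

end FD

/-- linear form -/
noncomputable def dv (v z : ι → ℝ) : ℝ := ∑ i, v i * z i

lemma fd_dv (v : ι → ℝ) : FD (dv v) (fun j _ => v j) := by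
  intro y
  have h : dv v = fun y => (∑ j, v j • (ContinuousLinearMap.proj j : (ι → ℝ) →L[ℝ] ℝ)) y := by
    funext y
    simp [dv, _root_.sum_apply, _root_.smul_apply]
  rw [h]
  exact (∑ j, v j • (ContinuousLinearMap.proj j : (ι → ℝ) →L[ℝ] ℝ)).hasFDerivAt

lemma eg_dv (v : ι → ℝ) : EG (dv v) :=
  EG.sum Finset.univ fun i _ => (EG.coord i).const_mul (v i)

lemma abs_dv_le (v z : ι → ℝ) : |dv v z| ≤ (∑ i, |v i|) * ‖z‖ := by
  unfold dv
  refine (Finset.abs_sum_le_sum_abs _ _).trans ?_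
  rw [Finset.sum_mul]
  refine Finset.sum_le_sum fun i _ => ?_
  rw [abs_mul]
  exact mul_le_mul_of_nonneg_left (norm_le_pi_norm z i) (abs_nonneg _)

lemma eg_comp_dv {f : ℝ → ℝ} (hf : CcE f) (v : ι → ℝ) : EG fun z => f (dv v z) := by
  obtain ⟨C, a, hC, ha, hb⟩ := hf.bdd
  refine ⟨hf.meas.comp (eg_dv v).meas, C, a * ∑ i, |v i|, hC, by positivity, fun z => ?_⟩
  refine (hb _).trans (mul_le_mul_of_nonneg_left (Real.exp_le_exp.2 ?_) hC)
  rw [mul_assoc]
  exact mul_le_mul_of_nonneg_left (abs_dv_le v z) ha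

/-- Integration by parts in the direction `u`. -/
lemma stein_dir {F : (ι → ℝ) → ℝ} {F' : ι → (ι → ℝ) → ℝ} (h : FD F F') (hF : EG F)
    (hF' : ∀ j, EG (F' j)) (u : ι → ℝ) :
    ∫ z, dv u z * F z ∂(gI ι) = ∫ z, ∑ j, u j * F' j z ∂(gI ι) := by
  have e1 : (fun z => dv u z * F z) = fun z => ∑ j, u j * (z j * F z) := by
    funext z
    unfold dv
    rw [Finset.sum_mul]
    exact Finset.sum_congr rfl fun j _ => by ring
  rw [e1, integral_finsetSum _ fun j _ => (((EG.coord j).mul hF).const_mul (u j)).integrable,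
    integral_finsetSum _ fun j _ => ((hF' j).const_mul (u j)).integrable]
  refine Finset.sum_congr rfl fun j _ => ?_
  rw [integral_const_mul, integral_const_mul, (h.pd j).stein hF (hF' j)]

/-- A gradient field with symmetric Jacobian of exponential growth. -/
structure GF (a : ι → (ι → ℝ) → ℝ) (H : ι → ι → (ι → ℝ) → ℝ) : Prop where
  fd : ∀ i, FD (a i) (H i)
  eg : ∀ i, EG (a i)
  egH : ∀ i j, EG (H i j)
  cH : ∀ i j, Continuous (H i j)
  sym : ∀ i j y, H i j y = H j i y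
  odd : ∀ i y, a i (-y) = -a i y

/-- Functions of one variable for which `t G - G' = A`. -/
structure GA (G A : ℝ → ℝ) : Prop where
  der : ∀ t, HasDerivAt G (t * G t - A t) t
  g : CcE G
  a : CcE A

lemma int4 {f g h k : (ι → ℝ) → ℝ} (hf : EG f) (hg : EG g) (hh : EG h) (hk : EG k) :
    ∫ z, ((f z - g z) + (h z + k z)) ∂(gI ι) =
      (∫ z, f z ∂(gI ι) - ∫ z, g z ∂(gI ι)) + (∫ z, h z ∂(gI ι) + ∫ z, k z ∂(gI ι)) := by
  have h1 : ∫ z, ((f z - g z) + (h z + k z)) ∂(gI ι) =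
      ∫ z, (f z - g z) ∂(gI ι) + ∫ z, (h z + k z) ∂(gI ι) :=
    integral_add (hf.sub hg).integrable (hh.add hk).integrable
  have h2 : ∫ z, (f z - g z) ∂(gI ι) = ∫ z, f z ∂(gI ι) - ∫ z, g z ∂(gI ι) :=
    integral_sub hf.integrable hg.integrable
  have h3 : ∫ z, (h z + k z) ∂(gI ι) = ∫ z, h z ∂(gI ι) + ∫ z, k z ∂(gI ι) :=
    integral_add hh.integrable hk.integrable
  rw [h1, h2, h3]

lemma sum_v {v : ι → ℝ} (hv : ∑ i, v i ^ 2 = 1) (c : ℝ) : ∑ j, v j * (c * v j) = c := by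
  calc ∑ j, v j * (c * v j) = c * ∑ j, v j ^ 2 := by
        rw [Finset.mul_sum]; exact Finset.sum_congr rfl fun j _ => by ring
    _ = c := by rw [hv, mul_one]

lemma eg_mul_right {f : (ι → ℝ) → ℝ} (hf : EG f) (c : ℝ) : EG fun z => f z * c := by
  have := hf.const_mul c
  refine this.mono (hf.meas.mul_const c) fun z => ?_
  rw [mul_comm]

section

variable {G A : ℝ → ℝ} {v : ι → ℝ}

lemma dv_self (hv : ∑ i, v i ^ 2 = 1) : dv v v = 1 := by
  unfold dv
  rw [← hv]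
  exact Finset.sum_congr rfl fun i _ => by ring

lemma GA.d (h : GA G A) : CcE fun t => t * G t - A t := (CcE.id.mul h.g).sub h.a

lemma GA.shift (h : GA G A) (m : ℝ) : GA (fun t => G t - m) (fun t => A t - m * t) := by
  refine ⟨fun t => ((h.der t).sub_const m).congr_deriv (by ring), h.g.sub (CcE.const m),
    h.a.sub (CcE.id.cm m)⟩

/-- Integration by parts for functions of `v·z`. -/
lemma stein_v {f f' : ℝ → ℝ} (hd : ∀ t, HasDerivAt f (f' t) t) (c1 : CcE f) (c2 : CcE f')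
    (hv : ∑ i, v i ^ 2 = 1) :
    ∫ z, dv v z * f (dv v z) ∂(gI ι) = ∫ z, f' (dv v z) ∂(gI ι) := by
  have h1 := stein_dir (FD.comp1 hd (fd_dv v)) (eg_comp_dv c1 v)
    (fun j => eg_mul_right (eg_comp_dv c2 v) (v j)) v
  simp only [sum_v hv] at h1
  exact h1

/-- `∫ A(v·z)² = ∫ G(v·z)² + ∫ G'(v·z)²`. -/
lemma GA.norm (h : GA G A) (hv : ∑ i, v i ^ 2 = 1) :
    ∫ z, A (dv v z) ^ 2 ∂(gI ι) = ∫ z, G (dv v z) ^ 2 ∂(gI ι) +
      ∫ z, (dv v z * G (dv v z) - A (dv v z)) ^ 2 ∂(gI ι) := by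
  have hd : ∀ t : ℝ, HasDerivAt (fun t => t * G t ^ 2)
      (G t ^ 2 + 2 * t * G t * (t * G t - A t)) t := by
    intro t
    have h2 : HasDerivAt (fun t => G t ^ 2) (2 * G t * (t * G t - A t)) t := by
      refine ((h.der t).fun_pow 2).congr_deriv ?_
      push_cast
      ring
    refine ((hasDerivAt_id' t).fun_mul h2).congr_deriv ?_
    ring
  have c1 : CcE fun t => t * G t ^ 2 := CcE.id.mul h.g.sq
  have c2 : CcE fun t => G t ^ 2 + 2 * t * G t * (t * G t - A t) :=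
    h.g.sq.add ((((CcE.id.cm 2).mul h.g)).mul h.d)
  have h1 := stein_v hd c1 c2 hv
  have h2 := int4 (f := fun z : ι → ℝ => dv v z * (dv v z * G (dv v z) ^ 2))
    (g := fun z => G (dv v z) ^ 2 + 2 * dv v z * G (dv v z) * (dv v z * G (dv v z) - A (dv v z)))
    (h := fun z => G (dv v z) ^ 2) (k := fun z => (dv v z * G (dv v z) - A (dv v z)) ^ 2)
    ((eg_dv v).mul (eg_comp_dv c1 v)) (eg_comp_dv c2 v) (eg_comp_dv h.g.sq v)
    (eg_comp_dv h.d.sq v)
  have h3 : ∫ z, A (dv v z) ^ 2 ∂(gI ι) = ∫ z : ι → ℝ,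
      ((dv v z * (dv v z * G (dv v z) ^ 2) - (G (dv v z) ^ 2 +
        2 * dv v z * G (dv v z) * (dv v z * G (dv v z) - A (dv v z)))) +
      (G (dv v z) ^ 2 + (dv v z * G (dv v z) - A (dv v z)) ^ 2)) ∂(gI ι) := by
    congr 1
    funext z
    ring
  rw [h3]
  refine h2.trans ?_
  rw [h1]
  ring

/-- `∫ (v·z) A(v·z) = ∫ G(v·z)`. -/
lemma GA.mean (h : GA G A) (hv : ∑ i, v i ^ 2 = 1) :
    ∫ z, dv v z * A (dv v z) ∂(gI ι) = ∫ z, G (dv v z) ∂(gI ι) := by
  have hd : ∀ t : ℝ, HasDerivAt (fun t => t * G t) (G t + t * (t * G t - A t)) t := by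
    intro t
    refine ((hasDerivAt_id' t).fun_mul (h.der t)).congr_deriv ?_
    ring
  have c1 : CcE fun t => t * G t := CcE.id.mul h.g
  have c2 : CcE fun t => G t + t * (t * G t - A t) := h.g.add (CcE.id.mul h.d)
  have h1 := stein_v hd c1 c2 hv
  have h2 := int4 (f := fun z : ι → ℝ => dv v z * (dv v z * G (dv v z)))
    (g := fun z => G (dv v z) + dv v z * (dv v z * G (dv v z) - A (dv v z)))
    (h := fun z => G (dv v z)) (k := fun z => 0)
    ((eg_dv v).mul (eg_comp_dv c1 v)) (eg_comp_dv c2 v) (eg_comp_dv h.g v)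
    (EG.const 0)
  have h3 : ∫ z, dv v z * A (dv v z) ∂(gI ι) = ∫ z : ι → ℝ,
      ((dv v z * (dv v z * G (dv v z)) - (G (dv v z) +
        dv v z * (dv v z * G (dv v z) - A (dv v z)))) + (G (dv v z) + 0)) ∂(gI ι) := by
    congr 1
    funext z
    ring
  rw [h3]
  refine h2.trans ?_
  rw [h1]
  simp

/-- `∫ (A(v·z) - m (v·z))² ≤ 2 ∫ G'(v·z)²`, `m = ∫ (v·z) A(v·z)`. -/
lemma GA.nonlin (h : GA G A) (hv : ∑ i, v i ^ 2 = 1) {m : ℝ}
    (hm : ∫ z, dv v z * A (dv v z) ∂(gI ι) = m) :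
    ∫ z, (A (dv v z) - m * dv v z) ^ 2 ∂(gI ι) ≤
      2 * ∫ z, (dv v z * G (dv v z) - A (dv v z)) ^ 2 ∂(gI ι) := by
  have h1 := (h.shift m).norm hv
  have e1 : ∀ z : ι → ℝ, dv v z * (G (dv v z) - m) - (A (dv v z) - m * dv v z) =
      dv v z * G (dv v z) - A (dv v z) := fun z => by ring
  simp only [e1] at h1
  rw [h1]
  have hG : ∫ z, G (dv v z) ∂(gI ι) = m := by rw [← h.mean hv, hm]
  have egd : ∀ e, EG (fun z : ι → ℝ => (dv v z * G (dv v z) - A (dv v z)) * v e) := fun e =>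
    eg_mul_right (eg_comp_dv h.d v) (v e)
  have h2 := cc_var_le_one (F := fun z : ι → ℝ => G (dv v z))
    (F' := fun e z => (dv v z * G (dv v z) - A (dv v z)) * v e) (eg_comp_dv h.g v)
    (fun e => (FD.comp1 h.der (fd_dv v)).pd e) egd
  rw [hG] at h2
  have h3 : ∑ e, ∫ z, ((dv v z * G (dv v z) - A (dv v z)) * v e) ^ 2 ∂(gI ι) =
      ∫ z, (dv v z * G (dv v z) - A (dv v z)) ^ 2 ∂(gI ι) := by
    have : ∀ e, ∫ z, ((dv v z * G (dv v z) - A (dv v z)) * v e) ^ 2 ∂(gI ι) =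
        (∫ z, (dv v z * G (dv v z) - A (dv v z)) ^ 2 ∂(gI ι)) * v e ^ 2 := by
      intro e
      rw [← integral_mul_const]
      congr 1
      funext z
      ring
    rw [Finset.sum_congr rfl fun e _ => this e, ← Finset.mul_sum, hv, mul_one]
  rw [h3] at h2
  linarith

end

lemma quad_fin {X p S2 a2 g2 gp η2 : ℝ} (hS : 0 ≤ S2) (ha : 0 ≤ a2) (hg : 0 ≤ g2)
    (hgp : 0 ≤ gp) (hX : 0 ≤ X) (e1 : a2 = g2 + gp) (e2 : η2 ≤ 2 * gp)
    (hq : ∀ s t : ℝ, 0 ≤ X + s ^ 2 * a2 + t ^ 2 * (S2 * g2) - 2 * s * p - 2 * t * S2) :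
    η2 * S2 ≤ 2 * a2 * (a2 * X - (S2 + p ^ 2)) := by
  have hcs : p ^ 2 ≤ a2 * X := by
    rcases ha.eq_or_lt with h0 | h0
    · have hp : p = 0 := by
        by_contra hp
        have h1 := hq ((X + 1) / (2 * p)) 0
        rw [← h0] at h1
        have : 2 * ((X + 1) / (2 * p)) * p = X + 1 := by field_simp
        nlinarith
      rw [hp, ← h0]; simp
    · have h1 := hq (p / a2) 0
      have h2 : (p / a2) ^ 2 * a2 = p ^ 2 / a2 := by field_simp
      have h3 : 2 * (p / a2) * p = 2 * (p ^ 2 / a2) := by ring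
      rw [h2, h3] at h1
      have h4 : p ^ 2 / a2 ≤ X := by nlinarith
      rw [div_le_iff₀ h0] at h4
      linarith
  rcases hg.eq_or_lt with h0 | h0
  · have hS0 : S2 = 0 := by
      by_contra hS0
      have hpos : 0 < S2 := lt_of_le_of_ne hS (Ne.symm hS0)
      have h1 := hq 0 ((X + 1) / (2 * S2))
      rw [← h0] at h1
      have : 2 * ((X + 1) / (2 * S2)) * S2 = X + 1 := by field_simp
      nlinarith
    rw [hS0]
    have : 0 ≤ a2 * (a2 * X - p ^ 2) := mul_nonneg ha (by linarith)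
    nlinarith
  · have ha' : 0 < a2 := by linarith
    have h1 := hq (p / a2) (1 / g2)
    have h2 : (p / a2) ^ 2 * a2 = p ^ 2 / a2 := by field_simp
    have h3 : 2 * (p / a2) * p = 2 * (p ^ 2 / a2) := by ring
    have h4 : (1 / g2) ^ 2 * (S2 * g2) = S2 / g2 := by field_simp
    have h5 : 2 * (1 / g2) * S2 = 2 * (S2 / g2) := by ring
    rw [h2, h3, h4, h5] at h1
    have h6 : p ^ 2 / a2 + S2 / g2 ≤ X := by linarith
    have h7 : g2 * p ^ 2 + a2 * S2 ≤ a2 * g2 * X := by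
      have h8 := mul_le_mul_of_nonneg_left h6 (by positivity : 0 ≤ a2 * g2)
      have h9 : a2 * g2 * (p ^ 2 / a2 + S2 / g2) = g2 * p ^ 2 + a2 * S2 := by field_simp
      linarith
    -- `g2 (a2 X - p² - S2) ≥ (a2 - g2) S2 = gp S2`
    have h10 : gp * S2 ≤ g2 * (a2 * X - (S2 + p ^ 2)) := by
      have : gp * S2 = a2 * S2 - g2 * S2 := by rw [e1]; ring
      nlinarith
    have h11 : 0 ≤ a2 * X - (S2 + p ^ 2) := by
      have : 0 ≤ g2 * (a2 * X - (S2 + p ^ 2)) := le_trans (mul_nonneg hgp hS) h10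
      by_contra hneg
      push Not at hneg
      nlinarith
    have h12 : η2 * S2 ≤ 2 * gp * S2 := mul_le_mul_of_nonneg_right e2 hS
    have h13 : g2 * (a2 * X - (S2 + p ^ 2)) ≤ a2 * (a2 * X - (S2 + p ^ 2)) :=
      mul_le_mul_of_nonneg_right (by linarith) h11
    nlinarith

lemma sum_sq_dec {v R w : ι → ℝ} {p : ℝ} (hw : ∀ i, w i = R i + v i * p)
    (hvR : ∑ i, v i * R i = 0) (hv : ∑ i, v i ^ 2 = 1) :
    ∑ i, w i ^ 2 = ∑ i, R i ^ 2 + p ^ 2 := by
  have : ∑ i, w i ^ 2 = ∑ i, R i ^ 2 + 2 * p * (∑ i, v i * R i) + p ^ 2 * ∑ i, v i ^ 2 := by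
    rw [Finset.mul_sum, Finset.mul_sum, ← Finset.sum_add_distrib, ← Finset.sum_add_distrib]
    exact Finset.sum_congr rfl fun i _ => by rw [hw i]; ring
  rw [this, hvR, hv]; ring

section gtrick

variable {G A : ℝ → ℝ} {v r : ι → ℝ} {d : ι → (ι → ℝ) → ℝ} {K : ι → ι → (ι → ℝ) → ℝ}

/-- `∫ A(v·z) (r·d) = ∫ G(v·z) (r·z) (v·d)` for `r ⊥ v`. -/
lemma GA.trick (h : GA G A) (hd : GF d K) (hv : ∑ i, v i ^ 2 = 1) (hr : ∑ i, v i * r i = 0) :
    ∫ z, A (dv v z) * (∑ i, r i * d i z) ∂(gI ι) =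
      ∫ z, dv r z * (G (dv v z) * (∑ i, v i * d i z)) ∂(gI ι) := by
  have fG := FD.comp1 h.der (fd_dv v)
  have eG := eg_comp_dv h.g v
  have eA := eg_comp_dv h.a v
  have eD := eg_comp_dv h.d v
  have er : EG fun z => ∑ i, r i * d i z := EG.sum Finset.univ fun i _ => (hd.eg i).const_mul _
  have ev : EG fun z => ∑ i, v i * d i z := EG.sum Finset.univ fun i _ => (hd.eg i).const_mul _
  have erK : ∀ j, EG fun z => ∑ i, r i * K i j z := fun j =>
    EG.sum Finset.univ fun i _ => (hd.egH i j).const_mul _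
  have evK : ∀ j, EG fun z => ∑ i, v i * K i j z := fun j =>
    EG.sum Finset.univ fun i _ => (hd.egH i j).const_mul _
  have h1 := stein_dir (fG.mul (FD.lsum hd.fd r)) (eG.mul er)
    (fun j => (eG.mul (erK j)).add (er.mul (eg_mul_right eD (v j)))) v
  have h2 := stein_dir (fG.mul (FD.lsum hd.fd v)) (eG.mul ev)
    (fun j => (eG.mul (evK j)).add (ev.mul (eg_mul_right eD (v j)))) r
  have q1 : ∀ z : ι → ℝ, ∑ j, v j * (G (dv v z) * (∑ i, r i * K i j z) +
      (∑ i, r i * d i z) * ((dv v z * G (dv v z) - A (dv v z)) * v j)) =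
      G (dv v z) * (∑ j, ∑ i, v j * (r i * K i j z)) +
        (∑ i, r i * d i z) * (dv v z * G (dv v z) - A (dv v z)) := by
    intro z
    have e1 : ∑ j, v j * (G (dv v z) * (∑ i, r i * K i j z)) =
        G (dv v z) * (∑ j, ∑ i, v j * (r i * K i j z)) := by
      rw [Finset.mul_sum]
      refine Finset.sum_congr rfl fun j _ => ?_
      rw [← Finset.mul_sum]; ring
    have e2 : ∑ j, v j * ((∑ i, r i * d i z) * ((dv v z * G (dv v z) - A (dv v z)) * v j)) =
        (∑ i, r i * d i z) * (dv v z * G (dv v z) - A (dv v z)) := by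
      rw [← sum_v hv ((∑ i, r i * d i z) * (dv v z * G (dv v z) - A (dv v z)))]
      exact Finset.sum_congr rfl fun j _ => by ring
    rw [← e1, ← e2, ← Finset.sum_add_distrib]
    exact Finset.sum_congr rfl fun j _ => by ring
  have q2 : ∀ z : ι → ℝ, ∑ j, r j * (G (dv v z) * (∑ i, v i * K i j z) +
      (∑ i, v i * d i z) * ((dv v z * G (dv v z) - A (dv v z)) * v j)) =
      G (dv v z) * (∑ j, ∑ i, v j * (r i * K i j z)) := by
    intro z
    have e1 : ∑ j, r j * (G (dv v z) * (∑ i, v i * K i j z)) =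
        G (dv v z) * (∑ j, ∑ i, v j * (r i * K i j z)) := by
      rw [Finset.sum_comm, Finset.mul_sum]
      refine Finset.sum_congr rfl fun j _ => ?_
      rw [Finset.mul_sum, Finset.mul_sum, Finset.mul_sum]
      refine Finset.sum_congr rfl fun i _ => ?_
      rw [hd.sym i j z]; ring
    have e2 : ∑ j, r j * ((∑ i, v i * d i z) * ((dv v z * G (dv v z) - A (dv v z)) * v j)) = 0 := by
      have : ∑ j, r j * ((∑ i, v i * d i z) * ((dv v z * G (dv v z) - A (dv v z)) * v j)) =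
          ((∑ i, v i * d i z) * (dv v z * G (dv v z) - A (dv v z))) * ∑ j, v j * r j := by
        rw [Finset.mul_sum]
        exact Finset.sum_congr rfl fun j _ => by ring
      rw [this, hr, mul_zero]
    have e3 : ∑ j, r j * (G (dv v z) * (∑ i, v i * K i j z) +
        (∑ i, v i * d i z) * ((dv v z * G (dv v z) - A (dv v z)) * v j)) =
        ∑ j, r j * (G (dv v z) * (∑ i, v i * K i j z)) +
        ∑ j, r j * ((∑ i, v i * d i z) * ((dv v z * G (dv v z) - A (dv v z)) * v j)) := by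
      rw [← Finset.sum_add_distrib]
      exact Finset.sum_congr rfl fun j _ => by ring
    rw [e3, e1, e2, add_zero]
  simp only [q1] at h1
  simp only [q2] at h2
  rw [h2]
  have eKK : EG fun z => G (dv v z) * (∑ j, ∑ i, v j * (r i * K i j z)) :=
    eG.mul (EG.sum Finset.univ fun j _ => EG.sum Finset.univ fun i _ =>
      ((hd.egH i j).const_mul _).const_mul _)
  have h3 := int4 (f := fun z : ι → ℝ => dv v z * (G (dv v z) * (∑ i, r i * d i z)))
    (g := fun z => G (dv v z) * (∑ j, ∑ i, v j * (r i * K i j z)) +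
        (∑ i, r i * d i z) * (dv v z * G (dv v z) - A (dv v z)))
    (h := fun z => G (dv v z) * (∑ j, ∑ i, v j * (r i * K i j z))) (k := fun _ => 0)
    ((eg_dv v).mul (eG.mul er)) (eKK.add (er.mul eD)) eKK (EG.const 0)
  rw [h1] at h3
  simp only [sub_self, zero_add, integral_zero, add_zero] at h3
  rw [← h3]
  congr 1
  funext z
  ring

/-- `∫ A(v·z) G(v·z) (r·z) = 0` for `r ⊥ v`. -/
lemma GA.orth (h : GA G A) (hv : ∑ i, v i ^ 2 = 1) (hr : ∑ i, v i * r i = 0) :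
    ∫ z, A (dv v z) * (G (dv v z) * dv r z) ∂(gI ι) = 0 := by
  have hG2 : ∀ t : ℝ, HasDerivAt (fun t => G t ^ 2) (2 * G t * (t * G t - A t)) t := by
    intro t
    refine ((h.der t).fun_pow 2).congr_deriv ?_
    push_cast
    ring
  have hd : ∀ t : ℝ, HasDerivAt (fun t => t * G t ^ 2)
      (G t ^ 2 + 2 * t * G t * (t * G t - A t)) t := by
    intro t
    refine ((hasDerivAt_id' t).fun_mul (hG2 t)).congr_deriv ?_
    ring
  have c0 : CcE fun t => 2 * G t * (t * G t - A t) := (h.g.cm 2).mul h.d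
  have c1 : CcE fun t => t * G t ^ 2 := CcE.id.mul h.g.sq
  have c2 : CcE fun t => G t ^ 2 + 2 * t * G t * (t * G t - A t) :=
    h.g.sq.add ((((CcE.id.cm 2).mul h.g)).mul h.d)
  have h1 := stein_dir (FD.comp1 hd (fd_dv v)) (eg_comp_dv c1 v)
    (fun j => eg_mul_right (eg_comp_dv c2 v) (v j)) r
  have h2 := stein_dir ((FD.comp1 hG2 (fd_dv v)).mul (fd_dv r))
    ((eg_comp_dv h.g.sq v).mul (eg_dv r))
    (fun j => (eg_mul_right (eg_comp_dv h.g.sq v) (r j)).add
      ((eg_dv r).mul (eg_mul_right (eg_comp_dv c0 v) (v j)))) v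
  have q1 : ∀ z : ι → ℝ, ∑ j, r j * ((G (dv v z) ^ 2 + 2 * dv v z * G (dv v z) *
      (dv v z * G (dv v z) - A (dv v z))) * v j) = 0 := by
    intro z
    have : ∑ j, r j * ((G (dv v z) ^ 2 + 2 * dv v z * G (dv v z) *
        (dv v z * G (dv v z) - A (dv v z))) * v j) = (G (dv v z) ^ 2 + 2 * dv v z * G (dv v z) *
        (dv v z * G (dv v z) - A (dv v z))) * ∑ j, v j * r j := by
      rw [Finset.mul_sum]
      exact Finset.sum_congr rfl fun j _ => by ring
    rw [this, hr, mul_zero]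
  have q2 : ∀ z : ι → ℝ, ∑ j, v j * (G (dv v z) ^ 2 * r j + dv r z *
      (2 * G (dv v z) * (dv v z * G (dv v z) - A (dv v z)) * v j)) =
      dv r z * (2 * G (dv v z) * (dv v z * G (dv v z) - A (dv v z))) := by
    intro z
    have : ∑ j, v j * (G (dv v z) ^ 2 * r j + dv r z *
        (2 * G (dv v z) * (dv v z * G (dv v z) - A (dv v z)) * v j)) =
        G (dv v z) ^ 2 * (∑ j, v j * r j) +
        ∑ j, v j * ((dv r z * (2 * G (dv v z) * (dv v z * G (dv v z) - A (dv v z)))) * v j) := by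
      rw [Finset.mul_sum, ← Finset.sum_add_distrib]
      exact Finset.sum_congr rfl fun j _ => by ring
    rw [this, hr, sum_v hv]; ring
  simp only [q1, integral_zero] at h1
  simp only [q2] at h2
  have h3 := int4 (f := fun z : ι → ℝ => 2 * (dv r z * (dv v z * G (dv v z) ^ 2)))
    (g := fun z => dv r z * (2 * G (dv v z) * (dv v z * G (dv v z) - A (dv v z))))
    (h := fun _ => 0) (k := fun _ => 0)
    (((eg_dv r).mul (eg_comp_dv c1 v)).const_mul 2) ((eg_dv r).mul (eg_comp_dv c0 v))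
    (EG.const 0) (EG.const 0)
  have h4 : ∫ z : ι → ℝ, dv v z * (G (dv v z) ^ 2 * dv r z) ∂(gI ι) =
      ∫ z : ι → ℝ, dv r z * (dv v z * G (dv v z) ^ 2) ∂(gI ι) := by
    congr 1
    funext z
    ring
  rw [h4, h1] at h2
  rw [integral_const_mul, h1, ← h2] at h3
  simp only [integral_zero, mul_zero, sub_zero, add_zero] at h3
  have h5 : ∫ z : ι → ℝ, (2 * (dv r z * (dv v z * G (dv v z) ^ 2)) -
      dv r z * (2 * G (dv v z) * (dv v z * G (dv v z) - A (dv v z)))) ∂(gI ι) =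
      2 * ∫ z, A (dv v z) * (G (dv v z) * dv r z) ∂(gI ι) := by
    rw [← integral_const_mul]
    congr 1
    funext z
    ring
  rw [h5] at h3
  linarith

/-- `∫ G(v·z)² (r·z)² = |r|² ∫ G(v·z)²` for `r ⊥ v`. -/
lemma GA.sqr (h : GA G A) (hr : ∑ i, v i * r i = 0) :
    ∫ z, (G (dv v z) * dv r z) ^ 2 ∂(gI ι) = (∑ i, r i ^ 2) * ∫ z, G (dv v z) ^ 2 ∂(gI ι) := by
  have hG2 : ∀ t : ℝ, HasDerivAt (fun t => G t ^ 2) (2 * G t * (t * G t - A t)) t := by
    intro t
    refine ((h.der t).fun_pow 2).congr_deriv ?_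
    push_cast
    ring
  have c0 : CcE fun t => 2 * G t * (t * G t - A t) := (h.g.cm 2).mul h.d
  have h2 := stein_dir ((FD.comp1 hG2 (fd_dv v)).mul (fd_dv r))
    ((eg_comp_dv h.g.sq v).mul (eg_dv r))
    (fun j => (eg_mul_right (eg_comp_dv h.g.sq v) (r j)).add
      ((eg_dv r).mul (eg_mul_right (eg_comp_dv c0 v) (v j)))) r
  have q2 : ∀ z : ι → ℝ, ∑ j, r j * (G (dv v z) ^ 2 * r j + dv r z *
      (2 * G (dv v z) * (dv v z * G (dv v z) - A (dv v z)) * v j)) =
      (∑ i, r i ^ 2) * G (dv v z) ^ 2 := by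
    intro z
    have : ∑ j, r j * (G (dv v z) ^ 2 * r j + dv r z *
        (2 * G (dv v z) * (dv v z * G (dv v z) - A (dv v z)) * v j)) =
        G (dv v z) ^ 2 * (∑ j, r j ^ 2) +
        (dv r z * (2 * G (dv v z) * (dv v z * G (dv v z) - A (dv v z)))) * ∑ j, v j * r j := by
      rw [Finset.mul_sum, Finset.mul_sum, ← Finset.sum_add_distrib]
      exact Finset.sum_congr rfl fun j _ => by ring
    rw [this, hr]; ring
  simp only [q2] at h2
  rw [← integral_const_mul, ← h2]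
  congr 1
  funext z
  ring

/-- **The G-trick.** -/
theorem GA.gtrick (h : GA G A) (hd : GF d K) (hv : ∑ i, v i ^ 2 = 1) {m : ℝ}
    (hm : ∫ z, dv v z * A (dv v z) ∂(gI ι) = m) :
    (∫ z, (A (dv v z) - m * dv v z) ^ 2 ∂(gI ι)) *
      (∑ i, (∫ z, A (dv v z) * d i z ∂(gI ι) -
        v i * ∑ j, v j * ∫ z, A (dv v z) * d j z ∂(gI ι)) ^ 2) ≤
    2 * (∫ z, A (dv v z) ^ 2 ∂(gI ι)) *
      ((∫ z, A (dv v z) ^ 2 ∂(gI ι)) * (∫ z, (∑ i, v i * d i z) ^ 2 ∂(gI ι)) -
        ∑ i, (∫ z, A (dv v z) * d i z ∂(gI ι)) ^ 2) := by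
  set w : ι → ℝ := fun i => ∫ z, A (dv v z) * d i z ∂(gI ι) with hw
  set p : ℝ := ∑ j, v j * w j with hp
  set R : ι → ℝ := fun i => w i - v i * p with hR
  have eA := eg_comp_dv h.a v
  have ev : EG fun z => ∑ i, v i * d i z := EG.sum Finset.univ fun i _ => (hd.eg i).const_mul _
  have hvR : ∑ i, v i * R i = 0 := by
    have : ∑ i, v i * R i = p - p * ∑ i, v i ^ 2 := by
      rw [hp, Finset.mul_sum, ← Finset.sum_sub_distrib]
      exact Finset.sum_congr rfl fun i _ => by simp only [hR, hp]; ring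
    rw [this, hv]; ring
  have hwR : ∀ i, w i = R i + v i * p := fun i => by simp only [hR]; ring
  have hRw : ∑ i, R i * w i = ∑ i, R i ^ 2 := by
    have : ∑ i, R i * w i = ∑ i, R i ^ 2 + p * ∑ i, v i * R i := by
      rw [Finset.mul_sum, ← Finset.sum_add_distrib]
      exact Finset.sum_congr rfl fun i _ => by rw [hwR i]; ring
    rw [this, hvR]; ring
  have hww : ∑ i, w i ^ 2 = ∑ i, R i ^ 2 + p ^ 2 := sum_sq_dec hwR hvR hv
  have sumint : ∀ c : ι → ℝ, ∫ z, A (dv v z) * (∑ i, c i * d i z) ∂(gI ι) = ∑ i, c i * w i := by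
    intro c
    have e1 : (fun z => A (dv v z) * (∑ i, c i * d i z)) =
        fun z => ∑ i, c i * (A (dv v z) * d i z) := by
      funext z
      rw [Finset.mul_sum]
      exact Finset.sum_congr rfl fun i _ => by ring
    rw [e1, integral_finsetSum _ fun i _ => ((eA.mul (hd.eg i)).const_mul (c i)).integrable]
    exact Finset.sum_congr rfl fun i _ => integral_const_mul _ _
  have t1 : ∫ z, dv R z * (G (dv v z) * (∑ i, v i * d i z)) ∂(gI ι) = ∑ i, R i ^ 2 := by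
    rw [← h.trick hd hv hvR, sumint, hRw]
  have t2 : ∫ z, A (dv v z) * (∑ i, v i * d i z) ∂(gI ι) = p := sumint v
  have t3 := h.orth (r := R) hv hvR
  have t4 := h.sqr (r := R) hvR
  have hq : ∀ s t : ℝ, 0 ≤ (∫ z, (∑ i, v i * d i z) ^ 2 ∂(gI ι)) +
      s ^ 2 * (∫ z, A (dv v z) ^ 2 ∂(gI ι)) +
      t ^ 2 * ((∑ i, R i ^ 2) * ∫ z, G (dv v z) ^ 2 ∂(gI ι)) - 2 * s * p -
      2 * t * (∑ i, R i ^ 2) := by
    intro s t
    have h0 : 0 ≤ ∫ z, ((∑ i, v i * d i z) - s * A (dv v z) -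
        t * (G (dv v z) * dv R z)) ^ 2 ∂(gI ι) := integral_nonneg fun z => sq_nonneg _
    have eG := (eg_comp_dv h.g v).mul (eg_dv R)
    have e5 := int4 (f := fun z : ι → ℝ => (∑ i, v i * d i z) ^ 2 + (s ^ 2 * A (dv v z) ^ 2 +
        t ^ 2 * (G (dv v z) * dv R z) ^ 2))
      (g := fun z => 2 * s * (A (dv v z) * (∑ i, v i * d i z)) +
        2 * t * (dv R z * (G (dv v z) * (∑ i, v i * d i z))))
      (h := fun z => 2 * s * t * (A (dv v z) * (G (dv v z) * dv R z))) (k := fun _ => 0)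
      ((ev.pow 2).add (((eA.pow 2).const_mul _).add ((eG.pow 2).const_mul _)))
      (((eA.mul ev).const_mul _).add (((eg_dv R).mul ((eg_comp_dv h.g v).mul ev)).const_mul _))
      ((eA.mul eG).const_mul _) (EG.const 0)
    have e6 : ∫ z, ((∑ i, v i * d i z) ^ 2 + (s ^ 2 * A (dv v z) ^ 2 +
        t ^ 2 * (G (dv v z) * dv R z) ^ 2)) ∂(gI ι) = ∫ z, (∑ i, v i * d i z) ^ 2 ∂(gI ι) +
        (s ^ 2 * (∫ z, A (dv v z) ^ 2 ∂(gI ι)) +
          t ^ 2 * ∫ z, (G (dv v z) * dv R z) ^ 2 ∂(gI ι)) := by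
      have f1 : ∫ z, ((∑ i, v i * d i z) ^ 2 + (s ^ 2 * A (dv v z) ^ 2 +
          t ^ 2 * (G (dv v z) * dv R z) ^ 2)) ∂(gI ι) = ∫ z, (∑ i, v i * d i z) ^ 2 ∂(gI ι) +
          ∫ z, (s ^ 2 * A (dv v z) ^ 2 + t ^ 2 * (G (dv v z) * dv R z) ^ 2) ∂(gI ι) :=
        integral_add (ev.pow 2).integrable
          (((eA.pow 2).const_mul _).add ((eG.pow 2).const_mul _)).integrable
      have f2 : ∫ z, (s ^ 2 * A (dv v z) ^ 2 + t ^ 2 * (G (dv v z) * dv R z) ^ 2) ∂(gI ι) =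
          ∫ z, s ^ 2 * A (dv v z) ^ 2 ∂(gI ι) +
            ∫ z, t ^ 2 * (G (dv v z) * dv R z) ^ 2 ∂(gI ι) :=
        integral_add ((eA.pow 2).const_mul _).integrable ((eG.pow 2).const_mul _).integrable
      rw [f1, f2, integral_const_mul, integral_const_mul]
    have e7 : ∫ z, (2 * s * (A (dv v z) * (∑ i, v i * d i z)) +
        2 * t * (dv R z * (G (dv v z) * (∑ i, v i * d i z)))) ∂(gI ι) =
        2 * s * p + 2 * t * (∑ i, R i ^ 2) := by
      have f1 : ∫ z, (2 * s * (A (dv v z) * (∑ i, v i * d i z)) +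
          2 * t * (dv R z * (G (dv v z) * (∑ i, v i * d i z)))) ∂(gI ι) =
          ∫ z, 2 * s * (A (dv v z) * (∑ i, v i * d i z)) ∂(gI ι) +
          ∫ z, 2 * t * (dv R z * (G (dv v z) * (∑ i, v i * d i z))) ∂(gI ι) :=
        integral_add ((eA.mul ev).const_mul _).integrable
          (((eg_dv R).mul ((eg_comp_dv h.g v).mul ev)).const_mul _).integrable
      rw [f1, integral_const_mul, integral_const_mul, t1, t2]
    have e8 : ∫ z, ((∑ i, v i * d i z) - s * A (dv v z) -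
        t * (G (dv v z) * dv R z)) ^ 2 ∂(gI ι) = ∫ z : ι → ℝ,
        (((∑ i, v i * d i z) ^ 2 + (s ^ 2 * A (dv v z) ^ 2 +
        t ^ 2 * (G (dv v z) * dv R z) ^ 2)) - (2 * s * (A (dv v z) * (∑ i, v i * d i z)) +
        2 * t * (dv R z * (G (dv v z) * (∑ i, v i * d i z)))) +
        (2 * s * t * (A (dv v z) * (G (dv v z) * dv R z)) + 0)) ∂(gI ι) := by
      congr 1
      funext z
      ring
    rw [e8, e5, e6, e7, integral_const_mul, t3, t4, integral_zero] at h0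
    linarith
  have := quad_fin (X := ∫ z, (∑ i, v i * d i z) ^ 2 ∂(gI ι)) (p := p) (S2 := ∑ i, R i ^ 2)
    (a2 := ∫ z, A (dv v z) ^ 2 ∂(gI ι)) (g2 := ∫ z, G (dv v z) ^ 2 ∂(gI ι))
    (Finset.sum_nonneg fun i _ => sq_nonneg _) (integral_nonneg fun z => sq_nonneg _)
    (integral_nonneg fun z => sq_nonneg _) (integral_nonneg fun z => sq_nonneg _)
    (integral_nonneg fun z => sq_nonneg _) (h.norm hv) (h.nonlin hv hm) hq
  rw [hww]
  exact this

end gtrick

end Vale.Agent.P146.H329
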