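import Vale.Agent.P146.H329.Fb1
import Vale.Agent.P146.H605.Rot

/-!
The profile of a function of Gaussian variables in a direction `v`: projection, oddness, growth,
Poincaré inequality in the orthogonal directions.
-/

open MeasureTheory ProbabilityTheory Filter Topology

namespace Vale.Agent.P146.H329

open Vale.Agent.P157.Lv

set_option linter.unusedSectionVars false

variable {ι : Type} [Fintype ι] [DecidableEq ι]

/-- the point with `v`-component `t` and the other components of `x` -/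
noncomputable def tp (v x : ι → ℝ) (t : ℝ) : ι → ℝ := fun j => x j + (t - dv v x) * v j

/-- the linear form as a continuous linear map -/
noncomputable def lv (v : ι → ℝ) : (ι → ℝ) →L[ℝ] ℝ :=
  ∑ j, v j • (ContinuousLinearMap.proj j : (ι → ℝ) →L[ℝ] ℝ)

lemma lv_apply (v z : ι → ℝ) : lv v z = dv v z := by
  simp [lv, dv, _root_.sum_apply, _root_.smul_apply]

/-- `(x, y) ↦ x + (v·y - v·x) v`. -/
noncomputable def TL (v : ι → ℝ) : (ι → ℝ) × (ι → ℝ) →L[ℝ] (ι → ℝ) :=
  ContinuousLinearMap.fst ℝ (ι → ℝ) (ι → ℝ) +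
    (((lv v).comp (ContinuousLinearMap.snd ℝ (ι → ℝ) (ι → ℝ))) -
      ((lv v).comp (ContinuousLinearMap.fst ℝ (ι → ℝ) (ι → ℝ)))).smulRight v

lemma TL_apply (v : ι → ℝ) (p : (ι → ℝ) × (ι → ℝ)) : TL v p = tp v p.1 (dv v p.2) := by
  funext j
  simp only [TL, tp, _root_.add_apply, ContinuousLinearMap.coe_fst', Pi.add_apply,
    ContinuousLinearMap.smulRight_apply, _root_.sub_apply, ContinuousLinearMap.comp_apply,
    ContinuousLinearMap.coe_snd', Pi.smul_apply, smul_eq_mul, lv_apply]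

/-- The law of `x + (v·y - v·x) v` is standard Gaussian. -/
theorem map_TL {v : ι → ℝ} (hv : ∑ i, v i ^ 2 = 1) :
    ((gI ι).prod (gI ι)).map (TL v) = gI ι := by
  refine Measure.ext_of_charFunDual ?_
  ext L
  rw [charFunDual_map, charFunDual_prod, Vale.Agent.P146.H605.charFunDual_std_pi,
    Vale.Agent.P146.H605.charFunDual_std_pi, Vale.Agent.P146.H605.charFunDual_std_pi,
    ← Complex.exp_add]
  congr 1
  have hLv : L v = ∑ i, v i * L (Pi.single i 1) := by
    conv_lhs => rw [show v = ∑ i, v i • (Pi.single i (1 : ℝ) : ι → ℝ) by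
      funext j; simp [Finset.sum_apply, Pi.single_apply]]
    rw [map_sum]
    exact Finset.sum_congr rfl fun i _ => by rw [map_smul, smul_eq_mul]
  have hdv : ∀ i, dv v (Pi.single i 1) = v i := by
    intro i
    simp [dv, Pi.single_apply]
  have a1 : ∀ i, ((L.comp (TL v)).comp (ContinuousLinearMap.inl ℝ _ _)) (Pi.single i 1) =
      L (Pi.single i 1) - v i * L v := by
    intro i
    have e : TL v ((Pi.single i 1 : ι → ℝ), (0 : ι → ℝ)) =
        (Pi.single i (1 : ℝ) : ι → ℝ) - v i • v := by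
      rw [TL_apply]
      funext j
      simp only [tp, hdv, Pi.sub_apply, Pi.smul_apply, smul_eq_mul]
      have : dv v 0 = 0 := by simp [dv]
      rw [this]; ring
    simp only [ContinuousLinearMap.comp_apply, ContinuousLinearMap.inl_apply]
    rw [e, map_sub, map_smul, smul_eq_mul]
  have a2 : ∀ i, ((L.comp (TL v)).comp (ContinuousLinearMap.inr ℝ _ _)) (Pi.single i 1) =
      v i * L v := by
    intro i
    have e : TL v ((0 : ι → ℝ), (Pi.single i 1 : ι → ℝ)) = v i • v := by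
      rw [TL_apply]
      funext j
      have : dv v 0 = 0 := by simp [dv]
      simp only [tp, hdv, this, Pi.smul_apply, smul_eq_mul, Pi.zero_apply]; ring
    simp only [ContinuousLinearMap.comp_apply, ContinuousLinearMap.inr_apply]
    rw [e, map_smul, smul_eq_mul]
  have key : (∑ i, (((L.comp (TL v)).comp (ContinuousLinearMap.inl ℝ _ _)) (Pi.single i 1)) ^ 2) +
      (∑ i, (((L.comp (TL v)).comp (ContinuousLinearMap.inr ℝ _ _)) (Pi.single i 1)) ^ 2) =
      ∑ i, (L (Pi.single i 1)) ^ 2 := by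
    simp only [a1, a2]
    have e1 : ∑ i, (L (Pi.single i 1) - v i * L v) ^ 2 = ∑ i, (L (Pi.single i 1)) ^ 2 -
        2 * L v * (∑ i, v i * L (Pi.single i 1)) + L v ^ 2 * ∑ i, v i ^ 2 := by
      rw [Finset.mul_sum, Finset.mul_sum, ← Finset.sum_sub_distrib, ← Finset.sum_add_distrib]
      exact Finset.sum_congr rfl fun i _ => by ring
    have e2 : ∑ i, (v i * L v) ^ 2 = L v ^ 2 * ∑ i, v i ^ 2 := by
      rw [Finset.mul_sum]
      exact Finset.sum_congr rfl fun i _ => by ring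
    rw [e1, e2, ← hLv, hv]; ring
  have key' : (∑ i, ((((L.comp (TL v)).comp (ContinuousLinearMap.inl ℝ _ _))
        (Pi.single i 1) : ℝ) : ℂ) ^ 2) +
      (∑ i, ((((L.comp (TL v)).comp (ContinuousLinearMap.inr ℝ _ _))
        (Pi.single i 1) : ℝ) : ℂ) ^ 2) = ∑ i, ((L (Pi.single i 1) : ℝ) : ℂ) ^ 2 := by
    exact_mod_cast congrArg (fun x : ℝ => (x : ℂ)) key
  rw [← key']
  ring

lemma dv_tp {v : ι → ℝ} (hv : ∑ i, v i ^ 2 = 1) (x : ι → ℝ) (t : ℝ) : dv v (tp v x t) = t := by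
  have : dv v (tp v x t) = dv v x + (t - dv v x) * ∑ i, v i ^ 2 := by
    unfold dv tp
    rw [Finset.mul_sum, ← Finset.sum_add_distrib]
    refine Finset.sum_congr rfl fun j _ => ?_
    unfold dv
    ring
  rw [this, hv]; ring

/-- the profile of `f` in the direction `v` -/
noncomputable def pr (v : ι → ℝ) (f : (ι → ℝ) → ℝ) (t : ℝ) : ℝ := ∫ x, f (tp v x t) ∂(gI ι)

/-- Disintegration along `v`. -/
theorem int_tp {v : ι → ℝ} (hv : ∑ i, v i ^ 2 = 1) {F : (ι → ℝ) → ℝ} (hF : EG F) :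
    ∫ z, F z ∂(gI ι) = ∫ y, ∫ x, F (tp v x (dv v y)) ∂(gI ι) ∂(gI ι) := by
  have hi : Integrable F (((gI ι).prod (gI ι)).map (TL v)) := by
    rw [map_TL hv]; exact hF.integrable
  have hi2 : Integrable (fun p : (ι → ℝ) × (ι → ℝ) => F (TL v p)) ((gI ι).prod (gI ι)) :=
    (integrable_map_measure hi.aestronglyMeasurable (TL v).continuous.aemeasurable).1 hi
  conv_lhs => rw [← map_TL hv]
  rw [integral_map (TL v).continuous.aemeasurable hi.aestronglyMeasurable,
    integral_prod_symm _ hi2]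
  simp only [TL_apply]

lemma norm_tp_le (v x : ι → ℝ) (t : ℝ) :
    ‖tp v x t‖ ≤ (1 + (∑ i, |v i|) * ‖v‖) * ‖x‖ + ‖v‖ * |t| := by
  refine (pi_norm_le_iff_of_nonneg (by positivity)).2 fun j => ?_
  unfold tp
  rw [Real.norm_eq_abs]
  have h1 : |x j + (t - dv v x) * v j| ≤ |x j| + (|t| + |dv v x|) * |v j| := by
    calc |x j + (t - dv v x) * v j| ≤ |x j| + |(t - dv v x) * v j| := abs_add_le _ _
      _ = |x j| + |t - dv v x| * |v j| := by rw [abs_mul]
      _ ≤ |x j| + (|t| + |dv v x|) * |v j| := by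
          gcongr
          exact abs_sub _ _
  have h2 := abs_dv_le v x
  have h3 : |x j| ≤ ‖x‖ := norm_le_pi_norm x j
  have h4 : |v j| ≤ ‖v‖ := norm_le_pi_norm v j
  calc |x j + (t - dv v x) * v j| ≤ |x j| + (|t| + |dv v x|) * |v j| := h1
    _ ≤ ‖x‖ + (|t| + (∑ i, |v i|) * ‖x‖) * ‖v‖ := by gcongr
    _ = _ := by ring

lemma cont_tp (v : ι → ℝ) : Continuous fun p : (ι → ℝ) × ℝ => tp v p.1 p.2 := by
  unfold tp dv
  fun_prop

lemma eg_tp {F : (ι → ℝ) → ℝ} (hF : EG F) (v : ι → ℝ) (t : ℝ) : EG fun x => F (tp v x t) := by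
  obtain ⟨C, a, hC, ha, hb⟩ := hF.bdd
  refine ⟨hF.meas.comp ((cont_tp v).comp (Continuous.prodMk_left t)).measurable,
    C * Real.exp (a * (‖v‖ * |t|)), a * (1 + (∑ i, |v i|) * ‖v‖), by positivity, by positivity,
    fun x => ?_⟩
  refine (hb _).trans ?_
  rw [mul_assoc, ← Real.exp_add]
  refine mul_le_mul_of_nonneg_left (Real.exp_le_exp.2 ?_) hC
  have := mul_le_mul_of_nonneg_left (norm_tp_le v x t) ha
  calc a * ‖tp v x t‖ ≤ a * ((1 + (∑ i, |v i|) * ‖v‖) * ‖x‖ + ‖v‖ * |t|) := this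
    _ = _ := by ring

lemma pr_bdd {F : (ι → ℝ) → ℝ} (hF : EG F) (v : ι → ℝ) :
    ∃ C a : ℝ, 0 ≤ C ∧ 0 ≤ a ∧ ∀ t, |pr v F t| ≤ C * Real.exp (a * |t|) := by
  obtain ⟨C, a, hC, ha, hb⟩ := hF.bdd
  set c := a * (1 + (∑ i, |v i|) * ‖v‖) with hc
  set K := ∫ x : ι → ℝ, Real.exp (c * ‖x‖) ∂(gI ι) with hK
  have hK0 : 0 ≤ K := integral_nonneg fun x => (Real.exp_pos _).le
  refine ⟨C * K, a * ‖v‖, by positivity, by positivity, fun t => ?_⟩
  unfold pr
  have h1 : ∀ x, |F (tp v x t)| ≤ C * Real.exp (a * ‖v‖ * |t|) * Real.exp (c * ‖x‖) := by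
    intro x
    refine (hb _).trans ?_
    rw [mul_assoc, ← Real.exp_add]
    refine mul_le_mul_of_nonneg_left (Real.exp_le_exp.2 ?_) hC
    have := mul_le_mul_of_nonneg_left (norm_tp_le v x t) ha
    calc a * ‖tp v x t‖ ≤ a * ((1 + (∑ i, |v i|) * ‖v‖) * ‖x‖ + ‖v‖ * |t|) := this
      _ = _ := by rw [hc]; ring
  calc |∫ x, F (tp v x t) ∂(gI ι)| ≤ ∫ x, |F (tp v x t)| ∂(gI ι) := by
        have := norm_integral_le_integral_norm (μ := gI ι) (fun x => F (tp v x t))
        simpa [Real.norm_eq_abs] using this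
    _ ≤ ∫ x, C * Real.exp (a * ‖v‖ * |t|) * Real.exp (c * ‖x‖) ∂(gI ι) :=
        integral_mono ((eg_tp hF v t).abs).integrable ((integrable_exp_norm c).const_mul _) h1
    _ = C * K * Real.exp (a * ‖v‖ * |t|) := by
        rw [integral_const_mul]; ring

lemma pr_cont {F : (ι → ℝ) → ℝ} (hF : EG F) (hc : Continuous F) (v : ι → ℝ) :
    Continuous (pr v F) := by
  obtain ⟨C, a, hC, ha, hb⟩ := hF.bdd
  refine continuous_iff_continuousAt.2 fun t0 => ?_
  set c := a * (1 + (∑ i, |v i|) * ‖v‖) with hcd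
  refine continuousAt_of_dominated (F := fun t x => F (tp v x t))
    (bound := fun x => C * Real.exp (a * ‖v‖ * (|t0| + 1)) * Real.exp (c * ‖x‖)) ?_ ?_ ?_ ?_
  · exact Filter.Eventually.of_forall fun t => (eg_tp hF v t).meas.aestronglyMeasurable
  · have hn : ∀ᶠ t in 𝓝 t0, |t| ≤ |t0| + 1 := by
      have : ∀ᶠ t in 𝓝 t0, |t - t0| < 1 := by
        have := Metric.ball_mem_nhds t0 (zero_lt_one' ℝ)
        filter_upwards [this] with t ht
        rwa [Metric.mem_ball, Real.dist_eq] at ht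
      filter_upwards [this] with t ht
      have h2 : |t| ≤ |t - t0| + |t0| := by
        calc |t| = |(t - t0) + t0| := by ring_nf
          _ ≤ _ := abs_add_le _ _
      linarith
    filter_upwards [hn] with t ht
    refine Filter.Eventually.of_forall fun x => ?_
    rw [Real.norm_eq_abs]
    refine (hb _).trans ?_
    rw [mul_assoc, ← Real.exp_add]
    refine mul_le_mul_of_nonneg_left (Real.exp_le_exp.2 ?_) hC
    have h3 := mul_le_mul_of_nonneg_left (norm_tp_le v x t) ha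
    have h4 : a * ‖v‖ * |t| ≤ a * ‖v‖ * (|t0| + 1) := by gcongr
    calc a * ‖tp v x t‖ ≤ a * ((1 + (∑ i, |v i|) * ‖v‖) * ‖x‖ + ‖v‖ * |t|) := h3
      _ = a * ‖v‖ * |t| + c * ‖x‖ := by rw [hcd]; ring
      _ ≤ _ := by linarith
  · exact (integrable_exp_norm c).const_mul _
  · refine Filter.Eventually.of_forall fun x => ?_
    have h5 : Continuous fun t => tp v x t := (cont_tp v).comp (Continuous.prodMk_right x)
    exact (hc.comp h5).continuousAt

lemma pr_cce {F : (ι → ℝ) → ℝ} (hF : EG F) (hc : Continuous F) (v : ι → ℝ) : CcE (pr v F) :=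
  cce_of (pr_cont hF hc v) (pr_bdd hF v)

lemma map_neg_gI : (gI ι).map (fun z => -z) = gI ι := by
  refine Measure.ext_of_charFunDual ?_
  ext L
  have h : (fun z : ι → ℝ => -z) = ((-ContinuousLinearMap.id ℝ (ι → ℝ) :
      (ι → ℝ) →L[ℝ] (ι → ℝ)) : (ι → ℝ) → (ι → ℝ)) := by
    funext z; simp
  rw [h, charFunDual_map, Vale.Agent.P146.H605.charFunDual_std_pi,
    Vale.Agent.P146.H605.charFunDual_std_pi]
  congr 3
  refine Finset.sum_congr rfl fun i _ => ?_
  simp

lemma int_neg {F : (ι → ℝ) → ℝ} (hF : EG F) : ∫ z, F (-z) ∂(gI ι) = ∫ z, F z ∂(gI ι) := by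
  conv_rhs => rw [← map_neg_gI]
  rw [integral_map measurable_neg.aemeasurable hF.meas.aestronglyMeasurable]

lemma int_odd {F : (ι → ℝ) → ℝ} (hF : EG F) (h : ∀ z, F (-z) = -F z) :
    ∫ z, F z ∂(gI ι) = 0 := by
  have := int_neg hF
  simp only [h, integral_neg] at this
  linarith

lemma tp_neg (v x : ι → ℝ) (t : ℝ) : tp v (-x) (-t) = -tp v x t := by
  funext j
  have : dv v (-x) = -dv v x := by simp [dv]
  simp only [tp, this, Pi.neg_apply]
  ring

lemma pr_odd {F : (ι → ℝ) → ℝ} (hF : EG F) (h : ∀ z, F (-z) = -F z) (v : ι → ℝ) (t : ℝ) :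
    pr v F (-t) = -pr v F t := by
  unfold pr
  rw [← int_neg (eg_tp hF v (-t))]
  simp only [tp_neg, h, integral_neg]

/-- Projection property. -/
theorem int_pr {v : ι → ℝ} (hv : ∑ i, v i ^ 2 = 1) {F : (ι → ℝ) → ℝ} (hF : EG F) {φ : ℝ → ℝ}
    (hφ : CcE φ) :
    ∫ z, φ (dv v z) * F z ∂(gI ι) = ∫ z, φ (dv v z) * pr v F (dv v z) ∂(gI ι) := by
  rw [int_tp hv ((eg_comp_dv hφ v).mul hF)]
  congr 1
  funext y
  simp only [dv_tp hv]
  rw [integral_const_mul]
  rfl

lemma pr_fun {v : ι → ℝ} (hv : ∑ i, v i ^ 2 = 1) (g : ℝ → ℝ) (t : ℝ) :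
    pr v (fun z => g (dv v z)) t = g t := by
  unfold pr
  simp only [dv_tp hv, integral_const, probReal_univ, one_smul]

/-- Jensen. -/
theorem pr_sq_le {v : ι → ℝ} (hv : ∑ i, v i ^ 2 = 1) {F : (ι → ℝ) → ℝ} (hF : EG F)
    (hc : Continuous F) :
    ∫ z, pr v F (dv v z) ^ 2 ∂(gI ι) ≤ ∫ z, F z ^ 2 ∂(gI ι) := by
  have hp := pr_cce hF hc v
  have ep := eg_comp_dv hp v
  have h0 : 0 ≤ ∫ z, (F z - pr v F (dv v z)) ^ 2 ∂(gI ι) := integral_nonneg fun z => sq_nonneg _
  have h1 := int_pr hv hF hp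
  have h2 := int4 (f := fun z => F z ^ 2 + pr v F (dv v z) ^ 2)
    (g := fun z => 2 * (pr v F (dv v z) * F z)) (h := fun _ => 0) (k := fun _ => 0)
    ((hF.pow 2).add (ep.pow 2)) ((ep.mul hF).const_mul 2) (EG.const 0) (EG.const 0)
  have h3 : ∫ z, (F z ^ 2 + pr v F (dv v z) ^ 2) ∂(gI ι) =
      ∫ z, F z ^ 2 ∂(gI ι) + ∫ z, pr v F (dv v z) ^ 2 ∂(gI ι) :=
    integral_add (hF.pow 2).integrable (ep.pow 2).integrable
  have h4 : ∫ z, (F z - pr v F (dv v z)) ^ 2 ∂(gI ι) = ∫ z,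
      ((F z ^ 2 + pr v F (dv v z) ^ 2) - 2 * (pr v F (dv v z) * F z) + (0 + 0)) ∂(gI ι) := by
    congr 1; funext z; ring
  have h5 : ∫ z, pr v F (dv v z) * pr v F (dv v z) ∂(gI ι) =
      ∫ z, pr v F (dv v z) ^ 2 ∂(gI ι) := by
    congr 1; funext z; ring
  rw [h4, h2, h3, integral_const_mul, h1, h5] at h0
  simp only [integral_zero, add_zero] at h0
  linarith

/-- Poincaré inequality in the directions orthogonal to `v`. -/
theorem pr_poincare {v : ι → ℝ} (hv : ∑ i, v i ^ 2 = 1) {F : (ι → ℝ) → ℝ}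
    {F' : ι → (ι → ℝ) → ℝ} (h : FD F F') (hF : EG F) (hF' : ∀ j, EG (F' j)) :
    ∫ z, (F z - pr v F (dv v z)) ^ 2 ∂(gI ι) ≤
      ∑ j, ∫ z, (F' j z - v j * ∑ k, v k * F' k z) ^ 2 ∂(gI ι) := by
  have hp := pr_cce hF h.cont v
  have ep := eg_comp_dv hp v
  have eP : ∀ j, EG fun z => F' j z - v j * ∑ k, v k * F' k z := fun j =>
    (hF' j).sub ((EG.sum Finset.univ fun k _ => (hF' k).const_mul _).const_mul _)
  rw [int_tp hv ((hF.sub ep).pow 2)]
  have e1 : ∀ j, ∫ z, (F' j z - v j * ∑ k, v k * F' k z) ^ 2 ∂(gI ι) =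
      ∫ y, ∫ x, (F' j (tp v x (dv v y)) - v j * ∑ k, v k * F' k (tp v x (dv v y))) ^ 2
        ∂(gI ι) ∂(gI ι) := fun j => int_tp hv ((eP j).pow 2)
  rw [Finset.sum_congr rfl fun j _ => e1 j]
  have hint : ∀ j, Integrable (fun y => ∫ x, (F' j (tp v x (dv v y)) -
      v j * ∑ k, v k * F' k (tp v x (dv v y))) ^ 2 ∂(gI ι)) (gI ι) := by
    intro j
    have hi : Integrable (fun z => (F' j z - v j * ∑ k, v k * F' k z) ^ 2)
        (((gI ι).prod (gI ι)).map (TL v)) := by
      rw [map_TL hv]; exact ((eP j).pow 2).integrable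
    have hi2 := (integrable_map_measure hi.aestronglyMeasurable
      (TL v).continuous.aemeasurable).1 hi
    have hi3 := hi2.swap.integral_prod_left
    refine hi3.congr (Filter.Eventually.of_forall fun y => ?_)
    simp only [Function.comp_apply, Prod.swap, TL_apply]
  have hint0 : Integrable (fun y => ∫ x, (F (tp v x (dv v y)) -
      pr v F (dv v (tp v x (dv v y)))) ^ 2 ∂(gI ι)) (gI ι) := by
    have hi : Integrable (fun z => (F z - pr v F (dv v z)) ^ 2)
        (((gI ι).prod (gI ι)).map (TL v)) := by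
      rw [map_TL hv]; exact ((hF.sub ep).pow 2).integrable
    have hi2 := (integrable_map_measure hi.aestronglyMeasurable
      (TL v).continuous.aemeasurable).1 hi
    have hi3 := hi2.swap.integral_prod_left
    refine hi3.congr (Filter.Eventually.of_forall fun y => ?_)
    simp only [Function.comp_apply, Prod.swap, TL_apply]
  rw [← integral_finsetSum _ fun j _ => hint j]
  refine integral_mono hint0 (integrable_finsetSum _ fun j _ => hint j) fun y => ?_
  simp only [dv_tp hv]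
  -- Poincaré in `x` at fixed `y`
  have hg : FD (fun x => F (tp v x (dv v y)))
      (fun j x => F' j (tp v x (dv v y)) - v j * ∑ k, v k * F' k (tp v x (dv v y))) := by
    intro x
    have h1 : HasFDerivAt (fun x : ι → ℝ => tp v x (dv v y))
        (ContinuousLinearMap.id ℝ (ι → ℝ) - (lv v).smulRight v) x := by
      have h2 : (fun x : ι → ℝ => tp v x (dv v y)) = fun x =>
          (ContinuousLinearMap.id ℝ (ι → ℝ) - (lv v).smulRight v) x + (dv v y) • v := by
        funext x j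
        simp only [tp, _root_.sub_apply, ContinuousLinearMap.id_apply,
          ContinuousLinearMap.smulRight_apply, Pi.add_apply, Pi.sub_apply, Pi.smul_apply,
          smul_eq_mul, lv_apply]
        ring
      rw [h2]
      exact (ContinuousLinearMap.hasFDerivAt _).add_const _
    refine ((h _).comp x h1).congr_fderiv ?_
    refine clm_ext fun i => ?_
    rw [sum_proj_single]
    have h3 : (ContinuousLinearMap.id ℝ (ι → ℝ) - (lv v).smulRight v) (Pi.single i 1) =
        (Pi.single i (1 : ℝ) : ι → ℝ) - v i • v := by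
      have : lv v (Pi.single i 1) = v i := by
        rw [lv_apply]; simp [dv, Pi.single_apply]
      simp only [_root_.sub_apply, ContinuousLinearMap.id_apply,
        ContinuousLinearMap.smulRight_apply, this]
    rw [ContinuousLinearMap.comp_apply, h3, map_sub, map_smul, sum_proj_single]
    simp only [_root_.sum_apply, _root_.smul_apply, ContinuousLinearMap.proj_apply, smul_eq_mul]
    congr 1
    congr 1
    exact Finset.sum_congr rfl fun k _ => mul_comm _ _
  have h4 := cc_var_le_one (eg_tp hF v (dv v y)) (fun e => hg.pd e)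
    (fun e => eg_tp (eP e) v (dv v y))
  exact h4

end Vale.Agent.P146.H329
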