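import Vale.Agent.P146.H329.Fb2

/-!
Output of the fixed bulk block: projections and the G-trick for the profile of a gradient field.
-/

open MeasureTheory ProbabilityTheory Filter Topology

namespace Vale.Agent.P146.H329

open Vale.Agent.P157.Lv

set_option linter.unusedSectionVars false

variable {ι : Type} [Fintype ι] [DecidableEq ι]

/-- the profile of the field `a` in the direction `v` -/
noncomputable def prof (v : ι → ℝ) (a : ι → (ι → ℝ) → ℝ) : ℝ → ℝ :=
  pr v fun z => ∑ i, v i * a i z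

/-- mean Jacobian -/
noncomputable def MH (H : ι → ι → (ι → ℝ) → ℝ) (i j : ι) : ℝ := ∫ z, H i j z ∂(gI ι)

noncomputable def mv (v : ι → ℝ) (H : ι → ι → (ι → ℝ) → ℝ) : ℝ :=
  ∑ i, ∑ j, v i * MH H i j * v j

/-- the nonlinear part of the profile -/
noncomputable def al (v : ι → ℝ) (a : ι → (ι → ℝ) → ℝ) (H : ι → ι → (ι → ℝ) → ℝ)
    (z : ι → ℝ) : ℝ := prof v a (dv v z) - mv v H * dv v z

/-- the nonlinear part of the field -/
noncomputable def nl (a : ι → (ι → ℝ) → ℝ) (H : ι → ι → (ι → ℝ) → ℝ) (i : ι) (z : ι → ℝ) : ℝ :=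
  a i z - ∑ j, MH H i j * z j

variable {a d : ι → (ι → ℝ) → ℝ} {H K : ι → ι → (ι → ℝ) → ℝ} {v : ι → ℝ}

lemma MH_symm (ha : GF a H) (i j : ι) : MH H i j = MH H j i := by
  unfold MH
  congr 1
  funext z
  exact ha.sym i j z

lemma dv_single (i : ι) (z : ι → ℝ) : dv (Pi.single i 1) z = z i := by
  simp [dv, Pi.single_apply]

lemma GF.va (ha : GF a H) (v : ι → ℝ) : EG fun z => ∑ i, v i * a i z :=
  EG.sum Finset.univ fun i _ => (ha.eg i).const_mul _

lemma GF.vfd (ha : GF a H) (v : ι → ℝ) :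
    FD (fun z => ∑ i, v i * a i z) (fun j z => ∑ i, v i * H i j z) := FD.lsum ha.fd v

lemma GF.vodd (ha : GF a H) (v : ι → ℝ) (z : ι → ℝ) :
    ∑ i, v i * a i (-z) = -∑ i, v i * a i z := by
  rw [← Finset.sum_neg_distrib]
  exact Finset.sum_congr rfl fun i _ => by rw [ha.odd]; ring

lemma GF.oe (ha : GF a H) (v : ι → ℝ) : OE (prof v a) :=
  ⟨pr_cont (ha.va v) (ha.vfd v).cont v, pr_odd (ha.va v) (ha.vodd v) v, pr_bdd (ha.va v) v⟩

lemma GF.cce (ha : GF a H) (v : ι → ℝ) : CcE (prof v a) :=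
  cce_of (ha.oe v).cont (ha.oe v).bdd

lemma GF.ga (ha : GF a H) (v : ι → ℝ) : GA (Gt (prof v a)) (prof v a) :=
  ⟨Gt_deriv (ha.oe v), Gt_cce (ha.oe v), ha.cce v⟩

/-- Stein for the components. -/
lemma GF.stein (ha : GF a H) (i j : ι) : ∫ z, z j * a i z ∂(gI ι) = MH H i j :=
  ((ha.fd i).pd j).stein (ha.eg i) (ha.egH i j)

lemma int_zz (i j : ι) : ∫ z : ι → ℝ, z j * z i ∂(gI ι) = if i = j then 1 else 0 := by
  have h := (PD.coord (e := j) i).stein (EG.coord i) (EG.const _)
  rw [h, integral_const, probReal_univ, one_smul]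

lemma eg_lin (c : ι → ℝ) : EG fun z : ι → ℝ => ∑ j, c j * z j :=
  EG.sum Finset.univ fun j _ => (EG.coord j).const_mul _

lemma GF.eg_nl (ha : GF a H) (i : ι) : EG (nl a H i) := (ha.eg i).sub (eg_lin _)

lemma int_z_lin (c : ι → ℝ) (j : ι) : ∫ z : ι → ℝ, z j * ∑ k, c k * z k ∂(gI ι) = c j := by
  have e1 : (fun z : ι → ℝ => z j * ∑ k, c k * z k) = fun z => ∑ k, c k * (z j * z k) := by
    funext z
    rw [Finset.mul_sum]
    exact Finset.sum_congr rfl fun k _ => by ring
  rw [e1, integral_finsetSum _ fun k _ =>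
    (((EG.coord j).mul (EG.coord k)).const_mul (c k)).integrable]
  simp only [integral_const_mul, int_zz]
  simp

/-- **The nonlinear part is orthogonal to the coordinates.** -/
theorem stein_nl (ha : GF a H) (i j : ι) : ∫ z, z j * nl a H i z ∂(gI ι) = 0 := by
  have e1 : (fun z => z j * nl a H i z) = fun z => z j * a i z - z j * ∑ k, MH H i k * z k := by
    funext z
    unfold nl
    ring
  have e2 : ∫ z, (z j * a i z - z j * ∑ k, MH H i k * z k) ∂(gI ι) =
      ∫ z, z j * a i z ∂(gI ι) - ∫ z, z j * ∑ k, MH H i k * z k ∂(gI ι) :=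
    integral_sub ((EG.coord j).mul (ha.eg i)).integrable
      ((EG.coord j).mul (eg_lin _)).integrable
  rw [e1, e2, ha.stein, int_z_lin, sub_self]

/-- the mean of the profile -/
theorem prof_mean (ha : GF a H) (hv : ∑ i, v i ^ 2 = 1) :
    ∫ z, dv v z * prof v a (dv v z) ∂(gI ι) = mv v H := by
  have h1 := int_pr hv (ha.va v) CcE.id
  have h2 := stein_dir (ha.vfd v) (ha.va v)
    (fun j => EG.sum Finset.univ fun i _ => (ha.egH i j).const_mul _) v
  unfold prof
  rw [← h1, h2]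
  have e1 : (fun z => ∑ j, v j * ∑ i, v i * H i j z) =
      fun z => ∑ i, ∑ j, v i * v j * H i j z := by
    funext z
    rw [Finset.sum_comm]
    refine Finset.sum_congr rfl fun i _ => ?_
    rw [Finset.mul_sum]
    exact Finset.sum_congr rfl fun j _ => by ring
  rw [e1, integral_finsetSum _ fun i _ =>
    (EG.sum Finset.univ fun j _ => (ha.egH i j).const_mul _).integrable]
  unfold mv
  refine Finset.sum_congr rfl fun i _ => ?_
  rw [integral_finsetSum _ fun j _ => ((ha.egH i j).const_mul _).integrable]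
  refine Finset.sum_congr rfl fun j _ => ?_
  rw [integral_const_mul]
  unfold MH
  ring

/-- **G-trick for the profile of a gradient field.** -/
theorem gtrick (ha : GF a H) (hd : GF d K) (hv : ∑ i, v i ^ 2 = 1) :
    (∫ z, al v a H z ^ 2 ∂(gI ι)) *
      (∑ i, (∫ z, prof v a (dv v z) * d i z ∂(gI ι) -
        v i * ∑ j, v j * ∫ z, prof v a (dv v z) * d j z ∂(gI ι)) ^ 2) ≤
    2 * (∫ z, prof v a (dv v z) ^ 2 ∂(gI ι)) *
      ((∫ z, prof v a (dv v z) ^ 2 ∂(gI ι)) * (∫ z, (∑ i, v i * d i z) ^ 2 ∂(gI ι)) -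
        ∑ i, (∫ z, prof v a (dv v z) * d i z ∂(gI ι)) ^ 2) :=
  (ha.ga v).gtrick hd hv (prof_mean ha hv)

theorem prof_sq_le (ha : GF a H) (hv : ∑ i, v i ^ 2 = 1) :
    ∫ z, prof v a (dv v z) ^ 2 ∂(gI ι) ≤ ∫ z, (∑ i, v i * a i z) ^ 2 ∂(gI ι) :=
  pr_sq_le hv (ha.va v) (ha.vfd v).cont

lemma int_coord (j : ι) : ∫ z : ι → ℝ, z j ∂(gI ι) = 0 :=
  int_odd (EG.coord j) fun _ => rfl

lemma int_lin (c : ι → ℝ) : ∫ z : ι → ℝ, ∑ j, c j * z j ∂(gI ι) = 0 := by
  rw [integral_finsetSum _ fun j _ => ((EG.coord j).const_mul _).integrable]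
  simp [integral_const_mul, int_coord]

/-- profile of a linear form -/
lemma pr_lin (q : ι → ℝ) (t : ℝ) : pr v (fun z => ∑ j, q j * z j) t = (∑ j, q j * v j) * t := by
  unfold pr
  have e1 : (fun x : ι → ℝ => ∑ j, q j * tp v x t j) = fun x =>
      ∑ j, (q j - (∑ k, q k * v k) * v j) * x j + (∑ k, q k * v k) * t := by
    funext x
    have h1 : ∑ j, q j * tp v x t j = ∑ j, q j * x j + (t - dv v x) * ∑ k, q k * v k := by
      rw [Finset.mul_sum, ← Finset.sum_add_distrib]
      exact Finset.sum_congr rfl fun j _ => by unfold tp; ring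
    have h2 : ∑ j, (q j - (∑ k, q k * v k) * v j) * x j =
        ∑ j, q j * x j - (∑ k, q k * v k) * dv v x := by
      unfold dv
      rw [Finset.mul_sum, ← Finset.sum_sub_distrib]
      exact Finset.sum_congr rfl fun j _ => by ring
    rw [h1, h2]; ring
  have e2 : ∫ x : ι → ℝ, (∑ j, (q j - (∑ k, q k * v k) * v j) * x j +
      (∑ k, q k * v k) * t) ∂(gI ι) = ∫ x : ι → ℝ,
      ∑ j, (q j - (∑ k, q k * v k) * v j) * x j ∂(gI ι) +
      ∫ _ : ι → ℝ, (∑ k, q k * v k) * t ∂(gI ι) :=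
    integral_add (eg_lin _).integrable (integrable_const _)
  rw [e1, e2, int_lin, integral_const, probReal_univ, one_smul, zero_add]

/-- **The nonlinear part of the profile is orthogonal to the coordinates.** -/
theorem al_perp (ha : GF a H) (hv : ∑ i, v i ^ 2 = 1) (j : ι) :
    ∫ z, al v a H z * z j ∂(gI ι) = 0 := by
  have hc : CcE fun t => prof v a t - mv v H * t := (ha.cce v).sub (CcE.id.cm _)
  have h1 := int_pr hv (EG.coord j) hc
  have h2 : ∀ t, pr v (fun z => z j) t = v j * t := by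
    intro t
    have := pr_lin (v := v) (Pi.single j 1) t
    simpa [Pi.single_apply] using this
  simp only [h2] at h1
  have e1 : ∫ z, al v a H z * z j ∂(gI ι) =
      ∫ z, (prof v a (dv v z) - mv v H * dv v z) * z j ∂(gI ι) := rfl
  rw [e1, h1]
  have e2 : (fun z => (prof v a (dv v z) - mv v H * dv v z) * (v j * dv v z)) = fun z =>
      v j * (dv v z * prof v a (dv v z)) - v j * mv v H * (dv v z * dv v z) := by
    funext z; ring
  have hzz : ∫ z, dv v z * dv v z ∂(gI ι) = 1 := by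
    have := stein_v (f := fun t => t) (f' := fun _ => 1) (v := v) (fun t => hasDerivAt_id' t)
      CcE.id (CcE.const 1) hv
    rw [this, integral_const, probReal_univ, one_smul]
  have e3 : ∫ z, (v j * (dv v z * prof v a (dv v z)) - v j * mv v H * (dv v z * dv v z))
      ∂(gI ι) = ∫ z, v j * (dv v z * prof v a (dv v z)) ∂(gI ι) -
      ∫ z, v j * mv v H * (dv v z * dv v z) ∂(gI ι) :=
    integral_sub (((eg_dv v).mul (eg_comp_dv (ha.cce v) v)).const_mul _).integrable
      (((eg_dv v).mul (eg_dv v)).const_mul _).integrable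
  rw [e2, e3, integral_const_mul, integral_const_mul, prof_mean ha hv, hzz]
  ring

lemma sum_nl (_ : GF a H) (v z : ι → ℝ) :
    ∑ i, v i * nl a H i z = ∑ i, v i * a i z - ∑ j, (∑ i, v i * MH H i j) * z j := by
  unfold nl
  have : ∑ j, (∑ i, v i * MH H i j) * z j = ∑ i, v i * ∑ j, MH H i j * z j := by
    simp only [Finset.sum_mul, Finset.mul_sum]
    rw [Finset.sum_comm]
    refine Finset.sum_congr rfl fun i _ => Finset.sum_congr rfl fun j _ => by ring
  rw [this, ← Finset.sum_sub_distrib]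
  exact Finset.sum_congr rfl fun i _ => by ring

lemma GF.fd_nl (ha : GF a H) (i : ι) : FD (nl a H i) (fun j z => H i j z - MH H i j) := by
  intro y
  have h1 := (ha.fd i) y
  have h2 := fd_dv (fun j => MH H i j) y
  have h3 : nl a H i = fun z => a i z - dv (fun j => MH H i j) z := rfl
  rw [h3]
  refine (h1.sub h2).congr_fderiv ?_
  refine clm_ext fun k => ?_
  simp only [_root_.sub_apply, sum_proj_single]

/-- the profile of `v·nl` -/
lemma pr_nl (ha : GF a H) (hv : ∑ i, v i ^ 2 = 1) (t : ℝ) :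
    pr v (fun z => ∑ i, v i * nl a H i z) t = prof v a t - mv v H * t := by
  have h1 : (fun z => ∑ i, v i * nl a H i z) =
      fun z => ∑ i, v i * a i z - ∑ j, (∑ i, v i * MH H i j) * z j := by
    funext z; exact sum_nl ha v z
  have h2 : pr v (fun z => ∑ i, v i * a i z - ∑ j, (∑ i, v i * MH H i j) * z j) t =
      pr v (fun z => ∑ i, v i * a i z) t -
        pr v (fun z => ∑ j, (∑ i, v i * MH H i j) * z j) t := by
    unfold pr
    exact integral_sub (eg_tp (ha.va v) v t).integrable (eg_tp (eg_lin _) v t).integrable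
  rw [h1, h2, pr_lin]
  unfold prof mv
  congr 2
  simp only [Finset.sum_mul]
  rw [Finset.sum_comm]

/-- `E al² ≤ E (v·a^nl)²`. -/
theorem eta_le (ha : GF a H) (hv : ∑ i, v i ^ 2 = 1) :
    ∫ z, al v a H z ^ 2 ∂(gI ι) ≤ ∫ z, (∑ i, v i * nl a H i z) ^ 2 ∂(gI ι) := by
  have e : EG fun z => ∑ i, v i * nl a H i z :=
    EG.sum Finset.univ fun i _ => (ha.eg_nl i).const_mul _
  have c : Continuous fun z => ∑ i, v i * nl a H i z := (FD.lsum ha.fd_nl v).cont
  have := pr_sq_le hv e c
  simp only [pr_nl ha hv] at this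
  exact this

/-- `E |a^nl - v al|² ≤ 2 E |P (H - E H)|²`. -/
theorem eps1_le (ha : GF a H) (hv : ∑ i, v i ^ 2 = 1) :
    ∫ z, ∑ i, (nl a H i z - v i * al v a H z) ^ 2 ∂(gI ι) ≤
      2 * ∑ i, ∑ j, ∫ z, ((H i j z - MH H i j) -
        v i * ∑ k, v k * (H k j z - MH H k j)) ^ 2 ∂(gI ι) := by
  have hc : CcE fun t => prof v a t - mv v H * t := (ha.cce v).sub (CcE.id.cm _)
  have eal : EG (al v a H) := eg_comp_dv hc v
  have env : EG fun z => ∑ i, v i * nl a H i z :=
    EG.sum Finset.univ fun i _ => (ha.eg_nl i).const_mul _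
  have eHf : ∀ i j, EG fun z => H i j z - MH H i j := fun i j =>
    (ha.egH i j).sub (EG.const _)
  have ePn : ∀ i, EG fun z => nl a H i z - v i * ∑ k, v k * nl a H k z := fun i =>
    (ha.eg_nl i).sub (env.const_mul _)
  have ePH : ∀ i j, EG fun z => (H i j z - MH H i j) - v i * ∑ k, v k * (H k j z - MH H k j) :=
    fun i j => (eHf i j).sub ((EG.sum Finset.univ fun k _ => (eHf k j).const_mul _).const_mul _)
  -- pointwise decomposition
  have e1 : ∀ z, ∑ i, (nl a H i z - v i * al v a H z) ^ 2 =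
      ∑ i, (nl a H i z - v i * ∑ k, v k * nl a H k z) ^ 2 +
        (∑ k, v k * nl a H k z - al v a H z) ^ 2 := by
    intro z
    refine sum_sq_dec (v := v) (R := fun i => nl a H i z - v i * ∑ k, v k * nl a H k z)
      (w := fun i => nl a H i z - v i * al v a H z) (fun i => by ring) ?_ hv
    have : ∑ i, v i * (nl a H i z - v i * ∑ k, v k * nl a H k z) =
        ∑ i, v i * nl a H i z - (∑ k, v k * nl a H k z) * ∑ i, v i ^ 2 := by
      rw [Finset.mul_sum, ← Finset.sum_sub_distrib]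
      exact Finset.sum_congr rfl fun i _ => by ring
    rw [this, hv]; ring
  have e2 : ∫ z, ∑ i, (nl a H i z - v i * al v a H z) ^ 2 ∂(gI ι) =
      ∑ i, ∫ z, (nl a H i z - v i * ∑ k, v k * nl a H k z) ^ 2 ∂(gI ι) +
        ∫ z, (∑ k, v k * nl a H k z - al v a H z) ^ 2 ∂(gI ι) := by
    have f1 : ∫ z, ∑ i, (nl a H i z - v i * al v a H z) ^ 2 ∂(gI ι) =
        ∫ z, (∑ i, (nl a H i z - v i * ∑ k, v k * nl a H k z) ^ 2 +
        (∑ k, v k * nl a H k z - al v a H z) ^ 2) ∂(gI ι) := by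
      congr 1; funext z; exact e1 z
    have f2 : ∫ z, (∑ i, (nl a H i z - v i * ∑ k, v k * nl a H k z) ^ 2 +
        (∑ k, v k * nl a H k z - al v a H z) ^ 2) ∂(gI ι) =
        ∫ z, ∑ i, (nl a H i z - v i * ∑ k, v k * nl a H k z) ^ 2 ∂(gI ι) +
        ∫ z, (∑ k, v k * nl a H k z - al v a H z) ^ 2 ∂(gI ι) :=
      integral_add (EG.sum Finset.univ fun i _ => (ePn i).pow 2).integrable
        ((env.sub eal).pow 2).integrable
    rw [f1, f2, integral_finsetSum _ fun i _ => ((ePn i).pow 2).integrable]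
  -- perpendicular part
  have fdP : ∀ i, FD (fun z => nl a H i z - v i * ∑ k, v k * nl a H k z)
      (fun j z => (H i j z - MH H i j) - v i * ∑ k, v k * (H k j z - MH H k j)) := by
    intro i y
    have h1 := (ha.fd_nl i) y
    have h2 := ((FD.lsum ha.fd_nl v) y).const_mul (v i)
    refine (h1.sub h2).congr_fderiv ?_
    refine clm_ext fun k => ?_
    simp only [_root_.sub_apply, _root_.smul_apply, sum_proj_single, smul_eq_mul]
  have hodd : ∀ i z, nl a H i (-z) = -nl a H i z := by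
    intro i z
    unfold nl
    rw [ha.odd]
    simp only [Pi.neg_apply, mul_neg, Finset.sum_neg_distrib]
    ring
  have hmean : ∀ i, ∫ z, (nl a H i z - v i * ∑ k, v k * nl a H k z) ∂(gI ι) = 0 := by
    intro i
    refine int_odd (ePn i) fun z => ?_
    simp only [hodd, mul_neg, Finset.sum_neg_distrib]
    ring
  have p1 : ∀ i, ∫ z, (nl a H i z - v i * ∑ k, v k * nl a H k z) ^ 2 ∂(gI ι) ≤
      ∑ j, ∫ z, ((H i j z - MH H i j) - v i * ∑ k, v k * (H k j z - MH H k j)) ^ 2 ∂(gI ι) := by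
    intro i
    have := cc_var_le_one (ePn i) (fun e => (fdP i).pd e) (fun e => ePH i e)
    simpa only [hmean, sub_zero] using this
  -- parallel part
  have p2 : ∫ z, (∑ k, v k * nl a H k z - al v a H z) ^ 2 ∂(gI ι) ≤
      ∑ i, ∑ j, ∫ z, ((H i j z - MH H i j) - v i * ∑ k, v k * (H k j z - MH H k j)) ^ 2
        ∂(gI ι) := by
    have h1 := pr_poincare hv (FD.lsum ha.fd_nl v) env
      (fun j => EG.sum Finset.univ fun i _ => (eHf i j).const_mul _)
    simp only [pr_nl ha hv] at h1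
    refine h1.trans ?_
    refine Finset.sum_le_sum fun i _ => ?_
    rw [← integral_finsetSum _ fun j _ => ((ePH i j).pow 2).integrable]
    refine integral_mono
      (((EG.sum Finset.univ fun k _ => (eHf k i).const_mul (v k)).sub
        ((EG.sum Finset.univ fun k _ => (EG.sum Finset.univ fun l _ =>
          (eHf l k).const_mul (v l)).const_mul (v k)).const_mul (v i))).pow 2).integrable
      (EG.sum Finset.univ fun j _ => (ePH i j).pow 2).integrable fun z => ?_
    have e3 : ∑ k, v k * (H k i z - MH H k i) -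
        v i * ∑ k, v k * ∑ l, v l * (H l k z - MH H l k) =
        ∑ j, v j * ((H i j z - MH H i j) - v i * ∑ k, v k * (H k j z - MH H k j)) := by
      have hs : ∀ k l, H k l z - MH H k l = H l k z - MH H l k := fun k l => by
        rw [ha.sym k l z, MH_symm ha k l]
      have g1 : ∑ j, v j * ((H i j z - MH H i j) - v i * ∑ k, v k * (H k j z - MH H k j)) =
          ∑ j, v j * (H i j z - MH H i j) -
            v i * ∑ j, v j * ∑ k, v k * (H k j z - MH H k j) := by
        rw [Finset.mul_sum, ← Finset.sum_sub_distrib]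
        exact Finset.sum_congr rfl fun j _ => by ring
      rw [g1]
      congr 1
      exact Finset.sum_congr rfl fun k _ => by rw [hs k i]
    rw [e3]
    refine (Finset.sum_mul_sq_le_sq_mul_sq _ _ _).trans ?_
    rw [hv, one_mul]
  rw [e2]
  have p3 := Finset.sum_le_sum fun i (_ : i ∈ Finset.univ) => p1 i
  linarith

/-- lower bound for the nonlinear part of the profile by a test function -/
theorem eta_ge (ha : GF a H) (hv : ∑ i, v i ^ 2 = 1) {φ : ℝ → ℝ} (hφ : CcE φ)
    (h0 : ∫ z, φ (dv v z) * dv v z ∂(gI ι) = 0) :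
    (∫ z, (∑ i, v i * a i z) * φ (dv v z) ∂(gI ι)) ^ 2 ≤
      (∫ z, al v a H z ^ 2 ∂(gI ι)) * ∫ z, φ (dv v z) ^ 2 ∂(gI ι) := by
  have hc : CcE fun t => prof v a t - mv v H * t := (ha.cce v).sub (CcE.id.cm _)
  have eal : EG (al v a H) := eg_comp_dv hc v
  have eφ := eg_comp_dv hφ v
  have h1 := int_pr hv (ha.va v) hφ
  have h2 : ∫ z, (∑ i, v i * a i z) * φ (dv v z) ∂(gI ι) =
      ∫ z, al v a H z * φ (dv v z) ∂(gI ι) := by
    have e1 : ∫ z, (∑ i, v i * a i z) * φ (dv v z) ∂(gI ι) =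
        ∫ z, φ (dv v z) * ∑ i, v i * a i z ∂(gI ι) := by
      congr 1; funext z; ring
    have e2 : ∫ z, φ (dv v z) * pr v (fun z => ∑ i, v i * a i z) (dv v z) ∂(gI ι) =
        ∫ z, (al v a H z * φ (dv v z) + mv v H * (φ (dv v z) * dv v z)) ∂(gI ι) := by
      congr 1; funext z
      unfold al prof
      ring
    have e3 : ∫ z, (al v a H z * φ (dv v z) + mv v H * (φ (dv v z) * dv v z)) ∂(gI ι) =
        ∫ z, al v a H z * φ (dv v z) ∂(gI ι) +
          ∫ z, mv v H * (φ (dv v z) * dv v z) ∂(gI ι) :=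
      integral_add (eal.mul eφ).integrable ((eφ.mul (eg_dv v)).const_mul _).integrable
    rw [e1, h1, e2, e3, integral_const_mul, h0, mul_zero, add_zero]
  rw [h2]
  -- Cauchy-Schwarz
  have hq : ∀ s : ℝ, 0 ≤ (∫ z, al v a H z ^ 2 ∂(gI ι)) * (s * s) +
      (-(2 * ∫ z, al v a H z * φ (dv v z) ∂(gI ι))) * s +
      ∫ z, φ (dv v z) ^ 2 ∂(gI ι) := by
    intro s
    have h3 : 0 ≤ ∫ z, (s * al v a H z - φ (dv v z)) ^ 2 ∂(gI ι) :=
      integral_nonneg fun z => sq_nonneg _
    have h4 := int4 (f := fun z => s ^ 2 * al v a H z ^ 2)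
      (g := fun z => 2 * s * (al v a H z * φ (dv v z))) (h := fun z => φ (dv v z) ^ 2)
      (k := fun _ => 0) ((eal.pow 2).const_mul _) ((eal.mul eφ).const_mul _) (eφ.pow 2)
      (EG.const 0)
    have h5 : ∫ z, (s * al v a H z - φ (dv v z)) ^ 2 ∂(gI ι) = ∫ z,
        (s ^ 2 * al v a H z ^ 2 - 2 * s * (al v a H z * φ (dv v z)) +
          (φ (dv v z) ^ 2 + 0)) ∂(gI ι) := by
      congr 1; funext z; ring
    rw [h5, h4, integral_const_mul, integral_const_mul, integral_zero, add_zero] at h3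
    linarith
  have := discrim_le_zero hq
  unfold discrim at this
  nlinarith

end Vale.Agent.P146.H329
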