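import Vale.Agent.P146.H329.Bk2
import Vale.Agent.P146.H191.F1S

/-!
P146, plan R2, row F2: the column of a site as an odd gradient field of its own row (one row only,
no second site), and the sizes of its nonlinear parts in the letters of the 4-tensor. The letters
of the two-row version are used at `b' = b`.
-/

open Matrix MeasureTheory ProbabilityTheory

set_option linter.unusedSectionVars false

namespace Vale.Agent.P146.H329

open Vale.Agent.P157.Lv Vale.Agent.P146.H425 Vale.Agent.P146.H325 Vale.Agent.P146.H712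
  Vale.Agent.P146.R1 Vale.Agent.P146.R1C Vale.Agent.P146.Cum Vale.Agent.P146.H332
  Vale.Agent.P146.H522 Vale.Agent.P146.H633 Vale.Agent.P146.R1S

variable {n : ℕ} {k x s Γ η : ℝ} {b : Fin n}

/-- the column `b` as a function of its own row, the rest of `z` is the bulk -/
noncomputable def ur (S : CS n k x) (s : ℝ) (b : Fin n) (z : Pair n → ℝ) (i : Fin n)
    (y : Fin n → ℝ) : ℝ := H191.Uz S s b i (put b y z)

/-- its Jacobian -/
noncomputable def jr (S : CS n k x) (s : ℝ) (b : Fin n) (z : Pair n → ℝ) (i j : Fin n)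
    (y : Fin n → ℝ) : ℝ := k * S.H s b (put b y z) i j

lemma H_row' (S : CS n k x) (hs : 0 < s) (b : Fin n) (z : Pair n → ℝ) (j : Fin n) :
    S.H s b z b j = 0 := by rw [S.H_comm, S.H_row hs]

lemma gf_ur (S : CS n k x) (hs : 0 < s) (b : Fin n) (z : Pair n → ℝ) :
    GF (ur S s b z) (jr S s b z) := by
  have r := rowIn_S S hs
  refine ⟨fun i y => ?_, fun i => eg_put (H191.eg_Uz S s b i) b z,
    fun i j => eg_put ((r.egH b i j).const_mul k) b z,
    fun i j => continuous_const.mul ((r.cH b i j).comp (cont_put b z)), fun i j y => ?_,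
    fun i y => ?_⟩
  · by_cases hi : i = b
    · subst hi
      have e1 : ur S s i z i = fun _ => 0 := by
        funext y; exact H191.Uz_self S s i _
      have e2 : (H785.lf fun j => jr S s i z i j y) = 0 := by
        ext w
        rw [H785.lf_apply]
        unfold jr
        simp [H_row' S hs]
      rw [e1]
      exact (hasFDerivAt_const (0 : ℝ) y).congr_fderiv e2.symm
    · have e1 : ur S s b z i = fun y => S.A s (put b y z) i b := by
        funext y; unfold ur H191.Uz; rw [if_neg hi]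
      rw [e1]
      refine fd_row (fun y => r.fdA i b y) (K := fun j z => k * S.H s b z i j) (fun z => ?_)
        (fun e he z => ?_) z y
      · rw [S.H_row hs, mul_zero]
      · exact r.rowD b e he z i
  · unfold jr
    rw [S.H_comm]
  · unfold ur H191.Uz
    rw [put_neg]
    by_cases hi : i = b
    · simp [hi]
    · rw [if_neg hi, if_neg hi]
      exact r.flA b i _ hi

/-- the standardized field -/
noncomputable def us (S : CS n k x) (s : ℝ) (b : Fin n) (z : Pair n → ℝ) (i : Fin n)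
    (y : Fin n → ℝ) : ℝ := ur S s b z i (√s • y)

/-- its Jacobian -/
noncomputable def js (S : CS n k x) (s : ℝ) (b : Fin n) (z : Pair n → ℝ) (i j : Fin n)
    (y : Fin n → ℝ) : ℝ := √s * jr S s b z i j (√s • y)

lemma gf_us (S : CS n k x) (hs : 0 < s) (b : Fin n) (z : Pair n → ℝ) :
    GF (us S s b z) (js S s b z) := H546.GF_scale (gf_ur S hs b z) √s

/-- the mean row gradient at a fixed bulk -/
noncomputable def mhr (S : CS n k x) (s : ℝ) (b : Fin n) (z : Pair n → ℝ) (i j : Fin n) : ℝ :=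
  AvP s (row b) (fun u => S.H s b u i j) z

lemma MH_js (S : CS n k x) (hs : 0 < s) (b : Fin n) (z : Pair n → ℝ) (i j : Fin n) :
    MH (js S s b z) i j = √s * (k * mhr S s b z i j) := by
  unfold MH js jr mhr
  rw [integral_const_mul, integral_const_mul, AvP_row ((rowIn_S S hs).egH b i j)]

/-- The variance of the row gradient over its own row, the left index contracted with `P`. -/
noncomputable def vR (S : CS n k x) (s : ℝ) (b : Fin n) (P : Fin n → Fin n → ℝ)
    (z : Pair n → ℝ) : ℝ :=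
  AvP s (row b) (fun u => ∑ i, ∑ j, (∑ l, P i l *
    (S.H s b u l j - AvP s (row b) (fun u => S.H s b u l j) z)) ^ 2) z

lemma AvP_empty' {f : (Pair n → ℝ) → ℝ} (s : ℝ) (z : Pair n → ℝ) : AvP s ∅ f z = f z := by
  unfold AvP
  have e : ∀ g : Pair n → ℝ, H712.sw ∅ z (√s • g) = z := fun g => by
    funext e
    unfold H712.sw
    simp
  simp only [e]
  simp

/-- **(I2), one row.** -/
theorem vR_le (S : CS n k x) (hFn : Fn k SkS (uu x s S.F) (S.mu s) Γ) (hs : 0 < s) (hη : 0 < η)
    (P : Matrix (Fin n) (Fin n) ℝ) (b : Fin n) (z : Pair n → ℝ) :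
    vR S s b P z ≤ s ^ 2 * (k ^ 4 * (6 * Γ ^ 3) ^ 2) *
      ((η⁻¹) ^ 3 / 4 * AvP s (row b) (qP S P s) z + 3 * η / 4 * AvP s (row b) (qT S s) z) := by
  have h := i2z hFn hs hη P ∅ b z
  simp only [Finset.union_empty, AvP_empty'] at h
  refine h.trans (le_of_eq ?_)
  rw [AvP_add ((eg_qP S P s).const_mul _) ((eg_qT S s).const_mul _), AvP_const_mul,
    AvP_const_mul]

/-- the sums of the squares of the contracted centred Jacobian -/
lemma sum_js (S : CS n k x) (hs : 0 < s) (b : Fin n) (z : Pair n → ℝ) (P : Fin n → Fin n → ℝ) :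
    ∑ i, ∑ j, ∫ y, (∑ l, P i l * (js S s b z l j y - MH (js S s b z) l j)) ^ 2 ∂(gI (Fin n)) =
      s * k ^ 2 * vR S s b P z := by
  have r := rowIn_S S hs
  have eg : ∀ i j, EG fun u => (∑ l, P i l * (S.H s b u l j - mhr S s b z l j)) ^ 2 :=
    fun i j => (EG.sum _ fun l _ => ((r.egH b l j).sub (EG.const _)).const_mul _).pow 2
  have e0 : vR S s b P z = ∑ i, ∑ j, AvP s (row b) (fun u => (∑ l, P i l *
      (S.H s b u l j - mhr S s b z l j)) ^ 2) z := by
    show AvP s (row b) (fun u => ∑ i, ∑ j, (∑ l, P i l *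
      (S.H s b u l j - mhr S s b z l j)) ^ 2) z = _
    rw [AvP_sum _ fun i _ => EG.sum _ fun j _ => eg i j]
    exact Finset.sum_congr rfl fun i _ => AvP_sum _ (fun j _ => eg i j) z
  rw [e0, Finset.mul_sum]
  refine Finset.sum_congr rfl fun i _ => ?_
  rw [Finset.mul_sum]
  refine Finset.sum_congr rfl fun j _ => ?_
  rw [AvP_row (eg i j), ← integral_const_mul]
  refine integral_congr_ae (Filter.Eventually.of_forall fun y => ?_)
  have e := Real.sq_sqrt hs.le
  have e1 : ∑ l, P i l * (js S s b z l j y - MH (js S s b z) l j) = √s * k *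
      ∑ l, P i l * (S.H s b (put b (√s • y) z) l j - mhr S s b z l j) := by
    rw [Finset.mul_sum]
    refine Finset.sum_congr rfl fun l _ => ?_
    rw [MH_js S hs]
    unfold js jr
    ring
  simp only
  rw [e1]
  calc _ = √s ^ 2 * k ^ 2 * (∑ l, P i l *
      (S.H s b (put b (√s • y) z) l j - mhr S s b z l j)) ^ 2 := by ring
    _ = _ := by rw [e]

lemma vR_pq (S : CS n k x) (hs : 0 < s) {v : Fin n → ℝ} (vb : v b = 0) (z : Pair n → ℝ) :
    vR S s b (fun i l => (if i = l then 1 else 0) - v i * v l) z = vR S s b (pq b b v) z := by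
  unfold vR
  refine AvP_congr (fun u => ?_) z
  refine Finset.sum_congr rfl fun i _ => Finset.sum_congr rfl fun j _ => ?_
  congr 1
  have h0 : S.H s b u b j - AvP s (row b) (fun u => S.H s b u b j) z = 0 := by
    have : (fun u => S.H s b u b j) = fun _ => 0 := funext fun u => H_row' S hs b u j
    rw [this, AvP_const, H_row' S hs, sub_zero]
  by_cases hi : i = b
  · subst hi
    have e1 : ∀ l, ((if i = l then (1 : ℝ) else 0) - v i * v l) *
        (S.H s i u l j - AvP s (row i) (fun u => S.H s i u l j) z) = 0 := by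
      intro l
      by_cases hl : i = l
      · rw [← hl, h0, mul_zero]
      · rw [if_neg hl, vb]; ring
    have e2 : ∀ l, pq i i v i l *
        (S.H s i u l j - AvP s (row i) (fun u => S.H s i u l j) z) = 0 := by
      intro l
      unfold pq
      rw [if_pos (Or.inl (Or.inl rfl)), zero_mul]
    rw [Finset.sum_eq_zero fun l _ => e1 l, Finset.sum_eq_zero fun l _ => e2 l]
  · refine Finset.sum_congr rfl fun l _ => ?_
    by_cases hl : l = b
    · subst hl
      rw [h0, mul_zero, mul_zero]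
    · unfold pq
      rw [if_neg (by tauto)]

/-- **`E|a^nl|²`, one row.** -/
theorem na1_row (S : CS n k x) (hFn : Fn k SkS (uu x s S.F) (S.mu s) Γ) (hs : 0 < s)
    (hs1 : s ≤ 1) (b : Fin n) (z : Pair n → ℝ) :
    ∫ y, ∑ i, nl (us S s b z) (js S s b z) i y ^ 2 ∂(gI (Fin n)) ≤
      36 * Γ ^ 6 * k ^ 6 * (2 * QA S s b b z + 2 * KA S s b b z) := by
  have g := gf_us S hs b z
  refine (nl_le g).trans ?_
  have e1 : ∀ i j y, js S s b z i j y - MH (js S s b z) i j =
      ∑ l, idq i l * (js S s b z l j y - MH (js S s b z) l j) := by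
    intro i j y
    unfold idq
    simp
  have e3 : ∑ i, ∑ j, ∫ y, (js S s b z i j y - MH (js S s b z) i j) ^ 2 ∂(gI (Fin n)) =
      ∑ i, ∑ j, ∫ y, (∑ l, idq i l * (js S s b z l j y - MH (js S s b z) l j)) ^ 2
        ∂(gI (Fin n)) :=
    Finset.sum_congr rfl fun i _ => Finset.sum_congr rfl fun j _ =>
      integral_congr_ae (Filter.Eventually.of_forall fun y => by
        show (js S s b z i j y - MH (js S s b z) i j) ^ 2 = _
        rw [e1 i j y])
  rw [e3, sum_js S hs]
  have h2 := vR_le S hFn hs one_pos idq b z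
  have e2 : qP S idq s = qT S s := funext fun z => qP_id S s z
  rw [e2] at h2
  have h3 := AvP_qT_le S s (row b) z
  unfold QA KA KV
  rw [Finset.union_self]
  set X := AvP s (row b) (qT S s) z with hX
  have hX0 : 0 ≤ X := AvP_nonneg (fun z => qT_nonneg S s z) z
  have h4 : vR S s b idq z ≤ s ^ 2 * (k ^ 4 * (6 * Γ ^ 3) ^ 2) * X := by
    refine h2.trans (le_of_eq ?_)
    ring
  have h5 : s * k ^ 2 * vR S s b idq z ≤ s ^ 3 * (36 * Γ ^ 6 * k ^ 6 * X) := by
    refine (mul_le_mul_of_nonneg_left h4 (by positivity)).trans (le_of_eq ?_)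
    ring
  have h6 : s ^ 3 * (36 * Γ ^ 6 * k ^ 6 * X) ≤ 36 * Γ ^ 6 * k ^ 6 * X := by
    have h7 : s ^ 3 ≤ 1 := pow_le_one₀ hs.le hs1
    have h8 : 0 ≤ 36 * Γ ^ 6 * k ^ 6 * X := by
      have : 0 ≤ Γ ^ 6 := by positivity
      positivity
    nlinarith
  refine (h5.trans h6).trans ?_
  exact mul_le_mul_of_nonneg_left h3 (by positivity)

/-- **`2 E|P(H - E H)|²`, one row** (the right side of `eps1_le`). -/
theorem ne1_row (S : CS n k x) (hFn : Fn k SkS (uu x s S.F) (S.mu s) Γ) (hs : 0 < s)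
    (hs1 : s ≤ 1) (hη : 0 < η) {v : Fin n → ℝ} (hv : ∑ i, v i ^ 2 = 1) (vb : v b = 0)
    (z : Pair n → ℝ) :
    2 * ∑ i, ∑ j, ∫ y, ((js S s b z i j y - MH (js S s b z) i j) -
      v i * ∑ l, v l * (js S s b z l j y - MH (js S s b z) l j)) ^ 2 ∂(gI (Fin n)) ≤
    36 * Γ ^ 6 * k ^ 6 * ((η⁻¹) ^ 3 *
      AvP s (row b) (fun z => n4 (rho4 (pj v) (tX (S.mu s z) (ubq b b)))) z +
      3 * η * (2 * QA S s b b z + 2 * KA S s b b z)) := by
  have e1 : ∀ i j y, (js S s b z i j y - MH (js S s b z) i j) -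
      v i * ∑ l, v l * (js S s b z l j y - MH (js S s b z) l j) =
      ∑ l, (fun i l => (if i = l then (1 : ℝ) else 0) - v i * v l) i l *
        (js S s b z l j y - MH (js S s b z) l j) := by
    intro i j y
    simp only [sub_mul, ite_mul, one_mul, zero_mul, Finset.sum_sub_distrib, Finset.sum_ite_eq,
      Finset.mem_univ, if_true, Finset.mul_sum, mul_assoc]
  simp only [e1]
  rw [sum_js S hs, vR_pq S hs vb]
  have h2 := vR_le S hFn hs hη (pq b b v) b z
  have e2 : qP S (pq b b v) s = fun z => n4 (rho4 (pj v) (tX (S.mu s z) (ubq b b))) :=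
    funext fun z => qP_pq S hv vb vb s z
  rw [e2] at h2
  have h3 := AvP_qT_le S s (row b) z
  unfold QA KA KV
  rw [Finset.union_self]
  set X := AvP s (row b) (qT S s) z with hX
  set Y := AvP s (row b)
    (fun z => n4 (rho4 (pj v) (tX (S.mu s z) (ubq b b)))) z with hY
  have hX0 : 0 ≤ X := AvP_nonneg (fun z => qT_nonneg S s z) z
  have hY0 : 0 ≤ Y := AvP_nonneg (fun z => n4_nonneg _) z
  have hi : 0 ≤ (η⁻¹) ^ 3 := by positivity
  have h5 : 2 * (s * k ^ 2 * vR S s b (pq b b v) z) ≤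
      s ^ 3 * (18 * Γ ^ 6 * k ^ 6 * ((η⁻¹) ^ 3 * Y + 3 * η * X)) := by
    have h5' := mul_le_mul_of_nonneg_left h2 (show 0 ≤ 2 * (s * k ^ 2) by positivity)
    refine (le_of_eq (by ring)).trans (h5'.trans (le_of_eq ?_))
    ring
  have h8 : 0 ≤ 18 * Γ ^ 6 * k ^ 6 * ((η⁻¹) ^ 3 * Y + 3 * η * X) := by positivity
  have h6 : s ^ 3 * (18 * Γ ^ 6 * k ^ 6 * ((η⁻¹) ^ 3 * Y + 3 * η * X)) ≤
      18 * Γ ^ 6 * k ^ 6 * ((η⁻¹) ^ 3 * Y + 3 * η * X) := by
    have h7 : s ^ 3 ≤ 1 := pow_le_one₀ hs.le hs1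
    nlinarith
  refine (h5.trans h6).trans ?_
  have h9 : (η⁻¹) ^ 3 * Y + 3 * η * X ≤ (η⁻¹) ^ 3 * Y + 3 * η *
      (2 * AvP s (row b) (fun z => fr (S.A s z) ^ 2) z +
        2 * AvP s (row b) (fun z => KT (S.T4 s z) (S.A s z)) z) :=
    add_le_add le_rfl (mul_le_mul_of_nonneg_left h3 (by positivity))
  have h10 : 0 ≤ Γ ^ 6 * k ^ 6 := by positivity
  have h11 : 0 ≤ (η⁻¹) ^ 3 * Y + 3 * η *
      (2 * AvP s (row b) (fun z => fr (S.A s z) ^ 2) z +
        2 * AvP s (row b) (fun z => KT (S.T4 s z) (S.A s z)) z) :=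
    le_trans (by positivity) h9
  nlinarith [mul_le_mul_of_nonneg_left h9 h10, mul_nonneg h10 h11]

/-- **The transversal part of the nonlinear field, one row**, in the bulk numbers. -/
theorem bk_d (S : CS n k x) {z : Pair n → ℝ} {v : Fin n → ℝ} (h : Bv S s b b z v)
    (hFn : Fn k SkS (uu x s S.F) (S.mu s) Γ) (hs : 0 < s) (hs1 : s ≤ 1) (hη : 0 < η) :
    ∫ y, ∑ i, (nl (us S s b z) (js S s b z) i y - v i * al v (us S s b z) (js S s b z) y) ^ 2
      ∂(gI (Fin n)) ≤
    36 * Γ ^ 6 * k ^ 6 * ((η⁻¹) ^ 3 * (36 * ThA S s b b z) +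
      3 * η * (2 * QA S s b b z + 2 * KA S s b b z)) := by
  refine (eps1_le (gf_us S hs b z) h.v1).trans ((ne1_row S hFn hs hs1 hη h.v1 h.vb z).trans ?_)
  have h1 := h.E1t
  rw [Finset.union_self] at h1
  refine mul_le_mul_of_nonneg_left (add_le_add ?_ le_rfl) (by positivity)
  exact mul_le_mul_of_nonneg_left h1 (by positivity)

/-- the profile is below the nonlinear part -/
theorem bk_al (S : CS n k x) (z : Pair n → ℝ) {v : Fin n → ℝ} (hv : ∑ i, v i ^ 2 = 1)
    (hFn : Fn k SkS (uu x s S.F) (S.mu s) Γ) (hs : 0 < s) (hs1 : s ≤ 1) :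
    ∫ y, al v (us S s b z) (js S s b z) y ^ 2 ∂(gI (Fin n)) ≤
      36 * Γ ^ 6 * k ^ 6 * (2 * QA S s b b z + 2 * KA S s b b z) := by
  have h := nl_split (gf_us S hs b z) hv
  have h0 : 0 ≤ ∫ y, ∑ i, (nl (us S s b z) (js S s b z) i y -
      v i * al v (us S s b z) (js S s b z) y) ^ 2 ∂(gI (Fin n)) :=
    integral_nonneg fun y => Finset.sum_nonneg fun i _ => sq_nonneg _
  have h1 := na1_row S hFn hs hs1 b z
  linarith

/-- Existence of the vector as an eigenvector of the row-frozen matrix. -/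
theorem exists_Bv_eig (S : CS n k x) (s : ℝ) (h2 : 2 ≤ n) (b : Fin n) (z : Pair n → ℝ) :
    ∃ (v : Fin n → ℝ) (l : ℝ), Bv S s b b z v ∧ CBq S s b b z *ᵥ v = l • v := by
  have hT : (CBq S s b b z)ᵀ = CBq S s b b z := bq_T (psd_CB S s b b z).1
  by_cases h0 : CBq S s b b z = 0
  · obtain ⟨c, hc⟩ : ∃ c : Fin n, c ≠ b := by
      have : Nontrivial (Fin n) := Fin.nontrivial_iff_two_le.2 h2
      exact exists_ne b
    refine ⟨fun i => if i = c then 1 else 0, 0, ⟨?_, ?_, ?_, ?_⟩, ?_⟩
    · have : ∀ i, (if i = c then (1 : ℝ) else 0) ^ 2 = if i = c then 1 else 0 := by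
        intro i; split_ifs <;> simp
      simp only [this, Finset.sum_ite_eq', Finset.mem_univ, if_true]
    · exact if_neg hc.symm
    · exact if_neg hc.symm
    · rw [h0]
      unfold dfc
      simp [fr]
    · rw [h0]; simp
  · have : Nonempty (Fin n) := ⟨b⟩
    obtain ⟨v, m, h1, h2, h3, h4⟩ := top_eig hT
    have hm : m ≠ 0 := fun h => h0 (h3 h)
    have hb : v b = 0 := by
      have e : (CBq S s b b z *ᵥ v) b = 0 := by
        unfold mulVec dotProduct
        refine Finset.sum_eq_zero fun j _ => ?_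
        have e0 : CBq S s b b z b j = 0 := by
          unfold CBq bq
          rw [if_pos (Or.inl (Or.inl rfl))]
        show CBq S s b b z b j * v j = 0
        rw [e0, zero_mul]
      have := h2 b
      rw [e] at this
      exact (mul_eq_zero.1 this.symm).resolve_left hm
    refine ⟨v, m, ⟨h1, hb, hb, h4⟩, ?_⟩
    funext i
    rw [h2 i]
    rfl

end Vale.Agent.P146.H329
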