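import Vale.Agent.P146.H501.Interp
import Vale.Agent.P146.H425.Gauss
import Vale.Agent.P146.H693.Kah

/-!
# P146: the planted comparison

`E e^{H(s0)} Z^{-p}` in a Gaussian exponential sum: the Cameron-Martin shift, and the comparison of
two planted sums with the same diagonal covariance.
-/

open MeasureTheory ProbabilityTheory

namespace Vale.Agent.P146.H329.PK

open Vale.Agent.P146 Vale.Agent.P146.H501

variable {ι ι' S : Type*} [Fintype ι] [Fintype ι'] [Fintype S]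

lemma zz_shift (a : S → ι → ℝ) (c : S → ℝ) (a0 g : ι → ℝ) :
    zz a c (g + a0) = zz a (fun s => (∑ i, a0 i * a s i) + c s) g := by
  unfold zz wt
  refine Finset.sum_congr rfl fun s _ => ?_
  congr 1
  have h : ∑ i, a s i * (g + a0) i = ∑ i, a s i * g i + ∑ i, a0 i * a s i := by
    rw [← Finset.sum_add_distrib]
    refine Finset.sum_congr rfl fun i _ => ?_
    rw [Pi.add_apply]
    ring
  rw [h]
  ring

/-- **the Cameron-Martin shift of a planted power** -/
theorem plant_shift (κ : ℝ) (a : S → ι → ℝ) (c : S → ℝ) (a0 : ι → ℝ) :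
    ∫ g, Real.exp (∑ i, a0 i * g i) * zp κ a c g ∂(gpi ι) =
      Real.exp ((∑ i, a0 i ^ 2) / 2) *
        ∫ g, zp κ a (fun s => (∑ i, a0 i * a s i) + c s) g ∂(gpi ι) := by
  have h := H425.integral_shift (ι := ι) (-a0) (zp κ a c)
  have e1 : ∀ J : ι → ℝ, zp κ a c (J - -a0) = zp κ a (fun s => (∑ i, a0 i * a s i) + c s) J := by
    intro J
    unfold zp
    rw [sub_neg_eq_add, zz_shift]
  have e2 : ∀ J : ι → ℝ, Real.exp (-(∑ i, (-a0) i * J i) - (∑ i, (-a0) i ^ 2) / 2) *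
      zp κ a c J = Real.exp (-((∑ i, a0 i ^ 2) / 2)) *
        (Real.exp (∑ i, a0 i * J i) * zp κ a c J) := by
    intro J
    rw [← mul_assoc, ← Real.exp_add]
    congr 2
    have e3 : ∑ i, (-a0) i * J i = -∑ i, a0 i * J i := by
      rw [← Finset.sum_neg_distrib]
      exact Finset.sum_congr rfl fun i _ => by simp
    have e4 : ∑ i, (-a0) i ^ 2 = ∑ i, a0 i ^ 2 := Finset.sum_congr rfl fun i _ => by simp
    rw [e3, e4]
    ring
  simp only [e1, e2] at h
  rw [integral_const_mul] at h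
  unfold gpi
  rw [h, ← mul_assoc, ← Real.exp_add]
  simp

/-- **The planted comparison**, from the comparison of the powers with fixed weights. -/
theorem pkah_of {a : S → ι → ℝ} {b : S → ι' → ℝ} {p : ℝ} {s0 : S}
    (hd : ∑ i, a s0 i ^ 2 = ∑ i, b s0 i ^ 2)
    (hK : ∫ g, zp (-p) a (fun s => ∑ i, a s0 i * a s i) g ∂(gpi ι) ≤
      ∫ g, zp (-p) b (fun s => ∑ i, a s0 i * a s i) g ∂(gpi ι')) :
    ∫ g, Real.exp (∑ i, a s0 i * g i) * zp (-p) a 0 g ∂(gpi ι) ≤
      ∫ g, Real.exp (∑ i, b s0 i * g i) * zp (-p) b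
        (fun s => ∑ i, a s0 i * a s i - ∑ i, b s0 i * b s i) g ∂(gpi ι') := by
  rw [plant_shift, plant_shift, hd]
  refine mul_le_mul_of_nonneg_left ?_ (Real.exp_pos _).le
  have e1 : (fun s => (∑ i, a s0 i * a s i) + (0 : S → ℝ) s) = fun s => ∑ i, a s0 i * a s i := by
    funext s
    simp
  have e2 : (fun s => (∑ i, b s0 i * b s i) +
      (∑ i, a s0 i * a s i - ∑ i, b s0 i * b s i)) = fun s => ∑ i, a s0 i * a s i := by
    funext s
    ring
  rw [e1, e2]
  exact hK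

/-- **The planted Kahane comparison.** -/
theorem pkah [Nonempty S] {a : S → ι → ℝ} {b : S → ι' → ℝ} {p : ℝ} (hp : 0 ≤ p)
    (hd : ∀ s, ∑ i, a s i ^ 2 = ∑ i, b s i ^ 2)
    (hle : ∀ s t, ∑ i, a s i * a t i ≤ ∑ i, b s i * b t i) (s0 : S) :
    ∫ g, Real.exp (∑ i, a s0 i * g i) * zp (-p) a 0 g ∂(gpi ι) ≤
      ∫ g, Real.exp (∑ i, b s0 i * g i) * zp (-p) b
        (fun s => ∑ i, a s0 i * a s i - ∑ i, b s0 i * b s i) g ∂(gpi ι') := by
  classical
  exact pkah_of (hd s0) (H693.kah_neg hp a b _ hd hle)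

end Vale.Agent.P146.H329.PK
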